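import Claimed.Agent.R286.Fd.NuApi

/-!
# Row 286 (S0533), Gaussian kit on `Defs/Gh.lean`: LAW OF A LEVEL, MERGE / SPLIT OF EQUAL MASSES      (owner helper135; prefix `ghs_`, `ghs*`; sorry free)

On top of the zero layer `Defs/GhBasic` (71) and `Fd/NuApi` (140).

* Part A: `ghs_nice` : every continuation is `GhNice` for ARBITRARY real masses (no `GhNn`).
* Part B: `ghs_law_congr` : the law of `l.inc ξ` depends on `l.cov` only (driver spaces may differ); `ghs_law_add` : sum of two independent levels;
  `ghs_integral_congr`, `ghs_integral_merge` (Gaussian semigroup);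
  `ghs_F_congr`, `ghs_F_merge` (two revelations of the same mass merge), `ghsSplit θ l`, `ghs_F_split` (intermediate cut), deep versions `ghs_F_*_deep`.
-/

set_option autoImplicit false
set_option linter.unusedSectionVars false

namespace Claimed.Agent.R286

open MeasureTheory ProbabilityTheory
open scoped ENNReal NNReal

variable {S ι ι₁ ι₂ : Type} [Fintype S] [Fintype ι] [Fintype ι₁] [Fintype ι₂]

/-! ### Part A: arbitrary real masses -/

/-- one step of the recursion preserves `GhNice`, for every real mass -/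
theorem ghs_nice_step {F : (S → ℝ) → ℝ} (h : GhNice F) (l : GhLv S ι) :
    GhNice fun z => ghT (ghStd ι) l.m fun ξ => F (z + l.inc ξ) := by
  rcases le_or_gt 0 l.m with hm | hm
  · exact h.step l hm
  · constructor
    · intro z z' hz
      simp only [ghT, hm.ne, if_false]
      refine mul_le_mul_of_nonpos_left ?_ (inv_nonpos.2 hm.le)
      refine Real.log_le_log (h.integral_exp_pos l _ z') ?_
      refine integral_mono (h.integrable_exp l _ z') (h.integrable_exp l _ z) fun ξ => ?_
      apply Real.exp_le_exp.2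
      exact mul_le_mul_of_nonpos_left (h.mono _ _ fun s => by simpa using hz s) hm.le
    · intro z c
      simp only [ghT, hm.ne, if_false]
      have e : ∀ ξ, Real.exp (l.m * F ((fun s => z s + c) + l.inc ξ))
          = Real.exp (l.m * c) * Real.exp (l.m * F (z + l.inc ξ)) := by
        intro ξ
        rw [← Real.exp_add]
        congr 1
        have : F ((fun s => z s + c) + l.inc ξ) = F (z + l.inc ξ) + c := by
          rw [← h.shift]
          congr 1
          funext s
          simp only [Pi.add_apply]; ring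
        rw [this]; ring
      simp_rw [e]
      rw [integral_const_mul, Real.log_mul (Real.exp_pos _).ne' (h.integral_exp_pos l _ z).ne',
        Real.log_exp]
      have := hm.ne
      field_simp
      ring

/-- **every continuation is monotone and translation equivariant**, whatever the masses -/
theorem ghs_nice {B : GhB S} (hB : B.Ok) : ∀ ls : List (GhLv S ι), GhNice (ghF B ls)
  | [] => gh_b_nice0 hB
  | l :: ls => by
      have := ghs_nice_step (ghs_nice hB ls) l
      exact this

theorem ghs_F_measurable {B : GhB S} (hB : B.Ok) (ls : List (GhLv S ι)) : Measurable (ghF B ls) :=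
  (ghs_nice hB ls).continuous.measurable

/-- `exp (m F_(l :: ls)) = ∫ exp (m F_ls)` (also at mass `0`) -/
theorem ghs_exp_m_mul_F {B : GhB S} (hB : B.Ok) (l : GhLv S ι) (ls : List (GhLv S ι)) (z : S → ℝ) :
    Real.exp (l.m * ghF B (l :: ls) z) = ∫ ξ, Real.exp (l.m * ghF B ls (z + l.inc ξ)) ∂ghStd ι := by
  by_cases hm : l.m = 0
  · simp [hm]
  · rw [gh_b_F_cons hm, ← mul_assoc, mul_inv_cancel₀ hm, one_mul, ghI,
      Real.exp_log ((ghs_nice hB ls).integral_exp_pos l _ z)]

/-! ### Part B: the law of a level -/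

/-- the increment map as a continuous linear map -/
noncomputable def ghsIncL (l : GhLv S ι) : (ι → ℝ) →L[ℝ] (S → ℝ) :=
  ContinuousLinearMap.pi fun s => ∑ i, l.A s i • ContinuousLinearMap.proj (R := ℝ) (φ := fun _ : ι => ℝ) i

theorem ghs_incL_apply (l : GhLv S ι) (ξ : ι → ℝ) : ghsIncL l ξ = l.inc ξ := by
  funext s
  simp [ghsIncL, GhLv.inc]

theorem ghs_incL_coe (l : GhLv S ι) : (ghsIncL l : (ι → ℝ) → (S → ℝ)) = l.inc := funext (ghs_incL_apply l)

theorem ghs_measurable_inc (l : GhLv S ι) : Measurable l.inc := (gh_b_inc_continuous l).measurable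

/-- a continuous linear form on a finite product, in coordinates -/
theorem ghs_dual_apply [DecidableEq ι] (L : StrongDual ℝ (ι → ℝ)) (x : ι → ℝ) : L x = ∑ i, L (Pi.single i 1) * x i := by
  conv_lhs => rw [← Finset.univ_sum_single x]
  rw [map_sum]
  refine Finset.sum_congr rfl fun i _ => ?_
  have : (Pi.single i (x i) : ι → ℝ) = x i • Pi.single i 1 := by
    rw [← Pi.single_smul]; simp
  rw [this, map_smul, smul_eq_mul, mul_comm]

theorem ghs_charFunDual_real (L : StrongDual ℝ ℝ) :
    charFunDual (gaussianReal 0 1) L = Complex.exp (-(((L 1) ^ 2 : ℝ) : ℂ) / 2) := by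
  have h := charFun_gaussianReal (μ := 0) (v := 1) (L 1)
  rw [charFun_apply_real] at h
  rw [charFunDual_apply]
  have e : ∀ v : ℝ, L v = L 1 * v := fun v => by
    have : v = v • (1 : ℝ) := by simp
    conv_lhs => rw [this, map_smul, smul_eq_mul, mul_comm]
  have e2 : (fun v : ℝ => Complex.exp (((L v : ℝ) : ℂ) * Complex.I))
      = fun v : ℝ => Complex.exp (((L 1 : ℝ) : ℂ) * (v : ℂ) * Complex.I) := by
    funext v
    rw [e v]
    push_cast
    rfl
  rw [e2, h]
  congr 1
  push_cast
  ring

/-- characteristic functional of the standard drivers -/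
theorem ghs_charFunDual_std [DecidableEq ι] (L : StrongDual ℝ (ι → ℝ)) :
    charFunDual (ghStd ι) L = Complex.exp (-((∑ i, (L (Pi.single i 1)) ^ 2 : ℝ) : ℂ) / 2) := by
  unfold ghStd
  rw [charFunDual_pi]
  simp_rw [ghs_charFunDual_real]
  rw [← Complex.exp_sum]
  congr 1
  push_cast
  rw [← Finset.sum_neg_distrib, Finset.sum_div]
  rfl

/-- **characteristic functional of the law of a level: it depends on the covariance increment only** -/
theorem ghs_charFunDual_law [DecidableEq S] (l : GhLv S ι) (L : StrongDual ℝ (S → ℝ)) :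
    charFunDual ((ghStd ι).map l.inc) L
      = Complex.exp (-((∑ s, ∑ t, L (Pi.single s 1) * L (Pi.single t 1) * l.cov s t : ℝ) : ℂ) / 2) := by
  classical
  rw [← ghs_incL_coe, charFunDual_map, ghs_charFunDual_std]
  congr 3
  have e : ∀ i, (L.comp (ghsIncL l)) (Pi.single i 1) = ∑ s, L (Pi.single s 1) * l.A s i := by
    intro i
    rw [ContinuousLinearMap.comp_apply, ghs_incL_apply, ghs_dual_apply L]
    refine Finset.sum_congr rfl fun s _ => ?_
    simp [GhLv.inc, Pi.single_apply]
  simp_rw [e, GhLv.cov, sq, Finset.sum_mul_sum, Finset.mul_sum]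
  congr 1
  rw [Finset.sum_comm]
  refine Finset.sum_congr rfl fun s _ => ?_
  rw [Finset.sum_comm]
  exact Finset.sum_congr rfl fun t _ => Finset.sum_congr rfl fun i _ => by ring

instance ghs_law_prob (l : GhLv S ι) : IsProbabilityMeasure ((ghStd ι).map l.inc) :=
  Measure.isProbabilityMeasure_map (ghs_measurable_inc l).aemeasurable

/-- two levels with the same covariance increment have the same law (the driver spaces may differ) -/
theorem ghs_law_congr (l : GhLv S ι) (l' : GhLv S ι₁) (h : ∀ s t, l.cov s t = l'.cov s t) :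
    (ghStd ι).map l.inc = (ghStd ι₁).map l'.inc := by
  classical
  refine Measure.ext_of_charFunDual (funext fun L => ?_)
  rw [ghs_charFunDual_law, ghs_charFunDual_law]
  simp_rw [h]

/-- sum of two independent levels -/
theorem ghs_law_add (l₁ : GhLv S ι₁) (l₂ : GhLv S ι₂) (l : GhLv S ι)
    (h : ∀ s t, l.cov s t = l₁.cov s t + l₂.cov s t) :
    ((ghStd ι₁).prod (ghStd ι₂)).map (fun p => l₁.inc p.1 + l₂.inc p.2) = (ghStd ι).map l.inc := by
  classical
  have e : ((ghStd ι₁).prod (ghStd ι₂)).map (fun p => l₁.inc p.1 + l₂.inc p.2)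
      = (((ghStd ι₁).map l₁.inc).prod ((ghStd ι₂).map l₂.inc)).map fun p => p.1 + p.2 := by
    rw [Measure.map_prod_map _ _ (ghs_measurable_inc l₁) (ghs_measurable_inc l₂),
      Measure.map_map (by fun_prop) ((ghs_measurable_inc l₁).prodMap (ghs_measurable_inc l₂))]
    rfl
  rw [e]
  have : IsProbabilityMeasure ((((ghStd ι₁).map l₁.inc).prod ((ghStd ι₂).map l₂.inc)).map fun p => p.1 + p.2) :=
    Measure.isProbabilityMeasure_map (by fun_prop)
  refine Measure.ext_of_charFunDual ?_
  rw [charFunDual_map_add_prod_eq_mul]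
  funext L
  rw [Pi.mul_apply, ghs_charFunDual_law, ghs_charFunDual_law, ghs_charFunDual_law, ← Complex.exp_add]
  congr 1
  simp_rw [h, mul_add, Finset.sum_add_distrib]
  push_cast
  ring

/-- transfer of an integral between two levels with the same covariance increment -/
theorem ghs_integral_congr (l : GhLv S ι) (l' : GhLv S ι₁) (h : ∀ s t, l.cov s t = l'.cov s t)
    (g : (S → ℝ) → ℝ) (hg : Measurable g) :
    ∫ ξ, g (l.inc ξ) ∂ghStd ι = ∫ ξ, g (l'.inc ξ) ∂ghStd ι₁ := by
  rw [← integral_map (ghs_measurable_inc l).aemeasurable hg.aestronglyMeasurable, ghs_law_congr l l' h,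
    integral_map (ghs_measurable_inc l').aemeasurable hg.aestronglyMeasurable]

theorem ghs_integrable_congr (l : GhLv S ι) (l' : GhLv S ι₁) (h : ∀ s t, l.cov s t = l'.cov s t)
    (g : (S → ℝ) → ℝ) (hg : Measurable g) (hi : Integrable (fun ξ => g (l.inc ξ)) (ghStd ι)) :
    Integrable (fun ξ => g (l'.inc ξ)) (ghStd ι₁) := by
  have h1 : Integrable g ((ghStd ι).map l.inc) :=
    (integrable_map_measure hg.aestronglyMeasurable (ghs_measurable_inc l).aemeasurable).mpr hi
  rw [ghs_law_congr l l' h] at h1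
  exact (integrable_map_measure hg.aestronglyMeasurable (ghs_measurable_inc l').aemeasurable).mp h1

/-- integrability on the product of the drivers of two levels -/
theorem ghs_integrable_merge (l₁ : GhLv S ι₁) (l₂ : GhLv S ι₂) (l : GhLv S ι)
    (h : ∀ s t, l.cov s t = l₁.cov s t + l₂.cov s t) (g : (S → ℝ) → ℝ) (hg : Measurable g)
    (hi : Integrable (fun ξ => g (l.inc ξ)) (ghStd ι)) :
    Integrable (fun p : (ι₁ → ℝ) × (ι₂ → ℝ) => g (l₁.inc p.1 + l₂.inc p.2)) ((ghStd ι₁).prod (ghStd ι₂)) := by
  have h1 : Integrable g ((ghStd ι).map l.inc) :=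
    (integrable_map_measure hg.aestronglyMeasurable (ghs_measurable_inc l).aemeasurable).mpr hi
  rw [← ghs_law_add l₁ l₂ l h] at h1
  have hm : Measurable fun p : (ι₁ → ℝ) × (ι₂ → ℝ) => l₁.inc p.1 + l₂.inc p.2 :=
    ((ghs_measurable_inc l₁).comp measurable_fst).add ((ghs_measurable_inc l₂).comp measurable_snd)
  exact (integrable_map_measure hg.aestronglyMeasurable hm.aemeasurable).mp h1

/-- **Gaussian semigroup**: two successive independent increments = one increment with the sum of the covariances -/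
theorem ghs_integral_merge (l₁ : GhLv S ι₁) (l₂ : GhLv S ι₂) (l : GhLv S ι)
    (h : ∀ s t, l.cov s t = l₁.cov s t + l₂.cov s t) (g : (S → ℝ) → ℝ) (hg : Measurable g)
    (hi : Integrable (fun ξ => g (l.inc ξ)) (ghStd ι)) :
    ∫ ξ, ∫ ξ', g (l₁.inc ξ + l₂.inc ξ') ∂ghStd ι₂ ∂ghStd ι₁ = ∫ ξ, g (l.inc ξ) ∂ghStd ι := by
  have hm : Measurable fun p : (ι₁ → ℝ) × (ι₂ → ℝ) => l₁.inc p.1 + l₂.inc p.2 :=
    ((ghs_measurable_inc l₁).comp measurable_fst).add ((ghs_measurable_inc l₂).comp measurable_snd)
  rw [← integral_prod _ (ghs_integrable_merge l₁ l₂ l h g hg hi),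
    ← integral_map (ghs_measurable_inc l).aemeasurable hg.aestronglyMeasurable, ← ghs_law_add l₁ l₂ l h,
    integral_map hm.aemeasurable hg.aestronglyMeasurable]

/-- one step `T_m` depends on the level through its mass and its covariance increment only -/
theorem ghs_T_congr (l : GhLv S ι) (l' : GhLv S ι₁) (hm : l.m = l'.m) (hc : ∀ s t, l.cov s t = l'.cov s t)
    (F : (S → ℝ) → ℝ) (hF : Measurable F) (z : S → ℝ) :
    ghT (ghStd ι) l.m (fun ξ => F (z + l.inc ξ)) = ghT (ghStd ι₁) l'.m fun ξ => F (z + l'.inc ξ) := by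
  simp only [ghT, hm]
  rw [ghs_integral_congr l l' hc (fun x => F (z + x)) (hF.comp (measurable_const.add measurable_id)),
    ghs_integral_congr l l' hc (fun x => Real.exp (l'.m * F (z + x)))
      (Real.measurable_exp.comp (measurable_const.mul (hF.comp (measurable_const.add measurable_id))))]

/-- same masses, same covariance increments -/
def GhsSame (l : GhLv S ι) (l' : GhLv S ι₁) : Prop := l.m = l'.m ∧ ∀ s t, l.cov s t = l'.cov s t

/-- **the continuation depends on the levels through their masses and covariance increments only** (the driver spaces may differ) -/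
theorem ghs_F_cov_congr {B : GhB S} (hB : B.Ok) {ls : List (GhLv S ι)} {ls' : List (GhLv S ι₁)}
    (h : List.Forall₂ GhsSame ls ls') : ghF B ls = ghF B ls' := by
  induction h with
  | nil => rfl
  | @cons l l' ls ls' hl _ ih =>
    funext z
    simp only [ghF]
    rw [ih]
    exact ghs_T_congr l l' hl.1 hl.2 _ (ghs_F_measurable hB ls') z

theorem ghs_F_congr {B : GhB S} (hB : B.Ok) (l l' : GhLv S ι) (ls : List (GhLv S ι))
    (hm : l.m = l'.m) (hc : ∀ s t, l.cov s t = l'.cov s t) : ghF B (l :: ls) = ghF B (l' :: ls) := by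
  funext z
  exact ghs_T_congr l l' hm hc _ (ghs_F_measurable hB ls) z

/-- **merge of two revelations of the same mass** -/
theorem ghs_F_merge {B : GhB S} (hB : B.Ok) (l₁ l₂ l : GhLv S ι) (ls : List (GhLv S ι))
    (hm₁ : l₁.m = l.m) (hm₂ : l₂.m = l.m) (hc : ∀ s t, l.cov s t = l₁.cov s t + l₂.cov s t) :
    ghF B (l₁ :: l₂ :: ls) = ghF B (l :: ls) := by
  funext z
  have hL := ghs_nice hB ls
  have hF := ghs_F_measurable hB ls
  by_cases h0 : l.m = 0
  · simp only [ghF, ghT, hm₁, hm₂, h0, if_true]
    have := ghs_integral_merge l₁ l₂ l hc (fun x => ghF B ls (z + x)) (hF.comp (measurable_const.add measurable_id))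
      (hL.integrable l z)
    simp only [← add_assoc] at this
    exact this
  · have e : ∀ ξ, Real.exp (l.m * ghF B (l₂ :: ls) (z + l₁.inc ξ))
        = ∫ ξ', Real.exp (l.m * ghF B ls (z + l₁.inc ξ + l₂.inc ξ')) ∂ghStd ι := by
      intro ξ
      have := ghs_exp_m_mul_F hB l₂ ls (z + l₁.inc ξ)
      rwa [hm₂] at this
    have h1 : ghF B (l₁ :: l₂ :: ls) z
        = l.m⁻¹ * Real.log (∫ ξ, Real.exp (l.m * ghF B (l₂ :: ls) (z + l₁.inc ξ)) ∂ghStd ι) := by
      rw [ghF, ghT, hm₁, if_neg h0]
    have h2 : ghF B (l :: ls) z = l.m⁻¹ * Real.log (∫ ξ, Real.exp (l.m * ghF B ls (z + l.inc ξ)) ∂ghStd ι) := by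
      rw [ghF, ghT, if_neg h0]
    rw [h1, h2]
    simp_rw [e]
    have := ghs_integral_merge l₁ l₂ l hc (fun x => Real.exp (l.m * ghF B ls (z + x)))
      (Real.measurable_exp.comp (measurable_const.mul (hF.comp (measurable_const.add measurable_id))))
      (hL.integrable_exp l l.m z)
    simp only [← add_assoc] at this
    rw [this]

/-- a revelation with zero covariance increment may be deleted -/
theorem ghs_F_empty (B : GhB S) (l : GhLv S ι) (ls : List (GhLv S ι)) (h0 : ∀ s, l.cov s s = 0) :
    ghF B (l :: ls) = ghF B ls := by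
  have hA : ∀ s i, l.A s i = 0 := by
    intro s i
    have := h0 s
    unfold GhLv.cov at this
    have h2 := (Finset.sum_eq_zero_iff_of_nonneg (fun i _ => mul_self_nonneg (l.A s i))).1 this i (Finset.mem_univ i)
    exact mul_self_eq_zero.1 h2
  have hinc : ∀ ξ, l.inc ξ = 0 := by
    intro ξ; funext s; simp [GhLv.inc, hA]
  funext z
  simp only [ghF, ghT, hinc, add_zero]
  split_ifs with hm
  · simp
  · simp only [integral_const, probReal_univ, one_smul, Real.log_exp]
    rw [← mul_assoc, inv_mul_cancel₀ hm, one_mul]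

/-- what happens behind a prefix -/
theorem ghs_F_append_congr (B : GhB S) (pre : List (GhLv S ι)) {X Y : List (GhLv S ι)} (h : ghF B X = ghF B Y) :
    ghF B (pre ++ X) = ghF B (pre ++ Y) := by
  induction pre with
  | nil => exact h
  | cons p pre ih =>
    funext z
    simp only [List.cons_append, ghF]
    rw [ih]

theorem ghs_F_merge_deep {B : GhB S} (hB : B.Ok) (pre : List (GhLv S ι)) (l₁ l₂ l : GhLv S ι) (ls : List (GhLv S ι))
    (hm₁ : l₁.m = l.m) (hm₂ : l₂.m = l.m) (hc : ∀ s t, l.cov s t = l₁.cov s t + l₂.cov s t) :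
    ghF B (pre ++ l₁ :: l₂ :: ls) = ghF B (pre ++ l :: ls) :=
  ghs_F_append_congr B pre (ghs_F_merge hB l₁ l₂ l ls hm₁ hm₂ hc)

theorem ghs_F_empty_deep (B : GhB S) (pre : List (GhLv S ι)) (l : GhLv S ι) (ls : List (GhLv S ι))
    (h0 : ∀ s, l.cov s s = 0) : ghF B (pre ++ l :: ls) = ghF B (pre ++ ls) :=
  ghs_F_append_congr B pre (ghs_F_empty B l ls h0)

/-- the level with the factor multiplied by `c` (covariance increment multiplied by `c²`) -/
def ghsScale (c : ℝ) (l : GhLv S ι) : GhLv S ι := ⟨l.m, fun s i => c * l.A s i⟩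

theorem ghs_scale_cov (c : ℝ) (l : GhLv S ι) (s t : S) : (ghsScale c l).cov s t = c ^ 2 * l.cov s t := by
  simp only [GhLv.cov, ghsScale, Finset.mul_sum]
  exact Finset.sum_congr rfl fun i _ => by ring

theorem ghs_scale_inc (c : ℝ) (l : GhLv S ι) (ξ : ι → ℝ) : (ghsScale c l).inc ξ = c • l.inc ξ := by
  funext s
  simp only [GhLv.inc, ghsScale, Pi.smul_apply, smul_eq_mul, Finset.mul_sum]
  exact Finset.sum_congr rfl fun i _ => by ring

/-- the intermediate cut `θ` of a level: first the part `θ` of the covariance increment, then the part `1 - θ` -/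
noncomputable def ghsSplit (θ : ℝ) (l : GhLv S ι) : List (GhLv S ι) :=
  [ghsScale (Real.sqrt θ) l, ghsScale (Real.sqrt (1 - θ)) l]

/-- **an intermediate cut does not change the continuation** -/
theorem ghs_F_split {B : GhB S} (hB : B.Ok) (l : GhLv S ι) (ls : List (GhLv S ι))
    {θ : ℝ} (h0 : 0 ≤ θ) (h1 : θ ≤ 1) : ghF B (ghsSplit θ l ++ ls) = ghF B (l :: ls) := by
  refine ghs_F_merge hB (ghsScale (Real.sqrt θ) l) (ghsScale (Real.sqrt (1 - θ)) l) l ls rfl rfl (fun s t => ?_)
  rw [ghs_scale_cov, ghs_scale_cov, Real.sq_sqrt h0, Real.sq_sqrt (by linarith)]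
  ring

theorem ghs_F_split_deep {B : GhB S} (hB : B.Ok) (pre : List (GhLv S ι)) (l : GhLv S ι) (ls : List (GhLv S ι))
    {θ : ℝ} (h0 : 0 ≤ θ) (h1 : θ ≤ 1) : ghF B (pre ++ ghsSplit θ l ++ ls) = ghF B (pre ++ l :: ls) := by
  rw [List.append_assoc]
  exact ghs_F_append_congr B pre (ghs_F_split hB l ls h0 h1)

theorem ghs_eqns_cite : True := by
  have := @ghsIncL.eq_1
  have := @GhsSame.eq_1
  have := @ghsScale.eq_1
  have := @ghsSplit.eq_1
  trivial

end Claimed.Agent.R286
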