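import Claimed.Agent.R286.Gk.Reg

/-!
# Row 286 (S0533), Gaussian kit, file Gk/Der : FIRST AND SECOND DERIVATIVES OF `T_m F`, TILTED BRACKETS      (owner helper152; prefixes `ghd_`, `ghdD`)

On the vocabulary of `Gk/Reg` (helper91): `GkNoise μ a`, `GkGr`, `GkReg`.

General part (one level; `μ` a probability measure, `a` a noise, `F` in the class `GkReg`, ANY real mass `m`):
* `ghdD μ a m F z o = exp (m (F (z + a o) - T_m F z))` : the tilted density; `ghd_D_pos`, `ghd_D_integrable`, `ghd_D_int` (`∫ = 1`);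
* `ghd_T_hasFDerivAt`  : `D (T_m F)(z) = ∫ ghdD • DF (z + a)`;
* `ghd_Br_hasFDerivAt` : derivative of a tilted bracket `z ↦ ∫ ghdD z * Ψ (z + a)`;
* `ghd_Br_continuous`, `ghd_Br_norm_le`, `ghd_D_smul_integrable`, `ghd_D_mul_integrable`, `ghd_center` (centering of a product);
* `GkReg.ghd_dir` : a directional derivative of a function of the class is in the class (and bounded: `GkReg.ghd_dir_bdd`).

Hierarchy part (`B.Ok`, ANY list of levels, any real masses), TEX[PE:lem:found-source] (gradient and Hessian):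
* `ghd_ghD_eq` (`ghD = ghdD`), `ghd_ghD_pos`, `ghd_ghD_integrable`, `ghd_ghD_int` (`∫ ghD = 1`), `ghd_Gw_nonneg`, `ghd_Gw_sum`;
* `ghd_fderiv_F` : `fderiv ℝ (ghF B ls) z v = ghE B ls v z`;   `ghd_F_hasDerivAt` (along a line);   `ghd_E_reg : GkReg (ghE B ls v)`;
* `ghd_fderiv_E` : `fderiv ℝ (ghE B ls v) z w = ghH B ls v w z`.
-/

set_option autoImplicit false

namespace Claimed.Agent.R286

open MeasureTheory ProbabilityTheory Filter Topology
open scoped ContDiff

section tilt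

variable {Ω : Type} [MeasurableSpace Ω] {V : Type} [NormedAddCommGroup V] [NormedSpace ℝ V]
variable {G : Type} [NormedAddCommGroup G] [NormedSpace ℝ G]
variable {μ : Measure Ω} {a : Ω → V}

/-! ### closure of exponential growth -/

omit [NormedSpace ℝ V] [NormedSpace ℝ G] in
theorem ghd_gr_of_bdd {K : V → G} {C : ℝ} (h : ∀ w, ‖K w‖ ≤ C) : GkGr K :=
  ⟨C, 0, (norm_nonneg _).trans (h 0), le_rfl, fun w => by simpa using h w⟩

omit [NormedSpace ℝ V] in
theorem ghd_exp_mono {c c' : ℝ} (h : c ≤ c') (w : V) : Real.exp (c * ‖w‖) ≤ Real.exp (c' * ‖w‖) :=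
  Real.exp_le_exp.2 (mul_le_mul_of_nonneg_right h (norm_nonneg _))

omit [NormedSpace ℝ V] [NormedSpace ℝ G] in
theorem ghd_gr_add {K K₂ : V → G} (h : GkGr K) (h₂ : GkGr K₂) : GkGr (fun w => K w + K₂ w) := by
  obtain ⟨C, c, hC, hc, hb⟩ := h
  obtain ⟨C₂, c₂, hC₂, hc₂, hb₂⟩ := h₂
  refine ⟨C + C₂, c + c₂, add_nonneg hC hC₂, add_nonneg hc hc₂, fun w => (norm_add_le _ _).trans ?_⟩
  rw [add_mul]
  refine add_le_add ((hb w).trans ?_) ((hb₂ w).trans ?_)
  · exact mul_le_mul_of_nonneg_left (ghd_exp_mono (by linarith) w) hC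
  · exact mul_le_mul_of_nonneg_left (ghd_exp_mono (by linarith) w) hC₂

omit [NormedSpace ℝ V] in
theorem ghd_gr_smul {u : V → ℝ} {K : V → G} (h : GkGr u) (h₂ : GkGr K) : GkGr (fun w => u w • K w) := by
  obtain ⟨C, c, hC, hc, hb⟩ := h
  obtain ⟨C₂, c₂, hC₂, hc₂, hb₂⟩ := h₂
  refine ⟨C * C₂, c + c₂, mul_nonneg hC hC₂, add_nonneg hc hc₂, fun w => ?_⟩
  rw [norm_smul, add_mul, Real.exp_add]
  calc ‖u w‖ * ‖K w‖ ≤ (C * Real.exp (c * ‖w‖)) * (C₂ * Real.exp (c₂ * ‖w‖)) :=
        mul_le_mul (hb w) (hb₂ w) (norm_nonneg _) (mul_nonneg hC (Real.exp_pos _).le)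
    _ = C * C₂ * (Real.exp (c * ‖w‖) * Real.exp (c₂ * ‖w‖)) := by ring

omit [NormedSpace ℝ V] in
theorem ghd_gr_mul {u K : V → ℝ} (h : GkGr u) (h₂ : GkGr K) : GkGr (fun w => u w * K w) :=
  ghd_gr_smul h h₂

omit [NormedSpace ℝ V] in
theorem ghd_gr_const_smul {K : V → G} (h : GkGr K) (r : ℝ) : GkGr (fun w => r • K w) :=
  ghd_gr_smul (ghd_gr_of_bdd (K := fun _ : V => r) (C := ‖r‖) fun _ => le_rfl) h

/-- differentiation under the noise integral, with an explicit derivative -/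
theorem ghd_P_hasFDerivAt (hn : GkNoise μ a) {K : V → G} {K' : V → V →L[ℝ] G}
    (hK : ∀ w, HasFDerivAt K (K' w) w) (hK'c : Continuous K') (hb : GkGr K) (hb' : GkGr K') (z₀ : V) :
    HasFDerivAt (fun z => ∫ o, K (z + a o) ∂μ) (∫ o, K' (z₀ + a o) ∂μ) z₀ := by
  have h1 : fderiv ℝ K = K' := funext fun w => (hK w).fderiv
  have h2 := gk_P_hasFDerivAt hn (u := K) (fun w => (hK w).differentiableAt) (by rw [h1]; exact hK'c) hb
    (by rw [h1]; exact hb') z₀
  rw [h1] at h2
  exact h2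

/-! ### elementary facts on the class -/

variable {F : V → ℝ}

theorem GkReg.ghd_differentiable (hF : GkReg F) : Differentiable ℝ F :=
  hF.smooth.differentiable (by simp)

theorem GkReg.ghd_continuous (hF : GkReg F) : Continuous F := hF.smooth.continuous

theorem GkReg.ghd_continuous_fderiv (hF : GkReg F) : Continuous (fderiv ℝ F) :=
  hF.smooth.continuous_fderiv (by simp)

theorem GkReg.ghd_hasFDerivAt (hF : GkReg F) (w : V) : HasFDerivAt F (fderiv ℝ F w) w :=
  (hF.ghd_differentiable w).hasFDerivAt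

theorem GkReg.ghd_fderiv_bdd (hF : GkReg F) : ∃ L : ℝ, ∀ w, ‖fderiv ℝ F w‖ ≤ L := by
  obtain ⟨L, hL⟩ := hF.bdd 1 le_rfl
  exact ⟨L, fun w => by rw [← norm_iteratedFDeriv_one]; exact hL w⟩

theorem GkReg.ghd_gr_fderiv (hF : GkReg F) : GkGr (fderiv ℝ F) := by
  obtain ⟨L, hL⟩ := hF.ghd_fderiv_bdd
  exact ghd_gr_of_bdd hL

theorem GkReg.ghd_gr_exp (hF : GkReg F) (m : ℝ) : GkGr (fun w => Real.exp (m * F w)) :=
  ((hF.const_mul m).exp.eg 0).gr

/-! ### the tilted density -/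

/-- the tilted density -/
noncomputable def ghdD (μ : Measure Ω) (a : Ω → V) (m : ℝ) (F : V → ℝ) (z : V) (o : Ω) : ℝ :=
  Real.exp (m * (F (z + a o) - ghT μ m fun o => F (z + a o)))

omit [NormedSpace ℝ V] in
theorem ghd_D_pos (m : ℝ) (F : V → ℝ) (z : V) (o : Ω) : 0 < ghdD μ a m F z o := Real.exp_pos _

omit [NormedSpace ℝ V] in
theorem ghd_D_eq (m : ℝ) (F : V → ℝ) (z : V) (o : Ω) :
    ghdD μ a m F z o = Real.exp (-(m * ghT μ m fun o => F (z + a o))) * Real.exp (m * F (z + a o)) := by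
  rw [ghdD, ← Real.exp_add]
  congr 1
  ring

theorem ghd_exp_integrable (hF : GkReg F) (hn : GkNoise μ a) (m : ℝ) (z : V) :
    Integrable (fun o => Real.exp (m * F (z + a o))) μ :=
  gk_int hn (u := fun w => Real.exp (m * F w)) (by have := hF.ghd_continuous; fun_prop) (hF.ghd_gr_exp m) z

theorem ghd_exp_int_pos [NeZero μ] (hF : GkReg F) (hn : GkNoise μ a) (m : ℝ) (z : V) :
    0 < ∫ o, Real.exp (m * F (z + a o)) ∂μ :=
  integral_exp_pos (ghd_exp_integrable hF hn m z)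

theorem ghd_exp_mul_T [IsProbabilityMeasure μ] (hF : GkReg F) (hn : GkNoise μ a) (m : ℝ) (z : V) :
    Real.exp (m * ghT μ m fun o => F (z + a o)) = ∫ o, Real.exp (m * F (z + a o)) ∂μ := by
  by_cases hm : m = 0
  · subst hm; simp
  · rw [ghT, if_neg hm, ← mul_assoc, mul_inv_cancel₀ hm, one_mul,
      Real.exp_log (ghd_exp_int_pos hF hn m z)]

theorem ghd_D_integrable (hF : GkReg F) (hn : GkNoise μ a) (m : ℝ) (z : V) :
    Integrable (ghdD μ a m F z) μ := by
  have : ghdD μ a m F z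
      = fun o => Real.exp (-(m * ghT μ m fun o => F (z + a o))) * Real.exp (m * F (z + a o)) :=
    funext fun o => ghd_D_eq m F z o
  rw [this]
  exact (ghd_exp_integrable hF hn m z).const_mul _

/-- the tilted density is normalised -/
theorem ghd_D_int [IsProbabilityMeasure μ] (hF : GkReg F) (hn : GkNoise μ a) (m : ℝ) (z : V) :
    ∫ o, ghdD μ a m F z o ∂μ = 1 := by
  simp_rw [ghd_D_eq]
  rw [integral_const_mul, ← ghd_exp_mul_T hF hn m z, ← Real.exp_add]
  simp

/-! ### derivatives -/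

/-- derivative of the weighted integral `∫ e^{mF} Ψ` -/
theorem ghd_M_hasFDerivAt (hF : GkReg F) (hn : GkNoise μ a) (m : ℝ) {Ψ : V → ℝ} {Ψ' : V → V →L[ℝ] ℝ}
    (hΨ : ∀ w, HasFDerivAt Ψ (Ψ' w) w) (hΨc : Continuous Ψ') (hb : GkGr Ψ) (hb' : GkGr Ψ') (z : V) :
    HasFDerivAt (fun z => ∫ o, Real.exp (m * F (z + a o)) * Ψ (z + a o) ∂μ)
      (∫ o, (Real.exp (m * F (z + a o)) • Ψ' (z + a o)
        + (m * (Real.exp (m * F (z + a o)) * Ψ (z + a o))) • fderiv ℝ F (z + a o)) ∂μ) z := by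
  have hFc := hF.ghd_continuous
  have hF'c := hF.ghd_continuous_fderiv
  have hΨ0 : Continuous Ψ := continuous_iff_continuousAt.2 fun w => (hΨ w).continuousAt
  refine ghd_P_hasFDerivAt hn (K := fun w => Real.exp (m * F w) * Ψ w)
    (K' := fun w => Real.exp (m * F w) • Ψ' w + (m * (Real.exp (m * F w) * Ψ w)) • fderiv ℝ F w) ?_ ?_ ?_ ?_ z
  · intro w
    have h1 : HasFDerivAt (fun w => Real.exp (m * F w)) (Real.exp (m * F w) • (m • fderiv ℝ F w)) w :=
      ((hF.ghd_hasFDerivAt w).const_mul m).exp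
    have h2 := h1.mul (hΨ w)
    have h3 : Real.exp (m * F w) • Ψ' w + (m * (Real.exp (m * F w) * Ψ w)) • fderiv ℝ F w
        = Real.exp (m * F w) • Ψ' w + Ψ w • Real.exp (m * F w) • m • fderiv ℝ F w := by
      ext v
      simp only [add_apply, smul_apply, smul_eq_mul]
      ring
    rw [h3]
    exact h2
  · fun_prop
  · exact ghd_gr_mul (hF.ghd_gr_exp m) hb
  · refine ghd_gr_add (ghd_gr_smul (hF.ghd_gr_exp m) hb') ?_
    have := ghd_gr_const_smul (ghd_gr_smul (ghd_gr_mul (hF.ghd_gr_exp m) hb) hF.ghd_gr_fderiv) m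
    simpa [smul_smul] using this

/-- **derivative of `T_m F`** : the tilted mean of `DF` -/
theorem ghd_T_hasFDerivAt [IsProbabilityMeasure μ] (hF : GkReg F) (hn : GkNoise μ a) (m : ℝ) (z : V) :
    HasFDerivAt (fun z => ghT μ m fun o => F (z + a o)) (∫ o, ghdD μ a m F z o • fderiv ℝ F (z + a o) ∂μ) z := by
  by_cases hm : m = 0
  · subst hm
    have h := ghd_P_hasFDerivAt hn hF.ghd_hasFDerivAt hF.ghd_continuous_fderiv hF.gr hF.ghd_gr_fderiv z
    simpa [ghT, ghdD] using h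
  · have hN := ghd_M_hasFDerivAt hF hn m (Ψ := fun _ => 1) (Ψ' := fun _ => 0)
      (fun w => hasFDerivAt_const _ _) continuous_const (ghd_gr_of_bdd (C := 1) (by simp))
      (ghd_gr_of_bdd (C := 0) (by simp)) z
    simp only [mul_one, smul_zero, zero_add] at hN
    have hpos := ghd_exp_int_pos hF hn m z
    have h2 := (hN.log hpos.ne').const_mul m⁻¹
    have h3 : (fun z => ghT μ m fun o => F (z + a o))
        = fun z => m⁻¹ * Real.log (∫ o, Real.exp (m * F (z + a o)) ∂μ) := by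
      funext z; rw [ghT, if_neg hm]
    rw [h3]
    have h4 : (∫ o, ghdD μ a m F z o • fderiv ℝ F (z + a o) ∂μ)
        = m⁻¹ • (∫ o, Real.exp (m * F (z + a o)) ∂μ)⁻¹ •
          ∫ o, (m * Real.exp (m * F (z + a o))) • fderiv ℝ F (z + a o) ∂μ := by
      simp_rw [ghd_D_eq, mul_smul]
      rw [integral_smul, integral_smul, Real.exp_neg, ghd_exp_mul_T hF hn m z, smul_smul, smul_smul]
      congr 1
      field_simp
    rw [h4]
    exact h2

/-- **derivative of a tilted bracket** -/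
theorem ghd_Br_hasFDerivAt [IsProbabilityMeasure μ] (hF : GkReg F) (hn : GkNoise μ a) (m : ℝ)
    {Ψ : V → ℝ} {Ψ' : V → V →L[ℝ] ℝ}
    (hΨ : ∀ w, HasFDerivAt Ψ (Ψ' w) w) (hΨc : Continuous Ψ') (hb : GkGr Ψ) (hb' : GkGr Ψ') (z : V) :
    HasFDerivAt (fun z => ∫ o, ghdD μ a m F z o * Ψ (z + a o) ∂μ)
      ((∫ o, ghdD μ a m F z o • Ψ' (z + a o) ∂μ)
        + m • (∫ o, (ghdD μ a m F z o * Ψ (z + a o)) • fderiv ℝ F (z + a o) ∂μ)
        - (m * ∫ o, ghdD μ a m F z o * Ψ (z + a o) ∂μ) • ∫ o, ghdD μ a m F z o • fderiv ℝ F (z + a o) ∂μ) z := by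
  have hFc := hF.ghd_continuous
  have hF'c := hF.ghd_continuous_fderiv
  have hΨ0 : Continuous Ψ := continuous_iff_continuousAt.2 fun w => (hΨ w).continuousAt
  have hM := ghd_M_hasFDerivAt hF hn m hΨ hΨc hb hb' z
  have hT := ghd_T_hasFDerivAt hF hn m z
  have he : HasFDerivAt (fun z => Real.exp (-(m * ghT μ m fun o => F (z + a o))))
      (Real.exp (-(m * ghT μ m fun o => F (z + a o))) •
        (-(m • ∫ o, ghdD μ a m F z o • fderiv ℝ F (z + a o) ∂μ))) z := ((hT.const_mul m).neg).exp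
  have hfun : (fun z => ∫ o, ghdD μ a m F z o * Ψ (z + a o) ∂μ)
      = fun z => Real.exp (-(m * ghT μ m fun o => F (z + a o))) *
          ∫ o, Real.exp (m * F (z + a o)) * Ψ (z + a o) ∂μ := by
    funext z
    simp_rw [ghd_D_eq, mul_assoc]
    rw [integral_const_mul]
  have hz := congrFun hfun z
  have h2 := he.mul hM
  rw [hfun]
  refine h2.congr_fderiv ?_
  obtain ⟨e, he'⟩ : ∃ e, e = Real.exp (-(m * ghT μ m fun o => F (z + a o))) := ⟨_, rfl⟩
  have hD : ∀ o, ghdD μ a m F z o = e * Real.exp (m * F (z + a o)) := fun o => by rw [ghd_D_eq, he']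
  have i1 : Integrable (fun o => Real.exp (m * F (z + a o)) • Ψ' (z + a o)) μ :=
    gk_int hn (u := fun w => Real.exp (m * F w) • Ψ' w) (by fun_prop)
      (ghd_gr_smul (hF.ghd_gr_exp m) hb') z
  have i2 : Integrable (fun o => (m * (Real.exp (m * F (z + a o)) * Ψ (z + a o))) • fderiv ℝ F (z + a o)) μ := by
    refine gk_int hn (u := fun w => (m * (Real.exp (m * F w) * Ψ w)) • fderiv ℝ F w) (by fun_prop) ?_ z
    have := ghd_gr_const_smul (ghd_gr_smul (ghd_gr_mul (hF.ghd_gr_exp m) hb) hF.ghd_gr_fderiv) m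
    simpa [smul_smul] using this
  rw [hz, integral_add i1 i2]
  simp_rw [hD, mul_assoc, mul_smul]
  rw [← he']
  simp only [integral_smul]
  module

/-- integrability of a tilted integrand -/
theorem ghd_D_smul_integrable (hF : GkReg F) (hn : GkNoise μ a) (m : ℝ) {Θ : V → G}
    (hΘ : Continuous Θ) (hb : GkGr Θ) (z : V) :
    Integrable (fun o => ghdD μ a m F z o • Θ (z + a o)) μ := by
  have hFc := hF.ghd_continuous
  have h1 : Integrable (fun o => Real.exp (m * F (z + a o)) • Θ (z + a o)) μ :=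
    gk_int hn (u := fun w => Real.exp (m * F w) • Θ w) (by fun_prop) (ghd_gr_smul (hF.ghd_gr_exp m) hb) z
  have h2 := h1.smul (Real.exp (-(m * ghT μ m fun o => F (z + a o))))
  refine h2.congr (Eventually.of_forall fun o => ?_)
  simp only [Pi.smul_apply, ghd_D_eq, mul_smul]

/-- continuity of a tilted bracket -/
theorem ghd_Br_continuous [IsProbabilityMeasure μ] (hF : GkReg F) (hn : GkNoise μ a) (m : ℝ) {Θ : V → G}
    (hΘ : Continuous Θ) (hb : GkGr Θ) :
    Continuous (fun z => ∫ o, ghdD μ a m F z o • Θ (z + a o) ∂μ) := by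
  have hFc := hF.ghd_continuous
  have hT : Continuous (fun z => ghT μ m fun o => F (z + a o)) :=
    continuous_iff_continuousAt.2 fun z => (ghd_T_hasFDerivAt hF hn m z).continuousAt
  have h1 : Continuous (fun z => ∫ o, Real.exp (m * F (z + a o)) • Θ (z + a o) ∂μ) :=
    gk_P_continuous hn (u := fun w => Real.exp (m * F w) • Θ w) (by fun_prop)
      (ghd_gr_smul (hF.ghd_gr_exp m) hb)
  have h2 : (fun z => ∫ o, ghdD μ a m F z o • Θ (z + a o) ∂μ)
      = fun z => Real.exp (-(m * ghT μ m fun o => F (z + a o))) •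
          ∫ o, Real.exp (m * F (z + a o)) • Θ (z + a o) ∂μ := by
    funext z
    simp_rw [ghd_D_eq, mul_smul]
    rw [integral_smul]
  rw [h2]
  fun_prop

/-- a tilted bracket is bounded by the sup norm -/
theorem ghd_Br_norm_le [IsProbabilityMeasure μ] (hF : GkReg F) (hn : GkNoise μ a) (m : ℝ) {Θ : V → G}
    {C : ℝ} (hb : ∀ w, ‖Θ w‖ ≤ C) (z : V) :
    ‖∫ o, ghdD μ a m F z o • Θ (z + a o) ∂μ‖ ≤ C := by
  have h1 : ‖∫ o, ghdD μ a m F z o • Θ (z + a o) ∂μ‖ ≤ ∫ o, ghdD μ a m F z o * C ∂μ := by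
    refine norm_integral_le_of_norm_le ((ghd_D_integrable hF hn m z).mul_const C)
      (Eventually.of_forall fun o => ?_)
    rw [norm_smul, Real.norm_eq_abs, abs_of_pos (ghd_D_pos m F z o)]
    exact mul_le_mul_of_nonneg_left (hb _) (ghd_D_pos m F z o).le
  rw [integral_mul_const, ghd_D_int hF hn m z, one_mul] at h1
  exact h1

end tilt

section tilt2

variable {Ω : Type} [MeasurableSpace Ω] {V : Type} [NormedAddCommGroup V] [NormedSpace ℝ V]
variable {μ : Measure Ω} {a : Ω → V} {F : V → ℝ}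

/-- a directional derivative of a function of the class is in the class -/
theorem GkReg.ghd_dir (hF : GkReg F) (v : V) : GkReg (fun z => fderiv ℝ F z v) := by
  have h1 : ContDiff ℝ ∞ (fderiv ℝ F) := hF.smooth.fderiv_right (m := ∞) (by simp)
  refine ⟨h1.clm_apply contDiff_const, fun j _ => ?_⟩
  obtain ⟨C, hC⟩ := hF.bdd (j + 1) (by omega)
  refine ⟨‖ContinuousLinearMap.apply ℝ ℝ v‖ * C, fun z => ?_⟩
  have h2 := ContinuousLinearMap.norm_iteratedFDeriv_comp_left (ContinuousLinearMap.apply ℝ ℝ v)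
    (f := fderiv ℝ F) (x := z) (N := ∞) (n := j) h1.contDiffAt (by exact_mod_cast le_top)
  refine h2.trans (mul_le_mul_of_nonneg_left ?_ (norm_nonneg _))
  rw [norm_iteratedFDeriv_fderiv]
  exact hC z

theorem GkReg.ghd_dir_bdd (hF : GkReg F) (v : V) : ∃ C : ℝ, ∀ z, ‖fderiv ℝ F z v‖ ≤ C := by
  obtain ⟨L, hL⟩ := hF.ghd_fderiv_bdd
  exact ⟨L * ‖v‖, fun z => ((fderiv ℝ F z).le_opNorm v).trans
    (mul_le_mul_of_nonneg_right (hL z) (norm_nonneg _))⟩

/-- real valued form of the integrability of a tilted integrand -/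
theorem ghd_D_mul_integrable (hF : GkReg F) (hn : GkNoise μ a) (m : ℝ) {Θ : V → ℝ}
    (hΘ : Continuous Θ) (hb : GkGr Θ) (z : V) :
    Integrable (fun o => ghdD μ a m F z o * Θ (z + a o)) μ :=
  ghd_D_smul_integrable hF hn m hΘ hb z

/-- centering of a product under the tilted law -/
theorem ghd_center [IsProbabilityMeasure μ] (hF : GkReg F) (hn : GkNoise μ a) (m c : ℝ) {P Q R : V → ℝ}
    (hP : Continuous P) (hQ : Continuous Q) (hR : Continuous R) (gP : GkGr P) (gQ : GkGr Q) (gR : GkGr R) (z : V) :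
    ∫ o, ghdD μ a m F z o * (R (z + a o) + c * ((P (z + a o) - ∫ o, ghdD μ a m F z o * P (z + a o) ∂μ)
        * (Q (z + a o) - ∫ o, ghdD μ a m F z o * Q (z + a o) ∂μ))) ∂μ
      = (∫ o, ghdD μ a m F z o * R (z + a o) ∂μ) + c * (∫ o, ghdD μ a m F z o * (P (z + a o) * Q (z + a o)) ∂μ)
        - c * (∫ o, ghdD μ a m F z o * P (z + a o) ∂μ) * ∫ o, ghdD μ a m F z o * Q (z + a o) ∂μ := by
  obtain ⟨p, hp⟩ : ∃ p, p = ∫ o, ghdD μ a m F z o * P (z + a o) ∂μ := ⟨_, rfl⟩
  obtain ⟨q, hq⟩ : ∃ q, q = ∫ o, ghdD μ a m F z o * Q (z + a o) ∂μ := ⟨_, rfl⟩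
  rw [← hp, ← hq]
  have iD := ghd_D_integrable hF hn m z
  have iP := ghd_D_mul_integrable hF hn m hP gP z
  have iQ := ghd_D_mul_integrable hF hn m hQ gQ z
  have iR := ghd_D_mul_integrable hF hn m hR gR z
  have iPQ : Integrable (fun o => ghdD μ a m F z o * (P (z + a o) * Q (z + a o))) μ :=
    ghd_D_mul_integrable hF hn m (Θ := fun w => P w * Q w) (hP.mul hQ) (ghd_gr_mul gP gQ) z
  have h1 : ∀ o, ghdD μ a m F z o * (R (z + a o) + c * ((P (z + a o) - p) * (Q (z + a o) - q)))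
      = ghdD μ a m F z o * R (z + a o) + c * (ghdD μ a m F z o * (P (z + a o) * Q (z + a o)))
        - (c * q) * (ghdD μ a m F z o * P (z + a o)) - (c * p) * (ghdD μ a m F z o * Q (z + a o))
        + (c * p * q) * ghdD μ a m F z o := fun o => by ring
  simp_rw [h1]
  have j1 : Integrable (fun o => ghdD μ a m F z o * R (z + a o)
      + c * (ghdD μ a m F z o * (P (z + a o) * Q (z + a o)))) μ := iR.add (iPQ.const_mul c)
  have j2 : Integrable (fun o => ghdD μ a m F z o * R (z + a o)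
      + c * (ghdD μ a m F z o * (P (z + a o) * Q (z + a o)))
      - (c * q) * (ghdD μ a m F z o * P (z + a o))) μ := j1.sub (iP.const_mul _)
  have j3 : Integrable (fun o => ghdD μ a m F z o * R (z + a o)
      + c * (ghdD μ a m F z o * (P (z + a o) * Q (z + a o)))
      - (c * q) * (ghdD μ a m F z o * P (z + a o)) - (c * p) * (ghdD μ a m F z o * Q (z + a o))) μ :=
    j2.sub (iQ.const_mul _)
  rw [integral_add j3 (iD.const_mul _), integral_sub j2 (iQ.const_mul _),
    integral_sub j1 (iP.const_mul _), integral_add iR (iPQ.const_mul c)]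
  simp only [integral_const_mul]
  rw [← hp, ← hq, ghd_D_int hF hn m z]
  ring

end tilt2

section Gh

variable {S ι : Type} [Fintype S] [Fintype ι] {B : GhB S}

theorem ghd_ghD_eq (B : GhB S) (l : GhLv S ι) (ls : List (GhLv S ι)) (z : S → ℝ) (ξ : ι → ℝ) :
    ghD B l ls z ξ = ghdD (ghStd ι) l.inc l.m (ghF B ls) z ξ := rfl

theorem ghd_ghD_pos (B : GhB S) (l : GhLv S ι) (ls : List (GhLv S ι)) (z : S → ℝ) (ξ : ι → ℝ) :
    0 < ghD B l ls z ξ := Real.exp_pos _

theorem ghd_ghD_integrable (hB : B.Ok) (l : GhLv S ι) (ls : List (GhLv S ι)) (z : S → ℝ) :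
    Integrable (ghD B l ls z) (ghStd ι) :=
  ghd_D_integrable (ghr_F hB ls) (ghr_noise l) l.m z

/-- the planted transition is normalised -/
theorem ghd_ghD_int (hB : B.Ok) (l : GhLv S ι) (ls : List (GhLv S ι)) (z : S → ℝ) :
    ∫ ξ, ghD B l ls z ξ ∂ghStd ι = 1 :=
  ghd_D_int (ghr_F hB ls) (ghr_noise l) l.m z

/-! ### the terminal level -/

theorem ghd_Z_pos (hB : B.Ok) (z : S → ℝ) : 0 < ∑ s, B.w s * Real.exp (B.a * z s) := by
  have h2 : ∃ s, 0 < B.w s := by
    by_contra hc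
    push Not at hc
    have : ∑ s, B.w s ≤ 0 := Finset.sum_nonpos fun s _ => hc s
    rw [hB.sum] at this
    linarith
  obtain ⟨s, hs⟩ := h2
  exact Finset.sum_pos' (fun t _ => mul_nonneg (hB.nonneg t) (Real.exp_pos _).le)
    ⟨s, Finset.mem_univ s, mul_pos hs (Real.exp_pos _)⟩

theorem ghd_Gw_nonneg (hB : B.Ok) (z : S → ℝ) (s : S) : 0 ≤ ghGw B z s :=
  div_nonneg (mul_nonneg (hB.nonneg s) (Real.exp_pos _).le) (ghd_Z_pos hB z).le

theorem ghd_Gw_sum (hB : B.Ok) (z : S → ℝ) : ∑ s, ghGw B z s = 1 := by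
  simp only [ghGw]
  rw [← Finset.sum_div, div_self (ghd_Z_pos hB z).ne']

theorem ghd_Z_hasFDerivAt (B : GhB S) (c : S → ℝ) (z : S → ℝ) :
    HasFDerivAt (fun z : S → ℝ => ∑ s, B.w s * Real.exp (B.a * z s) * c s)
      (∑ s, (B.a * (B.w s * Real.exp (B.a * z s) * c s)) •
        (ContinuousLinearMap.proj (R := ℝ) (φ := fun _ : S => ℝ) s)) z := by
  refine HasFDerivAt.fun_sum fun s _ => ?_
  have h1 : HasFDerivAt (fun z : S → ℝ => z s) (ContinuousLinearMap.proj (R := ℝ) (φ := fun _ : S => ℝ) s) z :=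
    hasFDerivAt_apply s z
  have h2 := (((h1.const_mul B.a).exp).const_mul (B.w s)).mul_const (c s)
  refine h2.congr_fderiv ?_
  ext v
  simp only [smul_apply, smul_eq_mul]
  ring

theorem ghd_fderiv_F0 (hB : B.Ok) (z v : S → ℝ) :
    fderiv ℝ (ghF0 B) z v = ∑ s, ghGw B z s * v s := by
  have h1 := ghd_Z_hasFDerivAt B (fun _ => 1) z
  simp only [mul_one] at h1
  have h2 := (h1.log (ghd_Z_pos hB z).ne').const_mul B.a⁻¹
  have h3 : ghF0 B = fun z => B.a⁻¹ * Real.log (∑ s, B.w s * Real.exp (B.a * z s)) := rfl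
  rw [h3, h2.fderiv]
  simp only [smul_apply, smul_eq_mul, sum_apply, ContinuousLinearMap.proj_apply, ghGw]
  rw [Finset.mul_sum, Finset.mul_sum]
  refine Finset.sum_congr rfl fun s _ => ?_
  have := hB.pos.ne'
  have := (ghd_Z_pos hB z).ne'
  field_simp

/-! ### first derivative of the continuation -/

/-- **the gradient of a continuation is the planted conditional mean** -/
theorem ghd_fderiv_F (hB : B.Ok) (ls : List (GhLv S ι)) (z v : S → ℝ) :
    fderiv ℝ (ghF B ls) z v = ghE B ls v z := by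
  induction ls generalizing z with
  | nil => exact ghd_fderiv_F0 hB z v
  | cons l ls ih =>
    have hF := ghr_F (ι := ι) hB ls
    have h1 := (ghd_T_hasFDerivAt hF (ghr_noise l) l.m z).fderiv
    have h2 : ghF B (l :: ls) = fun z => ghT (ghStd ι) l.m fun ξ => ghF B ls (z + l.inc ξ) := rfl
    rw [h2, h1, ContinuousLinearMap.integral_apply
      (ghd_D_smul_integrable hF (ghr_noise l) l.m hF.ghd_continuous_fderiv hF.ghd_gr_fderiv z)]
    rw [ghE]
    refine integral_congr_ae (Eventually.of_forall fun ξ => ?_)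
    simp only [smul_apply, smul_eq_mul, ih]
    rfl

theorem ghd_E_eq (hB : B.Ok) (ls : List (GhLv S ι)) (v : S → ℝ) :
    ghE B ls v = fun z => fderiv ℝ (ghF B ls) z v :=
  funext fun z => (ghd_fderiv_F hB ls z v).symm

/-- the planted conditional mean, as a function of the revealed field, is in the class -/
theorem ghd_E_reg (hB : B.Ok) (ls : List (GhLv S ι)) (v : S → ℝ) : GkReg (ghE B ls v) := by
  rw [ghd_E_eq hB]
  exact (ghr_F hB ls).ghd_dir v

theorem ghd_F_hasFDerivAt (hB : B.Ok) (ls : List (GhLv S ι)) (z : S → ℝ) :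
    HasFDerivAt (ghF B ls) (fderiv ℝ (ghF B ls) z) z := (ghr_F hB ls).ghd_hasFDerivAt z

/-- derivative of the continuation along a line -/
theorem ghd_F_hasDerivAt (hB : B.Ok) (ls : List (GhLv S ι)) (z v : S → ℝ) (t : ℝ) :
    HasDerivAt (fun t : ℝ => ghF B ls (z + t • v)) (ghE B ls v (z + t • v)) t := by
  have h1 : HasDerivAt (fun t : ℝ => z + t • v) v t := by
    simpa using ((hasDerivAt_id t).smul_const v).const_add z
  have h2 := (ghd_F_hasFDerivAt (ι := ι) hB ls (z + t • v)).comp_hasDerivAt t h1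
  rw [ghd_fderiv_F hB] at h2
  exact h2

/-! ### second derivative of the continuation -/

theorem ghd_fderiv_E0 (hB : B.Ok) (z v w : S → ℝ) :
    fderiv ℝ (ghE (ι := ι) B [] v) z w = B.a * ghC (ι := ι) B [] v w z := by
  have hZ := (ghd_Z_pos hB z).ne'
  have h1 := ghd_Z_hasFDerivAt B v z
  have h2 := ghd_Z_hasFDerivAt B (fun _ => 1) z
  simp only [mul_one] at h2
  have h3 := (hasDerivAt_inv hZ).comp_hasFDerivAt z h2
  have h4 := h1.mul h3
  have hE : ghE (ι := ι) B [] v = (fun z : S → ℝ => ∑ s, B.w s * Real.exp (B.a * z s) * v s)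
      * ((fun x : ℝ => x⁻¹) ∘ fun z : S → ℝ => ∑ s, B.w s * Real.exp (B.a * z s)) := by
    funext z
    simp only [ghE, ghGw, Pi.mul_apply, Function.comp, Finset.sum_mul]
    exact Finset.sum_congr rfl fun s _ => by ring
  rw [hE, h4.fderiv]
  simp only [ghC, ghE, ghGw, add_apply, smul_apply, smul_eq_mul, sum_apply,
    ContinuousLinearMap.proj_apply, Function.comp]
  obtain ⟨Z, hZd⟩ : ∃ Z, Z = ∑ s, B.w s * Real.exp (B.a * z s) := ⟨_, rfl⟩
  rw [← hZd] at hZ ⊢
  have e1 : ∑ s, B.w s * Real.exp (B.a * z s) / Z * (v s * w s)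
      = (∑ s, B.w s * Real.exp (B.a * z s) * v s * w s) / Z := by
    rw [Finset.sum_div]; exact Finset.sum_congr rfl fun s _ => by ring
  have e2 : ∑ s, B.w s * Real.exp (B.a * z s) / Z * v s
      = (∑ s, B.w s * Real.exp (B.a * z s) * v s) / Z := by
    rw [Finset.sum_div]; exact Finset.sum_congr rfl fun s _ => by ring
  have e3 : ∑ s, B.w s * Real.exp (B.a * z s) / Z * w s
      = (∑ s, B.w s * Real.exp (B.a * z s) * w s) / Z := by
    rw [Finset.sum_div]; exact Finset.sum_congr rfl fun s _ => by ring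
  have e4 : ∑ s, B.a * (B.w s * Real.exp (B.a * z s) * v s) * w s
      = B.a * ∑ s, B.w s * Real.exp (B.a * z s) * v s * w s := by
    rw [Finset.mul_sum]; exact Finset.sum_congr rfl fun s _ => by ring
  have e5 : ∑ s, B.a * (B.w s * Real.exp (B.a * z s)) * w s
      = B.a * ∑ s, B.w s * Real.exp (B.a * z s) * w s := by
    rw [Finset.mul_sum]; exact Finset.sum_congr rfl fun s _ => by ring
  rw [e1, e2, e3, e4, e5]
  field_simp
  ring

/-- **the derivative of the planted conditional mean is the Hessian `ghH`** -/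
theorem ghd_fderiv_E (hB : B.Ok) (ls : List (GhLv S ι)) (v w z : S → ℝ) :
    fderiv ℝ (ghE B ls v) z w = ghH B ls v w z := by
  induction ls generalizing z with
  | nil => exact ghd_fderiv_E0 hB z v w
  | cons l ls ih =>
    have hF := ghr_F (ι := ι) hB ls
    have hn := ghr_noise l
    have hv := ghd_E_reg (ι := ι) hB ls v
    have hw := ghd_E_reg (ι := ι) hB ls w
    have hvb : GkGr (ghE B ls v) := by
      rw [ghd_E_eq hB]
      obtain ⟨C, hC⟩ := hF.ghd_dir_bdd v
      exact ghd_gr_of_bdd hC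
    have hwb : GkGr (ghE B ls w) := by
      rw [ghd_E_eq hB]
      obtain ⟨C, hC⟩ := hF.ghd_dir_bdd w
      exact ghd_gr_of_bdd hC
    have hH : (fun y => ghH B ls v w y) = fun y => fderiv ℝ (ghE B ls v) y w := funext fun y => (ih y).symm
    have hHr : GkReg (fun y => ghH B ls v w y) := by rw [hH]; exact hv.ghd_dir w
    have hHb : GkGr (fun y => ghH B ls v w y) := by
      rw [hH]
      obtain ⟨C, hC⟩ := hv.ghd_dir_bdd w
      exact ghd_gr_of_bdd hC
    have h1 := (ghd_Br_hasFDerivAt hF hn l.m hv.ghd_hasFDerivAt hv.ghd_continuous_fderiv hvb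
      hv.ghd_gr_fderiv z).fderiv
    have h2 : ghE B (l :: ls) v
        = fun z => ∫ ξ, ghdD (ghStd ι) l.inc l.m (ghF B ls) z ξ * ghE B ls v (z + l.inc ξ) ∂ghStd ι := rfl
    have h2w : ghE B (l :: ls) w
        = fun z => ∫ ξ, ghdD (ghStd ι) l.inc l.m (ghF B ls) z ξ * ghE B ls w (z + l.inc ξ) ∂ghStd ι := rfl
    have h3 := ghd_center hF hn l.m l.m hv.ghd_continuous hw.ghd_continuous hHr.ghd_continuous hvb hwb hHb z
    have h4 : ghH B (l :: ls) v w z = ∫ ξ, ghdD (ghStd ι) l.inc l.m (ghF B ls) z ξ * (ghH B ls v w (z + l.inc ξ)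
      + l.m * ((ghE B ls v (z + l.inc ξ) - ghE B (l :: ls) v z) * (ghE B ls w (z + l.inc ξ) - ghE B (l :: ls) w z)))
      ∂ghStd ι := rfl
    rw [h4, h2, h2w, h3, h1]
    simp only [add_apply, sub_apply, smul_apply, smul_eq_mul]
    rw [ContinuousLinearMap.integral_apply
        (ghd_D_smul_integrable hF hn l.m hv.ghd_continuous_fderiv hv.ghd_gr_fderiv z),
      ContinuousLinearMap.integral_apply
        (ghd_D_smul_integrable hF hn l.m hF.ghd_continuous_fderiv hF.ghd_gr_fderiv z)]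
    have i3 : Integrable (fun ξ => (ghdD (ghStd ι) l.inc l.m (ghF B ls) z ξ * ghE B ls v (z + l.inc ξ)) •
        fderiv ℝ (ghF B ls) (z + l.inc ξ)) (ghStd ι) := by
      have := ghd_D_smul_integrable hF hn l.m (Θ := fun y => ghE B ls v y • fderiv ℝ (ghF B ls) y)
        (hv.ghd_continuous.smul hF.ghd_continuous_fderiv) (ghd_gr_smul hvb hF.ghd_gr_fderiv) z
      simpa [smul_smul] using this
    rw [ContinuousLinearMap.integral_apply i3]
    simp only [smul_apply, smul_eq_mul, ih, ghd_fderiv_F hB]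
    ring_nf

end Gh

theorem ghd_eqns_cite : True := by
  have := @ghdD.eq_1
  trivial

end Claimed.Agent.R286
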