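import Claimed.Agent.R286.Gk.HeatW
import Claimed.Agent.R286.Gk.Der
import Claimed.Agent.R286.Defs.GhBasic
import Claimed.Agent.R286.Fd.RegA

/-!
# Row 286 (S0533), Gaussian kit, file Gk/HeatT : COLE-HOPF ON ONE LEVEL      (helper119; head of the kit helper91; prefix `ghu_`, `ghu*`)

PAPER FREE.   On `Gk/Reg` (91: `GkReg`, `gkP`, `GkNoise`), `Gk/Der` (152: tilted density `ghdD`), `Gk/Heat` (119: `ghhLin`, `ghhD`), `Gk/HeatW` (91: `ghw_heat`).
* `ghuT μ a m F z = ghT μ m (o ↦ F (z + a o))`      the operator `T_m` as a function of the base point;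
  `ghuBr μ a m F Ψ z = ∫ ghdD μ a m F z o * Ψ (z + a o)`      the tilted bracket `⟨Ψ⟩`;   `ghuQ e w' m F = 1/2 ∑ k, w' k (D²F[e k, e k] + m (DF[e k])²)`
* brackets: `ghu_Br_eq`, `ghu_Br_const`, `ghu_Br_add`, `ghu_Br_const_mul`, `ghu_Br_sum`, `ghu_Br_mono`, `ghu_Br_le`, `ghu_Br_nonneg`, `ghu_Br_abs_le`, `ghu_Br_sq_le` (Jensen)
* `ghu_T_cont`, `ghu_Br_cont`      joint continuity in (standard deviations, base point)
* **`ghu_T`**      TIME DEPENDENT COLE-HOPF, any real mass, within a convex `I`, zero variances and end points included: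
      `d/dt T_m (F_t)(x; variances w t) = ⟨∂_t F_t + 1/2 ∑ k, w' k (D²F_t[e k, e k] + m (DF_t[e k])²)⟩`
* `ghu_T_const`    the same for a fixed `F ∈ GkReg` (no other hypothesis);   `ghu_T_lv` for the levels `ghLvF Φ m (w · t)` of `Defs/Gh`
* `ghu_D_T`, `ghu_D_Br`, `ghu_DD_T`      `D_v T_m F = ⟨D_v F⟩`,  `D_v ⟨Ψ⟩`,  `D_v² T_m F = ⟨D_v² F⟩ + m (⟨(D_v F)²⟩ - ⟨D_v F⟩²)`;   `ghu_T_lip`, `ghu_T_noise_zero`, `ghu_grad_le`
* `ghu_mass_deriv`  the interpolation `ψ(t) = T_{m'} (variances t c) ∘ T_m (variances (1-t) c)`:  `ψ' = ⟨(m' - m)/2 ∑ k, c k (D u_t[e k])²⟩`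
* **`ghu_mass`**    `0 ≤ T_{m'} F - T_m F ≤ (m' - m) K / 2` for `m ≤ m'` (any real masses), `K ≥ ∑ k, c k (DF[e k])²`      (replaces the Gaussian log-Sobolev inequality)
* `fd_mass_mono_pf`, `fd_mass_lip_pf`      P6 of `Fd/Contract` (verbatim): `ghF B (l₁ ++ ⟨m, A⟩ :: l₂) z` is nondecreasing in `m`, increments `≤ (m' - m) K / 2`, `K ≥ ∑ i, A s i ^ 2`
-/

set_option autoImplicit false
set_option linter.unusedSectionVars false

namespace Claimed.Agent.R286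

open MeasureTheory ProbabilityTheory Filter Topology Set

/-! ## 1. the operator and the tilted bracket -/

section br

variable {Ω : Type} [MeasurableSpace Ω] {V : Type} [NormedAddCommGroup V] [NormedSpace ℝ V] {μ : Measure Ω} {a : Ω → V} {F : V → ℝ}

/-- `T_m` as a function of the base point -/
noncomputable def ghuT (μ : Measure Ω) (a : Ω → V) (m : ℝ) (F : V → ℝ) (z : V) : ℝ := ghT μ m fun o => F (z + a o)

/-- the tilted bracket -/
noncomputable def ghuBr (μ : Measure Ω) (a : Ω → V) (m : ℝ) (F Ψ : V → ℝ) (z : V) : ℝ := ∫ o, ghdD μ a m F z o * Ψ (z + a o) ∂μ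

theorem ghu_br_eqns_cite : True := by
  have := @ghuT.eq_1
  have := @ghuBr.eq_1
  trivial

theorem GkReg.ghuT [IsProbabilityMeasure μ] (hF : GkReg F) (hn : GkNoise μ a) (m : ℝ) : GkReg (ghuT μ a m F) := hF.T hn m

theorem ghu_exp_T [IsProbabilityMeasure μ] (hF : GkReg F) (hn : GkNoise μ a) (m : ℝ) (z : V) :
    Real.exp (m * ghuT μ a m F z) = gkP μ a (fun y => Real.exp (m * F y)) z := ghd_exp_mul_T hF hn m z

omit [NormedSpace ℝ V] in
theorem ghu_Br_eq (μ : Measure Ω) (a : Ω → V) (m : ℝ) (F Ψ : V → ℝ) (z : V) :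
    ghuBr μ a m F Ψ z = Real.exp (-(m * ghuT μ a m F z)) * gkP μ a (fun y => Real.exp (m * F y) * Ψ y) z := by
  unfold ghuBr gkP ghuT
  simp_rw [ghd_D_eq, mul_assoc]
  rw [integral_const_mul]

theorem ghu_Br_integrable (hF : GkReg F) (hn : GkNoise μ a) (m : ℝ) {Ψ : V → ℝ} (hΨ : Continuous Ψ) (hb : GkGr Ψ) (z : V) :
    Integrable (fun o => ghdD μ a m F z o * Ψ (z + a o)) μ := ghd_D_mul_integrable hF hn m hΨ hb z

theorem ghu_Br_const [IsProbabilityMeasure μ] (hF : GkReg F) (hn : GkNoise μ a) (m c : ℝ) (z : V) :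
    ghuBr μ a m F (fun _ => c) z = c := by
  unfold ghuBr
  rw [integral_mul_const, ghd_D_int hF hn m z, one_mul]

theorem ghu_Br_add (hF : GkReg F) (hn : GkNoise μ a) (m : ℝ) {Ψ Ψ' : V → ℝ} (hΨ : Continuous Ψ) (hb : GkGr Ψ)
    (hΨ' : Continuous Ψ') (hb' : GkGr Ψ') (z : V) :
    ghuBr μ a m F (fun y => Ψ y + Ψ' y) z = ghuBr μ a m F Ψ z + ghuBr μ a m F Ψ' z := by
  unfold ghuBr
  rw [← integral_add (ghu_Br_integrable hF hn m hΨ hb z) (ghu_Br_integrable hF hn m hΨ' hb' z)]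
  exact integral_congr_ae (Eventually.of_forall fun o => by ring)

omit [NormedSpace ℝ V] in
theorem ghu_Br_const_mul (μ : Measure Ω) (a : Ω → V) (m : ℝ) (F : V → ℝ) (c : ℝ) (Ψ : V → ℝ) (z : V) :
    ghuBr μ a m F (fun y => c * Ψ y) z = c * ghuBr μ a m F Ψ z := by
  unfold ghuBr
  rw [← integral_const_mul]
  exact integral_congr_ae (Eventually.of_forall fun o => by ring)

theorem ghu_Br_sum (hF : GkReg F) (hn : GkNoise μ a) (m : ℝ) {κ : Type} (s : Finset κ) {Ψ : κ → V → ℝ} (hΨ : ∀ k ∈ s, Continuous (Ψ k))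
    (hb : ∀ k ∈ s, GkGr (Ψ k)) (z : V) :
    ghuBr μ a m F (fun y => ∑ k ∈ s, Ψ k y) z = ∑ k ∈ s, ghuBr μ a m F (Ψ k) z := by
  unfold ghuBr
  rw [← integral_finsetSum _ fun k hk => ghu_Br_integrable hF hn m (hΨ k hk) (hb k hk) z]
  exact integral_congr_ae (Eventually.of_forall fun o => by simp only [Finset.mul_sum])

theorem ghu_Br_mono (hF : GkReg F) (hn : GkNoise μ a) (m : ℝ) {Ψ Ψ' : V → ℝ} (hΨ : Continuous Ψ) (hb : GkGr Ψ)
    (hΨ' : Continuous Ψ') (hb' : GkGr Ψ') (h : ∀ y, Ψ y ≤ Ψ' y) (z : V) : ghuBr μ a m F Ψ z ≤ ghuBr μ a m F Ψ' z :=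
  integral_mono (ghu_Br_integrable hF hn m hΨ hb z) (ghu_Br_integrable hF hn m hΨ' hb' z) fun o =>
    mul_le_mul_of_nonneg_left (h _) (ghd_D_pos m F z o).le

omit [NormedSpace ℝ V] in
theorem ghu_Br_nonneg (μ : Measure Ω) (a : Ω → V) (m : ℝ) (F : V → ℝ) {Ψ : V → ℝ} (h : ∀ y, 0 ≤ Ψ y) (z : V) : 0 ≤ ghuBr μ a m F Ψ z :=
  integral_nonneg fun o => mul_nonneg (ghd_D_pos m F z o).le (h _)

theorem ghu_Br_abs_le [IsProbabilityMeasure μ] (hF : GkReg F) (hn : GkNoise μ a) (m : ℝ) {Ψ : V → ℝ} {C : ℝ} (h : ∀ y, |Ψ y| ≤ C) (z : V) :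
    |ghuBr μ a m F Ψ z| ≤ C := ghd_Br_norm_le hF hn m (Θ := Ψ) h z

theorem ghu_Br_le [IsProbabilityMeasure μ] (hF : GkReg F) (hn : GkNoise μ a) (m : ℝ) {Ψ : V → ℝ} {C : ℝ} (hΨ : Continuous Ψ) (hb : GkGr Ψ)
    (h : ∀ y, Ψ y ≤ C) (z : V) : ghuBr μ a m F Ψ z ≤ C := by
  rw [← ghu_Br_const hF hn m C z]
  exact ghu_Br_mono hF hn m hΨ hb continuous_const (ghd_gr_of_bdd (K := fun _ : V => C) (C := ‖C‖) fun _ => le_rfl) h z

/-- Jensen for the tilted bracket -/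
theorem ghu_Br_sq_le [IsProbabilityMeasure μ] (hF : GkReg F) (hn : GkNoise μ a) (m : ℝ) {Ψ : V → ℝ} (hΨ : Continuous Ψ) (hb : GkGr Ψ) (z : V) :
    ghuBr μ a m F Ψ z ^ 2 ≤ ghuBr μ a m F (fun y => Ψ y ^ 2) z := by
  set c := ghuBr μ a m F Ψ z with hc
  have hb2 : GkGr (fun y => Ψ y ^ 2) := by
    have := ghd_gr_mul hb hb
    simpa [sq] using this
  have hgc : ∀ r : ℝ, GkGr (fun _ : V => r) := fun r => ghd_gr_of_bdd (K := fun _ : V => r) (C := ‖r‖) fun _ => le_rfl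
  have h0 : 0 ≤ ghuBr μ a m F (fun y => (Ψ y - c) ^ 2) z := ghu_Br_nonneg μ a m F (fun y => sq_nonneg _) z
  have e : (fun y => (Ψ y - c) ^ 2) = fun y => Ψ y ^ 2 + ((-2 * c) * Ψ y + c ^ 2) := by
    funext y; ring
  have e1 := ghu_Br_add hF hn m (Ψ := fun y => Ψ y ^ 2) (Ψ' := fun y => (-2 * c) * Ψ y + c ^ 2) (hΨ.pow 2) hb2
    ((continuous_const.mul hΨ).add continuous_const) (ghd_gr_add (ghd_gr_mul (hgc _) hb) (hgc _)) z
  have e2 := ghu_Br_add hF hn m (Ψ := fun y => (-2 * c) * Ψ y) (Ψ' := fun _ => c ^ 2) (continuous_const.mul hΨ)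
    (ghd_gr_mul (hgc _) hb) continuous_const (hgc _) z
  rw [e, e1, e2, ghu_Br_const_mul, ghu_Br_const hF hn, ← hc] at h0
  nlinarith

end br

/-! ## 2. joint continuity in the standard deviations and the base point -/

section cont

variable {K : Type} [Fintype K] {V : Type} [NormedAddCommGroup V] [NormedSpace ℝ V]

theorem ghu_T_zero {Ω : Type} [MeasurableSpace Ω] (μ : Measure Ω) (a : Ω → V) (F : V → ℝ) : ghuT μ a 0 F = gkP μ a F := by
  funext z
  simp [ghuT, ghT, gkP]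

theorem ghu_T_ne {Ω : Type} [MeasurableSpace Ω] (μ : Measure Ω) (a : Ω → V) {m : ℝ} (hm : m ≠ 0) (F : V → ℝ) (z : V) :
    ghuT μ a m F z = m⁻¹ * Real.log (gkP μ a (fun y => Real.exp (m * F y)) z) := by
  simp [ghuT, ghT, gkP, hm]

theorem ghu_P_exp_pos {Ω : Type} [MeasurableSpace Ω] {μ : Measure Ω} [NeZero μ] {a : Ω → V} {F : V → ℝ} (hF : GkReg F) (hn : GkNoise μ a)
    (m : ℝ) (z : V) : 0 < gkP μ a (fun y => Real.exp (m * F y)) z := ghd_exp_int_pos hF hn m z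

theorem ghu_T_cont {F : V → ℝ} (hF : GkReg F) (e : K → V) (m : ℝ) :
    Continuous fun p : (K → ℝ) × V => ghuT (ghStd K) (ghhLin e p.1) m F p.2 := by
  by_cases hm : m = 0
  · subst hm
    simp only [ghu_T_zero]
    exact ghh_heat_cont hF.ghd_continuous hF.gr e
  · have h1 : Continuous fun p : (K → ℝ) × V => gkP (ghStd K) (ghhLin e p.1) (fun y => Real.exp (m * F y)) p.2 :=
      ghh_heat_cont (by have := hF.ghd_continuous; fun_prop) (hF.ghd_gr_exp m) e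
    simp only [ghu_T_ne _ _ hm]
    exact continuous_const.mul (h1.log fun p => (ghu_P_exp_pos hF (ghh_noise e p.1) m p.2).ne')

theorem ghu_Br_cont {F : V → ℝ} (hF : GkReg F) (e : K → V) (m : ℝ) {Ψ : V → ℝ} (hΨ : Continuous Ψ) (hb : GkGr Ψ) :
    Continuous fun p : (K → ℝ) × V => ghuBr (ghStd K) (ghhLin e p.1) m F Ψ p.2 := by
  simp only [ghu_Br_eq]
  have h1 : Continuous fun p : (K → ℝ) × V => gkP (ghStd K) (ghhLin e p.1) (fun y => Real.exp (m * F y) * Ψ y) p.2 :=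
    ghh_heat_cont (by have := hF.ghd_continuous; fun_prop) (ghd_gr_mul (hF.ghd_gr_exp m) hb) e
  exact (Real.continuous_exp.comp (continuous_const.mul (ghu_T_cont hF e m)).neg).mul h1

end cont

/-! ## 3. Cole-Hopf -/

section ch

variable {K : Type} [Fintype K] {V : Type} [NormedAddCommGroup V] [NormedSpace ℝ V]

/-- the Cole-Hopf integrand -/
noncomputable def ghuQ (e : K → V) (w' : K → ℝ) (m : ℝ) (F : V → ℝ) (y : V) : ℝ :=
  1 / 2 * ∑ k, w' k * (ghhD (e k) (ghhD (e k) F) y + m * ghhD (e k) F y ^ 2)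

theorem ghu_ch_eqns_cite : True := by
  have := @ghuQ.eq_1
  trivial

theorem ghu_D_exp {F : V → ℝ} (hF : Differentiable ℝ F) (m : ℝ) (v y : V) :
    ghhD v (fun y => Real.exp (m * F y)) y = Real.exp (m * F y) * (m * ghhD v F y) := by
  unfold ghhD
  rw [(((hF y).hasFDerivAt.const_mul m).exp).fderiv]
  simp

theorem ghu_DD_exp {F : V → ℝ} (hF : GkReg F) (m : ℝ) (v y : V) :
    ghhD v (ghhD v (fun y => Real.exp (m * F y))) y
      = Real.exp (m * F y) * (m * ghhD v (ghhD v F) y + m ^ 2 * ghhD v F y ^ 2) := by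
  have e1 : ghhD v (fun y => Real.exp (m * F y)) = fun y => Real.exp (m * F y) * (m * ghhD v F y) :=
    funext fun y => ghu_D_exp hF.ghd_differentiable m v y
  rw [e1]
  have h1 : HasFDerivAt (fun y => Real.exp (m * F y)) (Real.exp (m * F y) • (m • fderiv ℝ F y)) y :=
    ((hF.ghd_hasFDerivAt y).const_mul m).exp
  have h2 : HasFDerivAt (fun y => m * ghhD v F y) (m • fderiv ℝ (ghhD v F) y) y :=
    (((hF.ghd_dir v).ghd_hasFDerivAt y)).const_mul m
  have h3 : HasFDerivAt (fun y => Real.exp (m * F y) * (m * ghhD v F y)) _ y := h1.mul h2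
  show fderiv ℝ (fun y => Real.exp (m * F y) * (m * ghhD v F y)) y v = _
  rw [h3.fderiv]
  simp only [_root_.add_apply, _root_.smul_apply, smul_eq_mul, ghhD]
  ring

theorem ghu_P_exp_mul {Ω : Type} [MeasurableSpace Ω] {μ : Measure Ω} [IsProbabilityMeasure μ] {a : Ω → V} {F : V → ℝ} (hF : GkReg F)
    (hn : GkNoise μ a) (m : ℝ) (Ψ : V → ℝ) (z : V) :
    gkP μ a (fun y => Real.exp (m * F y) * Ψ y) z = gkP μ a (fun y => Real.exp (m * F y)) z * ghuBr μ a m F Ψ z := by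
  rw [ghu_Br_eq, ← ghu_exp_T hF hn m z, ← mul_assoc, ← Real.exp_add]
  simp

theorem GkReg.ghu_D_cont {F : V → ℝ} (hF : GkReg F) (v : V) : Continuous (ghhD v F) := (hF.ghd_dir v).ghd_continuous

theorem GkReg.ghu_DD_cont {F : V → ℝ} (hF : GkReg F) (v v' : V) : Continuous (ghhD v' (ghhD v F)) := ((hF.ghd_dir v).ghd_dir v').ghd_continuous

theorem GkReg.ghu_D_bdd {F : V → ℝ} (hF : GkReg F) (v : V) : ∃ C : ℝ, ∀ y, |ghhD v F y| ≤ C := hF.ghd_dir_bdd v

theorem GkReg.ghu_DD_bdd {F : V → ℝ} (hF : GkReg F) (v v' : V) : ∃ C : ℝ, ∀ y, |ghhD v' (ghhD v F) y| ≤ C := (hF.ghd_dir v).ghd_dir_bdd v'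

/-- one term of the Cole-Hopf integrand: continuous and bounded -/
theorem GkReg.ghu_q_cont {F : V → ℝ} (hF : GkReg F) (m : ℝ) (v : V) : Continuous fun y => ghhD v (ghhD v F) y + m * ghhD v F y ^ 2 :=
  (hF.ghu_DD_cont v v).add (continuous_const.mul ((hF.ghu_D_cont v).pow 2))

theorem GkReg.ghu_q_bdd {F : V → ℝ} (hF : GkReg F) (m : ℝ) (v : V) : ∃ C : ℝ, ∀ y, |ghhD v (ghhD v F) y + m * ghhD v F y ^ 2| ≤ C := by
  obtain ⟨C1, h1⟩ := hF.ghu_D_bdd v
  obtain ⟨C2, h2⟩ := hF.ghu_DD_bdd v v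
  refine ⟨C2 + |m| * C1 ^ 2, fun y => (abs_add_le _ _).trans (add_le_add (h2 y) ?_)⟩
  rw [abs_mul, abs_pow]
  exact mul_le_mul_of_nonneg_left (pow_le_pow_left₀ (abs_nonneg _) (h1 y) 2) (abs_nonneg _)

theorem GkReg.ghu_q_gr {F : V → ℝ} (hF : GkReg F) (m : ℝ) (v : V) : GkGr fun y => ghhD v (ghhD v F) y + m * ghhD v F y ^ 2 := by
  obtain ⟨C, hC⟩ := hF.ghu_q_bdd m v
  exact ghd_gr_of_bdd hC

theorem GkReg.ghu_Q_cont {F : V → ℝ} (hF : GkReg F) (e : K → V) (w' : K → ℝ) (m : ℝ) : Continuous (ghuQ e w' m F) := by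
  unfold ghuQ
  exact continuous_const.mul (continuous_finsetSum _ fun k _ => continuous_const.mul (hF.ghu_q_cont m (e k)))

theorem GkReg.ghu_Q_bdd {F : V → ℝ} (hF : GkReg F) (e : K → V) (w' : K → ℝ) (m : ℝ) : ∃ C : ℝ, ∀ y, |ghuQ e w' m F y| ≤ C := by
  choose C hC using fun k => hF.ghu_q_bdd m (e k)
  refine ⟨1 / 2 * ∑ k, |w' k| * C k, fun y => ?_⟩
  unfold ghuQ
  rw [abs_mul, abs_of_pos (by norm_num : (0 : ℝ) < 1 / 2)]
  refine mul_le_mul_of_nonneg_left ((Finset.abs_sum_le_sum_abs _ _).trans (Finset.sum_le_sum fun k _ => ?_)) (by norm_num)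
  rw [abs_mul]
  exact mul_le_mul_of_nonneg_left (hC k y) (abs_nonneg _)

theorem GkReg.ghu_Q_gr {F : V → ℝ} (hF : GkReg F) (e : K → V) (w' : K → ℝ) (m : ℝ) : GkGr (ghuQ e w' m F) := by
  obtain ⟨C, hC⟩ := hF.ghu_Q_bdd e w' m
  exact ghd_gr_of_bdd hC

/-- the bracket of the Cole-Hopf integrand, term by term -/
theorem ghu_Br_Q {Ω : Type} [MeasurableSpace Ω] {μ : Measure Ω} {a : Ω → V} {F : V → ℝ} (hF : GkReg F) (hn : GkNoise μ a) (m : ℝ)
    (e : K → V) (w' : K → ℝ) (z : V) :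
    ghuBr μ a m F (ghuQ e w' m F) z
      = 1 / 2 * ∑ k, w' k * ghuBr μ a m F (fun y => ghhD (e k) (ghhD (e k) F) y + m * ghhD (e k) F y ^ 2) z := by
  have e1 : ghuQ e w' m F = fun y => 1 / 2 * ∑ k, w' k * (ghhD (e k) (ghhD (e k) F) y + m * ghhD (e k) F y ^ 2) := rfl
  have e2 := ghu_Br_sum hF hn m Finset.univ (Ψ := fun k y => w' k * (ghhD (e k) (ghhD (e k) F) y + m * ghhD (e k) F y ^ 2))
    (fun k _ => continuous_const.mul (hF.ghu_q_cont m (e k)))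
    (fun k _ => ghd_gr_mul (ghd_gr_of_bdd (K := fun _ : V => w' k) (C := ‖w' k‖) fun _ => le_rfl) (hF.ghu_q_gr m (e k))) z
  rw [e1, ghu_Br_const_mul, e2]
  simp only [ghu_Br_const_mul]

/-- **TIME DEPENDENT COLE-HOPF**: any real mass, within a convex set of times, zero variances and end points included -/
theorem ghu_T {I : Set ℝ} (hI : Convex ℝ I) {θ : ℝ} (hθ : θ ∈ I) (e : K → V) (x : V)
    {w : K → ℝ → ℝ} {w' : K → ℝ} (hw : ∀ k, HasDerivWithinAt (w k) (w' k) I θ) (hw0 : ∀ k, ∀ t ∈ I, 0 ≤ w k t) (m : ℝ)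
    {F Ft : ℝ → V → ℝ} {A0 L A C M : ℝ}
    (hF : ∀ t ∈ I, GkReg (F t))
    (hFt : ∀ t ∈ I, ∀ y, HasDerivWithinAt (fun t => F t y) (Ft t y) I t)
    (hct : Continuous (Ft θ))
    (hb0 : ∀ t ∈ I, ∀ y, |F t y| ≤ A0 + L * ‖y‖)
    (hbt : ∀ t ∈ I, ∀ y, |Ft t y| ≤ A * Real.exp (C * ‖y‖))
    (hb1 : ∀ t ∈ I, ∀ k y, |ghhD (e k) (F t) y| ≤ M)
    (hb2 : ∀ t ∈ I, ∀ k y, |ghhD (e k) (ghhD (e k) (F t)) y| ≤ M)
    (hc0 : ContinuousOn (fun p : ℝ × V => F p.1 p.2) (I ×ˢ univ))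
    (hc1 : ∀ k, ContinuousOn (fun p : ℝ × V => ghhD (e k) (F p.1) p.2) (I ×ˢ univ))
    (hc2 : ∀ k, ContinuousOn (fun p : ℝ × V => ghhD (e k) (ghhD (e k) (F p.1)) p.2) (I ×ˢ univ)) :
    HasDerivWithinAt (fun t => ghuT (ghStd K) (ghhLin e fun k => Real.sqrt (w k t)) m (F t) x)
      (ghuBr (ghStd K) (ghhLin e fun k => Real.sqrt (w k θ)) m (F θ) (fun y => Ft θ y + ghuQ e w' m (F θ) y) x) I θ := by
  have hn := ghh_noise e fun k => Real.sqrt (w k θ)
  have hFθ := hF θ hθ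
  have hgt : GkGr (Ft θ) := ⟨|A|, |C|, abs_nonneg _, abs_nonneg _, fun y =>
    (hbt θ hθ y).trans (ghh_exp_mono (le_abs_self _) (abs_nonneg _) (le_abs_self _) y)⟩
  -- the target, term by term
  rw [ghu_Br_add hFθ hn m hct hgt (hFθ.ghu_Q_cont e w' m) (hFθ.ghu_Q_gr e w' m), ghu_Br_Q hFθ hn]
  by_cases hm : m = 0
  · subst hm
    have key := ghw_heat hI hθ e x hw hw0 (g := F) (gt := Ft) (A := |A| + |M|) (C := |C|) (abs_nonneg C) (fun t ht => (hF t ht).eg 2) hFt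
      (fun t ht y => (hbt t ht y).trans (ghh_exp_mono ((le_abs_self _).trans (le_add_of_nonneg_right (abs_nonneg _)))
        (by positivity) (le_abs_self _) y))
      (fun t ht k y => ((hb2 t ht k y).trans (le_abs_self _)).trans (by
        have h1 : (1 : ℝ) ≤ Real.exp (|C| * ‖y‖) := Real.one_le_exp (by positivity)
        nlinarith [abs_nonneg A, abs_nonneg M])) hc2
    simp only [ghu_T_zero]
    refine key.congr_deriv ?_
    simp only [ghu_Br_eq, zero_mul, neg_zero, Real.exp_zero, one_mul, add_zero]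
  · set g : ℝ → V → ℝ := fun t y => Real.exp (m * F t y) with hg
    set gt : ℝ → V → ℝ := fun t y => Real.exp (m * F t y) * (m * Ft t y) with hgtd
    set E0 : ℝ := Real.exp (|m| * |A0|) with hE0
    set C1 : ℝ := |m| * |L| + |C| with hC1
    set A1 : ℝ := E0 * (|m| * |A| + (|m| * |M| + m ^ 2 * M ^ 2)) with hA1
    have hE0pos : 0 < E0 := Real.exp_pos _
    have hexp : ∀ t ∈ I, ∀ y, Real.exp (m * F t y) ≤ E0 * Real.exp (|m| * |L| * ‖y‖) := by
      intro t ht y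
      rw [hE0, ← Real.exp_add]
      refine Real.exp_le_exp.2 ?_
      have h1 : m * F t y ≤ |m| * |F t y| := by rw [← abs_mul]; exact le_abs_self _
      have h2 : |F t y| ≤ |A0| + |L| * ‖y‖ :=
        (hb0 t ht y).trans (add_le_add (le_abs_self _) (mul_le_mul_of_nonneg_right (le_abs_self _) (norm_nonneg _)))
      calc m * F t y ≤ |m| * |F t y| := h1
        _ ≤ |m| * (|A0| + |L| * ‖y‖) := mul_le_mul_of_nonneg_left h2 (abs_nonneg _)
        _ = _ := by ring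
    have hsplit : ∀ y : V, Real.exp (C1 * ‖y‖) = Real.exp (|m| * |L| * ‖y‖) * Real.exp (|C| * ‖y‖) := by
      intro y
      rw [hC1, add_mul, Real.exp_add]
    have hDD : ∀ t ∈ I, ∀ k y, ghhD (e k) (ghhD (e k) (g t)) y
        = Real.exp (m * F t y) * (m * ghhD (e k) (ghhD (e k) (F t)) y + m ^ 2 * ghhD (e k) (F t) y ^ 2) :=
      fun t ht k y => ghu_DD_exp (hF t ht) m (e k) y
    have key := ghw_heat hI hθ e x hw hw0 (g := g) (gt := gt) (A := A1) (C := C1) (by positivity)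
      (fun t ht => ((hF t ht).const_mul m).exp.eg 2)
      (fun t ht y => ((hFt t ht y).const_mul m).exp)
      (fun t ht y => by
        simp only [hgtd]
        rw [abs_mul, abs_of_pos (Real.exp_pos _), abs_mul, hsplit, hA1]
        have h1 := hexp t ht y
        have h2 : |Ft t y| ≤ |A| * Real.exp (|C| * ‖y‖) :=
          (hbt t ht y).trans (ghh_exp_mono (le_abs_self _) (abs_nonneg _) (le_abs_self _) y)
        have h3 : Real.exp (m * F t y) * (|m| * |Ft t y|)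
            ≤ (E0 * Real.exp (|m| * |L| * ‖y‖)) * (|m| * (|A| * Real.exp (|C| * ‖y‖))) :=
          mul_le_mul h1 (mul_le_mul_of_nonneg_left h2 (abs_nonneg _)) (by positivity) (by positivity)
        refine h3.trans ?_
        have h4 : 0 ≤ E0 * (|m| * |M| + m ^ 2 * M ^ 2) * (Real.exp (|m| * |L| * ‖y‖) * Real.exp (|C| * ‖y‖)) := by positivity
        nlinarith [h4])
      (fun t ht k y => by
        rw [hDD t ht k y, abs_mul, abs_of_pos (Real.exp_pos _), hsplit, hA1]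
        have h1 := hexp t ht y
        have h2 : |m * ghhD (e k) (ghhD (e k) (F t)) y + m ^ 2 * ghhD (e k) (F t) y ^ 2| ≤ |m| * |M| + m ^ 2 * M ^ 2 := by
          refine (abs_add_le _ _).trans (add_le_add ?_ ?_)
          · rw [abs_mul]
            exact mul_le_mul_of_nonneg_left ((hb2 t ht k y).trans (le_abs_self _)) (abs_nonneg _)
          · rw [abs_mul, abs_of_nonneg (sq_nonneg m), abs_pow, ← sq_abs M]
            exact mul_le_mul_of_nonneg_left (pow_le_pow_left₀ (abs_nonneg _) ((hb1 t ht k y).trans (le_abs_self _)) 2) (sq_nonneg _)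
        have h5 : (1 : ℝ) ≤ Real.exp (|C| * ‖y‖) := Real.one_le_exp (by positivity)
        have h3 : Real.exp (m * F t y) * |m * ghhD (e k) (ghhD (e k) (F t)) y + m ^ 2 * ghhD (e k) (F t) y ^ 2|
            ≤ (E0 * Real.exp (|m| * |L| * ‖y‖)) * (|m| * |M| + m ^ 2 * M ^ 2) :=
          mul_le_mul h1 h2 (abs_nonneg _) (by positivity)
        refine h3.trans ?_
        have h6 : 0 ≤ E0 * Real.exp (|m| * |L| * ‖y‖) * (|m| * |M| + m ^ 2 * M ^ 2) := by positivity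
        have h7 : 0 ≤ E0 * (|m| * |A|) * (Real.exp (|m| * |L| * ‖y‖) * Real.exp (|C| * ‖y‖)) := by positivity
        nlinarith [mul_le_mul_of_nonneg_left h5 h6])
      (fun k => by
        have h1 : ContinuousOn (fun p : ℝ × V => Real.exp (m * F p.1 p.2)
            * (m * ghhD (e k) (ghhD (e k) (F p.1)) p.2 + m ^ 2 * ghhD (e k) (F p.1) p.2 ^ 2)) (I ×ˢ univ) :=
          (Real.continuous_exp.comp_continuousOn (continuousOn_const.mul hc0)).mul
            ((continuousOn_const.mul (hc2 k)).add (continuousOn_const.mul ((hc1 k).pow 2)))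
        exact h1.congr fun p hp => hDD p.1 hp.1 k p.2)
    set a : (K → ℝ) → V := ghhLin e fun k => Real.sqrt (w k θ) with ha
    have hNpos : 0 < gkP (ghStd K) a (g θ) x := ghu_P_exp_pos hFθ hn m x
    have e1 : gkP (ghStd K) a (gt θ) x = gkP (ghStd K) a (g θ) x * (m * ghuBr (ghStd K) a m (F θ) (Ft θ) x) := by
      rw [← ghu_Br_const_mul]
      exact ghu_P_exp_mul hFθ hn m _ x
    have e2 : ∀ k, gkP (ghStd K) a (ghhD (e k) (ghhD (e k) (g θ))) x = gkP (ghStd K) a (g θ) x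
        * (m * ghuBr (ghStd K) a m (F θ) (fun y => ghhD (e k) (ghhD (e k) (F θ)) y + m * ghhD (e k) (F θ) y ^ 2) x) := by
      intro k
      rw [← ghu_Br_const_mul, ← ghu_P_exp_mul hFθ hn m _ x]
      congr 1
      funext y
      rw [hDD θ hθ k y]
      ring
    have h3 := (key.log hNpos.ne').const_mul m⁻¹
    simp only [ghu_T_ne _ _ hm]
    refine h3.congr_deriv ?_
    change m⁻¹ * ((gkP (ghStd K) a (gt θ) x + 1 / 2 * ∑ k, w' k * gkP (ghStd K) a (ghhD (e k) (ghhD (e k) (g θ))) x)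
      / gkP (ghStd K) a (g θ) x) = _
    rw [e1]
    simp only [e2]
    have : ∑ k, w' k * (gkP (ghStd K) a (g θ) x
        * (m * ghuBr (ghStd K) a m (F θ) (fun y => ghhD (e k) (ghhD (e k) (F θ)) y + m * ghhD (e k) (F θ) y ^ 2) x))
        = gkP (ghStd K) a (g θ) x * m
          * ∑ k, w' k * ghuBr (ghStd K) a m (F θ) (fun y => ghhD (e k) (ghhD (e k) (F θ)) y + m * ghhD (e k) (F θ) y ^ 2) x := by
      rw [Finset.mul_sum]
      exact Finset.sum_congr rfl fun k _ => by ring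
    rw [this]
    field_simp

/-- **Cole-Hopf for a fixed function of the class**: no other hypothesis -/
theorem ghu_T_const {I : Set ℝ} (hI : Convex ℝ I) {θ : ℝ} (hθ : θ ∈ I) (e : K → V) (x : V)
    {w : K → ℝ → ℝ} {w' : K → ℝ} (hw : ∀ k, HasDerivWithinAt (w k) (w' k) I θ) (hw0 : ∀ k, ∀ t ∈ I, 0 ≤ w k t) (m : ℝ)
    {F : V → ℝ} (hF : GkReg F) :
    HasDerivWithinAt (fun t => ghuT (ghStd K) (ghhLin e fun k => Real.sqrt (w k t)) m F x)
      (ghuBr (ghStd K) (ghhLin e fun k => Real.sqrt (w k θ)) m F (ghuQ e w' m F) x) I θ := by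
  obtain ⟨L, hL0, hL⟩ := hF.lip
  choose C1 hC1 using fun k => hF.ghu_D_bdd (e k)
  choose C2 hC2 using fun k => hF.ghu_DD_bdd (e k) (e k)
  have hC1n : ∀ k, 0 ≤ C1 k := fun k => (abs_nonneg _).trans (hC1 k 0)
  have hC2n : ∀ k, 0 ≤ C2 k := fun k => (abs_nonneg _).trans (hC2 k 0)
  have hs1 : ∀ k, C1 k ≤ ∑ k, (C1 k + C2 k) := fun k =>
    (le_add_of_nonneg_right (hC2n k)).trans (Finset.single_le_sum (f := fun k => C1 k + C2 k)
      (fun j _ => add_nonneg (hC1n j) (hC2n j)) (Finset.mem_univ k))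
  have hs2 : ∀ k, C2 k ≤ ∑ k, (C1 k + C2 k) := fun k =>
    (le_add_of_nonneg_left (hC1n k)).trans (Finset.single_le_sum (f := fun k => C1 k + C2 k)
      (fun j _ => add_nonneg (hC1n j) (hC2n j)) (Finset.mem_univ k))
  have key := ghu_T hI hθ e x hw hw0 m (F := fun _ => F) (Ft := fun _ _ => 0) (A0 := |F 0|) (L := L) (A := 0) (C := 0)
    (M := ∑ k, (C1 k + C2 k)) (fun _ _ => hF) (fun _ _ y => hasDerivWithinAt_const _ _ _) continuous_const
    (fun _ _ y => by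
      have h1 := hL 0 y
      rw [zero_add] at h1
      have h2 : |F y| ≤ |F 0| + |F y - F 0| := by
        have := abs_add_le (F 0) (F y - F 0)
        rwa [add_sub_cancel] at this
      linarith)
    (fun _ _ y => by simp) (fun _ _ k y => (hC1 k y).trans (hs1 k)) (fun _ _ k y => (hC2 k y).trans (hs2 k))
    (hF.ghd_continuous.comp continuous_snd).continuousOn (fun k => ((hF.ghu_D_cont (e k)).comp continuous_snd).continuousOn)
    (fun k => ((hF.ghu_DD_cont (e k) (e k)).comp continuous_snd).continuousOn)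
  simpa only [zero_add] using key

/-- the time dependent Cole-Hopf formula for a level `ghLvF Φ m (w · t)` of `Defs/Gh` -/
theorem ghu_T_lv {S ι : Type} [Fintype S] [Fintype ι] {I : Set ℝ} (hI : Convex ℝ I) {θ : ℝ} (hθ : θ ∈ I) (Φ : S → ι → ℝ) (z : S → ℝ)
    {w : ι → ℝ → ℝ} {w' : ι → ℝ} (hw : ∀ i, HasDerivWithinAt (w i) (w' i) I θ) (hw0 : ∀ i, ∀ t ∈ I, 0 ≤ w i t) (m : ℝ)
    {F Ft : ℝ → (S → ℝ) → ℝ} {A0 L A C M : ℝ}
    (hF : ∀ t ∈ I, GkReg (F t))
    (hFt : ∀ t ∈ I, ∀ y, HasDerivWithinAt (fun t => F t y) (Ft t y) I t)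
    (hct : Continuous (Ft θ))
    (hb0 : ∀ t ∈ I, ∀ y, |F t y| ≤ A0 + L * ‖y‖)
    (hbt : ∀ t ∈ I, ∀ y, |Ft t y| ≤ A * Real.exp (C * ‖y‖))
    (hb1 : ∀ t ∈ I, ∀ i y, |ghhD (fun s => Φ s i) (F t) y| ≤ M)
    (hb2 : ∀ t ∈ I, ∀ i y, |ghhD (fun s => Φ s i) (ghhD (fun s => Φ s i) (F t)) y| ≤ M)
    (hc0 : ContinuousOn (fun p : ℝ × (S → ℝ) => F p.1 p.2) (I ×ˢ univ))
    (hc1 : ∀ i, ContinuousOn (fun p : ℝ × (S → ℝ) => ghhD (fun s => Φ s i) (F p.1) p.2) (I ×ˢ univ))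
    (hc2 : ∀ i, ContinuousOn (fun p : ℝ × (S → ℝ) => ghhD (fun s => Φ s i) (ghhD (fun s => Φ s i) (F p.1)) p.2) (I ×ˢ univ)) :
    HasDerivWithinAt (fun t => ghT (ghStd ι) m fun ξ => F t (z + (ghLvF Φ m fun i => w i t).inc ξ))
      (∫ ξ, ghdD (ghStd ι) (ghLvF Φ m fun i => w i θ).inc m (F θ) z ξ *
        (Ft θ (z + (ghLvF Φ m fun i => w i θ).inc ξ) + ghuQ (fun i s => Φ s i) w' m (F θ) (z + (ghLvF Φ m fun i => w i θ).inc ξ)) ∂ghStd ι)
      I θ := by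
  have := ghu_T hI hθ (fun i s => Φ s i) z hw hw0 m hF hFt hct hb0 hbt hb1 hb2 hc0 hc1 hc2
  simp only [ghh_incF_eq]
  exact this

end ch

/-! ## 4. derivatives of `T_m F` and of the brackets in the base point -/

section der

variable {Ω : Type} [MeasurableSpace Ω] {V : Type} [NormedAddCommGroup V] [NormedSpace ℝ V] {μ : Measure Ω} [IsProbabilityMeasure μ]
  {a : Ω → V} {F : V → ℝ}

/-- `D_v (T_m F) = ⟨D_v F⟩` -/
theorem ghu_D_T (hF : GkReg F) (hn : GkNoise μ a) (m : ℝ) (v : V) : ghhD v (ghuT μ a m F) = ghuBr μ a m F (ghhD v F) := by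
  funext z
  unfold ghhD ghuBr
  have h := (ghd_T_hasFDerivAt hF hn m z).fderiv
  have h' : fderiv ℝ (ghuT μ a m F) z = ∫ o, ghdD μ a m F z o • fderiv ℝ F (z + a o) ∂μ := h
  rw [h', ContinuousLinearMap.integral_apply (ghd_D_smul_integrable hF hn m hF.ghd_continuous_fderiv hF.ghd_gr_fderiv z)]
  rfl

/-- `D_v ⟨Ψ⟩ = ⟨D_v Ψ⟩ + m (⟨Ψ D_v F⟩ - ⟨Ψ⟩ ⟨D_v F⟩)` -/
theorem ghu_D_Br (hF : GkReg F) (hn : GkNoise μ a) (m : ℝ) {Ψ : V → ℝ} (hΨ : GkReg Ψ) (v : V) (z : V) :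
    ghhD v (ghuBr μ a m F Ψ) z = ghuBr μ a m F (ghhD v Ψ) z
      + m * (ghuBr μ a m F (fun y => Ψ y * ghhD v F y) z - ghuBr μ a m F Ψ z * ghuBr μ a m F (ghhD v F) z) := by
  have h := (ghd_Br_hasFDerivAt hF hn m hΨ.ghd_hasFDerivAt hΨ.ghd_continuous_fderiv hΨ.gr hΨ.ghd_gr_fderiv z).fderiv
  have i1 := ghd_D_smul_integrable hF hn m hΨ.ghd_continuous_fderiv hΨ.ghd_gr_fderiv z
  have i2 : Integrable (fun o => (ghdD μ a m F z o * Ψ (z + a o)) • fderiv ℝ F (z + a o)) μ := by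
    have := ghd_D_smul_integrable hF hn m (Θ := fun y => Ψ y • fderiv ℝ F y) (hΨ.ghd_continuous.smul hF.ghd_continuous_fderiv)
      (ghd_gr_smul hΨ.gr hF.ghd_gr_fderiv) z
    refine this.congr (Eventually.of_forall fun o => ?_)
    simp only [smul_smul]
  have i3 := ghd_D_smul_integrable hF hn m hF.ghd_continuous_fderiv hF.ghd_gr_fderiv z
  show fderiv ℝ (fun z => ∫ o, ghdD μ a m F z o * Ψ (z + a o) ∂μ) z v = _
  rw [h]
  simp only [_root_.add_apply, _root_.sub_apply, _root_.smul_apply, ContinuousLinearMap.integral_apply i1,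
    ContinuousLinearMap.integral_apply i2, ContinuousLinearMap.integral_apply i3, smul_eq_mul]
  unfold ghuBr ghhD
  have e1 : ∫ o, ghdD μ a m F z o * Ψ (z + a o) * fderiv ℝ F (z + a o) v ∂μ
      = ∫ o, ghdD μ a m F z o * (Ψ (z + a o) * fderiv ℝ F (z + a o) v) ∂μ :=
    integral_congr_ae (Eventually.of_forall fun o => by ring)
  rw [e1]
  ring

/-- `D_v² (T_m F) = ⟨D_v² F⟩ + m (⟨(D_v F)²⟩ - ⟨D_v F⟩²)` -/
theorem ghu_DD_T (hF : GkReg F) (hn : GkNoise μ a) (m : ℝ) (v : V) (z : V) :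
    ghhD v (ghhD v (ghuT μ a m F)) z = ghuBr μ a m F (ghhD v (ghhD v F)) z
      + m * (ghuBr μ a m F (fun y => ghhD v F y ^ 2) z - ghuBr μ a m F (ghhD v F) z ^ 2) := by
  have hd : GkReg (ghhD v F) := hF.ghd_dir v
  rw [ghu_D_T hF hn m v, ghu_D_Br hF hn m hd v z]
  simp only [sq]

/-- `T_m F` is Lipschitz with the constant of `F` -/
theorem ghu_T_lip (hF : GkReg F) (hn : GkNoise μ a) (m : ℝ) {L : ℝ} (hL : ∀ y, ‖fderiv ℝ F y‖ ≤ L) (y y' : V) :
    |ghuT μ a m F y - ghuT μ a m F y'| ≤ L * ‖y - y'‖ := by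
  have h1 : ∀ z, HasFDerivAt (ghuT μ a m F) (∫ o, ghdD μ a m F z o • fderiv ℝ F (z + a o) ∂μ) z := fun z => ghd_T_hasFDerivAt hF hn m z
  have := convex_univ.norm_image_sub_le_of_norm_hasFDerivWithin_le (f := ghuT μ a m F) (C := L)
    (fun z _ => (h1 z).hasFDerivWithinAt) (fun z _ => ghd_Br_norm_le hF hn m hL z) (mem_univ y') (mem_univ y)
  simpa [Real.norm_eq_abs] using this

omit [NormedSpace ℝ V] in
theorem ghu_T_noise_zero (μ : Measure Ω) [IsProbabilityMeasure μ] (m : ℝ) (F : V → ℝ) : ghuT μ (fun _ => (0 : V)) m F = F := by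
  funext z
  by_cases hm : m = 0
  · simp [ghuT, ghT, hm]
  · simp [ghuT, ghT, hm]

end der

/-! ## 5. monotonicity and the mesh free Lipschitz bound in the mass -/

section mass

variable {K : Type} [Fintype K] {V : Type} [NormedAddCommGroup V] [NormedSpace ℝ V]

theorem ghu_lin_zero (e : K → V) : ghhLin e (fun _ => 0) = fun _ => (0 : V) := by
  funext ξ
  simp [ghhLin]

/-- the inner family `u_t = T_m F` at the variances `(1 - t) c` -/
noncomputable def ghuU (e : K → V) (c : K → ℝ) (m : ℝ) (F : V → ℝ) (t : ℝ) : V → ℝ :=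
  ghuT (ghStd K) (ghhLin e fun k => Real.sqrt ((1 - t) * c k)) m F

theorem ghu_mass_eqns_cite : True := by
  have := @ghuU.eq_1
  trivial

theorem ghu_sd_cont (c : K → ℝ) : Continuous fun t : ℝ => (fun k => Real.sqrt ((1 - t) * c k) : K → ℝ) :=
  continuous_pi fun k => Real.continuous_sqrt.comp (by fun_prop)

/-- **the interpolation** `ψ(t) = T_{m'} (variances t c) of T_m (variances (1 - t) c) of F`:  `ψ' = ⟨(m' - m)/2 ∑ k, c k (D u_t[e k])²⟩` -/
theorem ghu_mass_deriv {F : V → ℝ} (hF : GkReg F) (e : K → V) {c : K → ℝ} (hc : ∀ k, 0 ≤ c k) (m m' : ℝ) (x : V) {θ : ℝ}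
    (hθ : θ ∈ Icc (0 : ℝ) 1) :
    HasDerivWithinAt (fun t => ghuT (ghStd K) (ghhLin e fun k => Real.sqrt (t * c k)) m' (ghuU e c m F t) x)
      (ghuBr (ghStd K) (ghhLin e fun k => Real.sqrt (θ * c k)) m' (ghuU e c m F θ)
        (fun y => (m' - m) / 2 * ∑ k, c k * ghhD (e k) (ghuU e c m F θ) y ^ 2) x) (Icc 0 1) θ := by
  set σ : ℝ → K → ℝ := fun t k => Real.sqrt ((1 - t) * c k) with hσ
  have hσc : Continuous σ := ghu_sd_cont c
  have hpc : Continuous fun p : ℝ × V => ((σ p.1, p.2) : (K → ℝ) × V) := (hσc.comp continuous_fst).prodMk continuous_snd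
  have hn : ∀ t, GkNoise (ghStd K) (ghhLin e (σ t)) := fun t => ghh_noise e (σ t)
  obtain ⟨L, hL⟩ := hF.ghd_fderiv_bdd
  obtain ⟨CQ, hCQ⟩ := hF.ghu_Q_bdd e (fun k => -c k) m
  choose C1 hC1 using fun k => hF.ghu_D_bdd (e k)
  choose C2 hC2 using fun k => hF.ghu_DD_bdd (e k) (e k)
  have hC1n : ∀ k, 0 ≤ C1 k := fun k => (abs_nonneg _).trans (hC1 k 0)
  have hC2n : ∀ k, 0 ≤ C2 k := fun k => (abs_nonneg _).trans (hC2 k 0)
  have hgD : ∀ k, GkGr (ghhD (e k) F) := fun k => ghd_gr_of_bdd (hC1 k)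
  have hgDD : ∀ k, GkGr (ghhD (e k) (ghhD (e k) F)) := fun k => ghd_gr_of_bdd (hC2 k)
  have hsq : ∀ k y, |ghhD (e k) F y ^ 2| ≤ C1 k ^ 2 := fun k y => by
    rw [abs_pow]
    exact pow_le_pow_left₀ (abs_nonneg _) (hC1 k y) 2
  have hgSq : ∀ k, GkGr (fun y => ghhD (e k) F y ^ 2) := fun k => ghd_gr_of_bdd (hsq k)
  -- the derivatives of the family
  have hD : ∀ t k, ghhD (e k) (ghuU e c m F t) = ghuBr (ghStd K) (ghhLin e (σ t)) m F (ghhD (e k) F) := fun t k => ghu_D_T hF (hn t) m (e k)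
  have hDD : ∀ t k y, ghhD (e k) (ghhD (e k) (ghuU e c m F t)) y = ghuBr (ghStd K) (ghhLin e (σ t)) m F (ghhD (e k) (ghhD (e k) F)) y
      + m * (ghuBr (ghStd K) (ghhLin e (σ t)) m F (fun y => ghhD (e k) F y ^ 2) y - ghuBr (ghStd K) (ghhLin e (σ t)) m F (ghhD (e k) F) y ^ 2) :=
    fun t k y => ghu_DD_T hF (hn t) m (e k) y
  -- the bound at the origin
  obtain ⟨A0, hA0⟩ := isCompact_Icc.exists_bound_of_continuousOn (s := Icc (0 : ℝ) 1) (f := fun t => ghuU e c m F t 0)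
    (((ghu_T_cont hF e m).comp (hpc.comp (continuous_id.prodMk continuous_const))).continuousOn)
  set Mk : K → ℝ := fun k => C1 k + (C2 k + |m| * (C1 k ^ 2 + C1 k ^ 2)) with hMk
  have hMkn : ∀ k, 0 ≤ Mk k := fun k => by
    have := hC1n k; have := hC2n k
    positivity
  have hMs : ∀ k, Mk k ≤ ∑ k, Mk k := fun k => Finset.single_le_sum (f := Mk) (fun j _ => hMkn j) (Finset.mem_univ k)
  have key := ghu_T (convex_Icc (0 : ℝ) 1) hθ e x (w := fun k t => t * c k) (w' := c)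
    (fun k => by simpa using ((hasDerivAt_id θ).mul_const (c k)).hasDerivWithinAt)
    (fun k t ht => mul_nonneg ht.1 (hc k)) m' (F := ghuU e c m F)
    (Ft := fun t => ghuBr (ghStd K) (ghhLin e (σ t)) m F (ghuQ e (fun k => -c k) m F))
    (A0 := A0) (L := L) (A := CQ) (C := 0) (M := ∑ k, Mk k)
    (fun t _ => hF.ghuT (hn t) m)
    (fun t ht y => ghu_T_const (convex_Icc (0 : ℝ) 1) ht e y (w := fun k t => (1 - t) * c k) (w' := fun k => -c k)
      (fun k => by simpa using (((hasDerivAt_id t).const_sub 1).mul_const (c k)).hasDerivWithinAt)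
      (fun k s hs => mul_nonneg (by linarith [hs.2]) (hc k)) m hF)
    ((ghu_Br_cont hF e m (hF.ghu_Q_cont _ _ m) (hF.ghu_Q_gr _ _ m)).comp (continuous_const.prodMk continuous_id))
    (fun t ht y => by
      have h1 := ghu_T_lip hF (hn t) m hL y 0
      rw [sub_zero] at h1
      have h2 := hA0 t ht
      rw [Real.norm_eq_abs] at h2
      have h3 : |ghuU e c m F t y| ≤ |ghuU e c m F t 0| + |ghuU e c m F t y - ghuU e c m F t 0| := by
        have := abs_add_le (ghuU e c m F t 0) (ghuU e c m F t y - ghuU e c m F t 0)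
        rwa [add_sub_cancel] at this
      have h1' : |ghuU e c m F t y - ghuU e c m F t 0| ≤ L * ‖y‖ := h1
      linarith)
    (fun t _ y => by
      simpa using ghu_Br_abs_le hF (hn t) m hCQ y)
    (fun t _ k y => by
      rw [hD]
      refine (ghu_Br_abs_le hF (hn t) m (hC1 k) y).trans (le_trans ?_ (hMs k))
      have := hC2n k; have := hC1n k
      simp only [hMk]
      have : 0 ≤ |m| * (C1 k ^ 2 + C1 k ^ 2) := by positivity
      linarith)
    (fun t _ k y => by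
      rw [hDD]
      refine le_trans ?_ (hMs k)
      have b1 := ghu_Br_abs_le hF (hn t) m (hC2 k) y
      have b2 := ghu_Br_abs_le hF (hn t) m (hsq k) y
      have b3 := ghu_Br_abs_le hF (hn t) m (hC1 k) y
      have b4 : |ghuBr (ghStd K) (ghhLin e (σ t)) m F (ghhD (e k) F) y ^ 2| ≤ C1 k ^ 2 := by
        rw [abs_pow]
        exact pow_le_pow_left₀ (abs_nonneg _) b3 2
      have b5 : |m * (ghuBr (ghStd K) (ghhLin e (σ t)) m F (fun y => ghhD (e k) F y ^ 2) y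
          - ghuBr (ghStd K) (ghhLin e (σ t)) m F (ghhD (e k) F) y ^ 2)| ≤ |m| * (C1 k ^ 2 + C1 k ^ 2) := by
        rw [abs_mul]
        exact mul_le_mul_of_nonneg_left ((abs_sub _ _).trans (add_le_add b2 b4)) (abs_nonneg _)
      simp only [hMk]
      have := hC1n k
      linarith [abs_add_le (ghuBr (ghStd K) (ghhLin e (σ t)) m F (ghhD (e k) (ghhD (e k) F)) y)
        (m * (ghuBr (ghStd K) (ghhLin e (σ t)) m F (fun y => ghhD (e k) F y ^ 2) y
          - ghuBr (ghStd K) (ghhLin e (σ t)) m F (ghhD (e k) F) y ^ 2))])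
    (((ghu_T_cont hF e m).comp hpc).continuousOn)
    (fun k => by
      simp only [hD]
      exact ((ghu_Br_cont hF e m (hF.ghu_D_cont (e k)) (hgD k)).comp hpc).continuousOn)
    (fun k => by
      simp only [hDD]
      exact ((((ghu_Br_cont hF e m (hF.ghu_DD_cont (e k) (e k)) (hgDD k)).comp hpc).add
        (continuous_const.mul (((ghu_Br_cont hF e m ((hF.ghu_D_cont (e k)).pow 2) (hgSq k)).comp hpc).sub
          (((ghu_Br_cont hF e m (hF.ghu_D_cont (e k)) (hgD k)).comp hpc).pow 2))))).continuousOn)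
  refine key.congr_deriv ?_
  congr 1
  funext y
  -- the pointwise identity
  rw [ghu_Br_Q hF (hn θ)]
  unfold ghuQ
  have e1 : ∀ k, ghuBr (ghStd K) (ghhLin e (σ θ)) m F (fun y => ghhD (e k) (ghhD (e k) F) y + m * ghhD (e k) F y ^ 2) y
      = ghuBr (ghStd K) (ghhLin e (σ θ)) m F (ghhD (e k) (ghhD (e k) F)) y
        + m * ghuBr (ghStd K) (ghhLin e (σ θ)) m F (fun y => ghhD (e k) F y ^ 2) y := by
    intro k
    have := ghu_Br_add hF (hn θ) m (Ψ := ghhD (e k) (ghhD (e k) F)) (Ψ' := fun y => m * ghhD (e k) F y ^ 2) (hF.ghu_DD_cont (e k) (e k)) (hgDD k)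
      (continuous_const.mul ((hF.ghu_D_cont (e k)).pow 2))
      (ghd_gr_mul (ghd_gr_of_bdd (K := fun _ : V => m) (C := ‖m‖) fun _ => le_rfl) (hgSq k)) y
    rw [this, ghu_Br_const_mul]
  simp only [e1, hDD]
  simp only [hD]
  rw [← mul_add, ← Finset.sum_add_distrib, Finset.mul_sum, Finset.mul_sum]
  exact Finset.sum_congr rfl fun k _ => by ring

/-- Jensen: the weighted square gradient of `T_m F` is bounded by the one of `F` -/
theorem ghu_grad_le {Ω : Type} [MeasurableSpace Ω] {μ : Measure Ω} [IsProbabilityMeasure μ] {a : Ω → V} {F : V → ℝ} (hF : GkReg F)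
    (hn : GkNoise μ a) (m : ℝ) (e : K → V) {c : K → ℝ} (hc : ∀ k, 0 ≤ c k) {Kb : ℝ} (hK : ∀ y, ∑ k, c k * ghhD (e k) F y ^ 2 ≤ Kb) (y : V) :
    ∑ k, c k * ghhD (e k) (ghuT μ a m F) y ^ 2 ≤ Kb := by
  have hgD : ∀ k, GkGr (ghhD (e k) F) := fun k => by
    obtain ⟨C, hC⟩ := hF.ghu_D_bdd (e k)
    exact ghd_gr_of_bdd hC
  have hgS : ∀ k, GkGr (fun y => c k * ghhD (e k) F y ^ 2) := fun k => by
    have := ghd_gr_mul (ghd_gr_of_bdd (K := fun _ : V => c k) (C := ‖c k‖) fun _ => le_rfl) (ghd_gr_mul (hgD k) (hgD k))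
    simpa [sq] using this
  have hcS : ∀ k, Continuous (fun y => c k * ghhD (e k) F y ^ 2) := fun k => continuous_const.mul ((hF.ghu_D_cont (e k)).pow 2)
  have h1 : ∑ k, c k * ghhD (e k) (ghuT μ a m F) y ^ 2 ≤ ∑ k, ghuBr μ a m F (fun y => c k * ghhD (e k) F y ^ 2) y := by
    refine Finset.sum_le_sum fun k _ => ?_
    rw [ghu_D_T hF hn m (e k), ghu_Br_const_mul]
    exact mul_le_mul_of_nonneg_left (ghu_Br_sq_le hF hn m (hF.ghu_D_cont (e k)) (hgD k) y) (hc k)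
  refine h1.trans ?_
  rw [← ghu_Br_sum hF hn m Finset.univ (fun k _ => hcS k) (fun k _ => hgS k)]
  refine ghu_Br_le hF hn m (continuous_finsetSum _ fun k _ => hcS k) ?_ hK y
  refine ghd_gr_of_bdd (C := Kb) fun y => ?_
  rw [Real.norm_eq_abs, abs_of_nonneg (Finset.sum_nonneg fun k _ => mul_nonneg (hc k) (sq_nonneg _))]
  exact hK y

/-- **`T_m F` is nondecreasing in the mass, with the mesh free Lipschitz bound** `T_{m'} F - T_m F ≤ (m' - m) K / 2`,  `K ≥ ∑ k, c k (DF[e k])²`;   any real masses -/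
theorem ghu_mass {F : V → ℝ} (hF : GkReg F) (e : K → V) {c : K → ℝ} (hc : ∀ k, 0 ≤ c k) {m m' Kb : ℝ} (hmm : m ≤ m')
    (hK : ∀ y, ∑ k, c k * ghhD (e k) F y ^ 2 ≤ Kb) (x : V) :
    ghuT (ghStd K) (ghhLin e fun k => Real.sqrt (c k)) m F x ≤ ghuT (ghStd K) (ghhLin e fun k => Real.sqrt (c k)) m' F x ∧
      ghuT (ghStd K) (ghhLin e fun k => Real.sqrt (c k)) m' F x - ghuT (ghStd K) (ghhLin e fun k => Real.sqrt (c k)) m F x
        ≤ (m' - m) * Kb / 2 := by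
  set ψ : ℝ → ℝ := fun t => ghuT (ghStd K) (ghhLin e fun k => Real.sqrt (t * c k)) m' (ghuU e c m F t) x with hψ
  set ψ' : ℝ → ℝ := fun θ => ghuBr (ghStd K) (ghhLin e fun k => Real.sqrt (θ * c k)) m' (ghuU e c m F θ)
        (fun y => (m' - m) / 2 * ∑ k, c k * ghhD (e k) (ghuU e c m F θ) y ^ 2) x with hψ'
  have hd : ∀ θ ∈ Icc (0 : ℝ) 1, HasDerivWithinAt ψ (ψ' θ) (Icc 0 1) θ := fun θ hθ => ghu_mass_deriv hF e hc m m' x hθ
  have h0 : ψ 0 = ghuT (ghStd K) (ghhLin e fun k => Real.sqrt (c k)) m F x := by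
    simp only [hψ, zero_mul, Real.sqrt_zero, ghu_lin_zero, ghu_T_noise_zero, ghuU, sub_zero, one_mul]
  have h1 : ψ 1 = ghuT (ghStd K) (ghhLin e fun k => Real.sqrt (c k)) m' F x := by
    simp only [hψ, ghuU, sub_self, zero_mul, Real.sqrt_zero, ghu_lin_zero, ghu_T_noise_zero, one_mul]
  obtain ⟨θ, hθ, hs⟩ := exists_hasDerivAt_eq_slope ψ ψ' zero_lt_one (fun t ht => (hd t ht).continuousWithinAt)
    (fun t ht => (hd t (Ioo_subset_Icc_self ht)).hasDerivAt (Icc_mem_nhds ht.1 ht.2))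
  rw [sub_zero, div_one, h0, h1] at hs
  have hU : GkReg (ghuU e c m F θ) := hF.ghuT (ghh_noise e _) m
  have hn' := ghh_noise e fun k => Real.sqrt (θ * c k)
  have hG0 : ∀ y, 0 ≤ (m' - m) / 2 * ∑ k, c k * ghhD (e k) (ghuU e c m F θ) y ^ 2 := fun y =>
    mul_nonneg (by linarith) (Finset.sum_nonneg fun k _ => mul_nonneg (hc k) (sq_nonneg _))
  have hG1 : ∀ y, (m' - m) / 2 * ∑ k, c k * ghhD (e k) (ghuU e c m F θ) y ^ 2 ≤ (m' - m) * Kb / 2 := fun y => by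
    have := ghu_grad_le hF (ghh_noise e fun k => Real.sqrt ((1 - θ) * c k)) m e hc hK y
    have h2 : (m' - m) / 2 * ∑ k, c k * ghhD (e k) (ghuU e c m F θ) y ^ 2 ≤ (m' - m) / 2 * Kb :=
      mul_le_mul_of_nonneg_left this (by linarith)
    linarith
  have hGc : Continuous fun y => (m' - m) / 2 * ∑ k, c k * ghhD (e k) (ghuU e c m F θ) y ^ 2 :=
    continuous_const.mul (continuous_finsetSum _ fun k _ => continuous_const.mul ((hU.ghu_D_cont (e k)).pow 2))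
  have hGg : GkGr fun y => (m' - m) / 2 * ∑ k, c k * ghhD (e k) (ghuU e c m F θ) y ^ 2 :=
    ghd_gr_of_bdd (C := (m' - m) * Kb / 2) fun y => by
      rw [Real.norm_eq_abs, abs_of_nonneg (hG0 y)]
      exact hG1 y
  have b0 : 0 ≤ ψ' θ := ghu_Br_nonneg _ _ _ _ hG0 x
  have b1 : ψ' θ ≤ (m' - m) * Kb / 2 := ghu_Br_le hU hn' m' hGc hGg hG1 x
  constructor <;> linarith

end mass

/-! ## 6. P6 of `Fd/Contract`: the continuation is nondecreasing and mesh free Lipschitz in the mass of a level      (prefix `fdm_`; exits `fd_mass_mono_pf`, `fd_mass_lip_pf`)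

One level = `ghu_mass`;   `∑ i, (D F[A · i])² = ∑ i, (ghE (A · i))² ≤ ghE (∑ i, (A · i)²) ≤ K` (`gh_b_C_nonneg`);   prefix: `T_m` is monotone and commutes with constants (`gh_ra_T_mono`, `gh_ra_T_add`). -/

section p6

variable {S ι : Type} [Fintype S] [Fintype ι]

/-- the square gradient of a continuation along the features of a level -/
theorem fdm_grad {B : GhB S} (hB : B.Ok) {ls : List (GhLv S ι)} (hls : GhNn ls) (A : S → ι → ℝ) {K : ℝ} (hK : ∀ s, ∑ i, A s i ^ 2 ≤ K)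
    (y : S → ℝ) : ∑ i, (1 : ℝ) * ghhD (fun s => A s i) (ghF B ls) y ^ 2 ≤ K := by
  have h1 : ∀ i, (1 : ℝ) * ghhD (fun s => A s i) (ghF B ls) y ^ 2 ≤ ghE B ls (fun s => A s i ^ 2) y := by
    intro i
    have h2 : ghhD (fun s => A s i) (ghF B ls) y = ghE B ls (fun s => A s i) y := ghd_fderiv_F hB ls y _
    have h3 := gh_b_C_nonneg hB (fun s => A s i) hls y
    unfold ghC at h3
    rw [h2, one_mul]
    simp only [sq]
    linarith
  refine (Finset.sum_le_sum fun i _ => h1 i).trans ?_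
  rw [← gh_b_E_sum hB Finset.univ (fun i s => A s i ^ 2) hls y, ← gh_b_E_const hB K hls y]
  exact gh_b_E_mono hB hK hls y

/-- one level -/
theorem fdm_one {B : GhB S} (hB : B.Ok) (A : S → ι → ℝ) {ls : List (GhLv S ι)} (hls : GhNn ls) {m m' K : ℝ} (hmm : m ≤ m')
    (hK : ∀ s, ∑ i, A s i ^ 2 ≤ K) (z : S → ℝ) :
    ghF B (⟨m, A⟩ :: ls) z ≤ ghF B (⟨m', A⟩ :: ls) z ∧ ghF B (⟨m', A⟩ :: ls) z - ghF B (⟨m, A⟩ :: ls) z ≤ (m' - m) * K / 2 := by
  have key := ghu_mass (ghr_F hB ls) (fun i s => A s i) (c := fun _ : ι => (1 : ℝ)) (fun _ => zero_le_one) hmm (fdm_grad hB hls A hK) z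
  have e : ∀ μ : ℝ, ghF B (⟨μ, A⟩ :: ls) z
      = ghuT (ghStd ι) (ghhLin (fun i s => A s i) fun _ : ι => Real.sqrt 1) μ (ghF B ls) z := by
    intro μ
    rw [Real.sqrt_one, ← ghh_inc_eq (⟨μ, A⟩ : GhLv S ι)]
    rfl
  rw [e m, e m']
  exact key

/-- a prefix of levels of nonnegative masses -/
theorem fdm_prefix {B : GhB S} (hB : B.Ok) {X Y : List (GhLv S ι)} (hX : GhNn X) (hY : GhNn Y) {d : ℝ}
    (h : ∀ z, ghF B X z ≤ ghF B Y z ∧ ghF B Y z - ghF B X z ≤ d) :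
    ∀ (l₁ : List (GhLv S ι)), GhNn l₁ → ∀ z, ghF B (l₁ ++ X) z ≤ ghF B (l₁ ++ Y) z ∧ ghF B (l₁ ++ Y) z - ghF B (l₁ ++ X) z ≤ d
  | [], _, z => h z
  | l :: l₁, hl, z => by
      have ih := fdm_prefix hB hX hY h l₁ hl.tail
      have nX : GhNn (l₁ ++ X) := fun l' hl' => by
        rcases List.mem_append.1 hl' with h1 | h1
        · exact hl.tail l' h1
        · exact hX l' h1
      have nY : GhNn (l₁ ++ Y) := fun l' hl' => by
        rcases List.mem_append.1 hl' with h1 | h1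
        · exact hl.tail l' h1
        · exact hY l' h1
      have cX := gh_b_nice hB nX
      have cY := gh_b_nice hB nY
      have eX : ghF B (l :: l₁ ++ X) z = ghT (ghStd ι) l.m fun ξ => ghF B (l₁ ++ X) (z + l.inc ξ) := rfl
      have eY : ghF B (l :: l₁ ++ Y) z = ghT (ghStd ι) l.m fun ξ => ghF B (l₁ ++ Y) (z + l.inc ξ) := rfl
      rw [eX, eY]
      have m1 := gh_ra_T_mono (μ := ghStd ι) (m := l.m) (cX.integrable l z) (cY.integrable l z) (cX.integrable_exp l l.m z)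
        (cY.integrable_exp l l.m z) fun ξ => (ih (z + l.inc ξ)).1
      have i1 : Integrable (fun ξ => ghF B (l₁ ++ X) (z + l.inc ξ) + d) (ghStd ι) := (cX.integrable l z).add (integrable_const d)
      have i2 : Integrable (fun ξ => Real.exp (l.m * (ghF B (l₁ ++ X) (z + l.inc ξ) + d))) (ghStd ι) := by
        have := (cX.integrable_exp l l.m z).mul_const (Real.exp (l.m * d))
        refine this.congr (Filter.Eventually.of_forall fun ξ => ?_)
        simp only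
        rw [← Real.exp_add]
        congr 1
        ring
      have m2 := gh_ra_T_mono (μ := ghStd ι) (m := l.m) (cY.integrable l z) i1 (cY.integrable_exp l l.m z) i2
        fun ξ => by linarith [(ih (z + l.inc ξ)).2]
      rw [gh_ra_T_add (cX.integrable l z) (cX.integrable_exp l l.m z) d] at m2
      exact ⟨m1, by linarith⟩

theorem fdm_nn_cons {μ : ℝ} (hμ : 0 ≤ μ) (A : S → ι → ℝ) {ls : List (GhLv S ι)} (hls : GhNn ls) : GhNn (⟨μ, A⟩ :: ls) := by
  intro l hl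
  rcases List.mem_cons.1 hl with rfl | h
  · exact hμ
  · exact hls l h

/-- both bounds, any prefix -/
theorem fdm_main {B : GhB S} (hB : B.Ok) (l₁ : List (GhLv S ι)) (A : S → ι → ℝ) (l₂ : List (GhLv S ι)) {m m' K : ℝ} (hm : 0 ≤ m)
    (hmm : m ≤ m') (hnn : ∀ l ∈ l₁ ++ l₂, 0 ≤ l.m) (hK : ∀ s, ∑ i, A s i ^ 2 ≤ K) (z : S → ℝ) :
    ghF B (l₁ ++ ⟨m, A⟩ :: l₂) z ≤ ghF B (l₁ ++ ⟨m', A⟩ :: l₂) z ∧
      ghF B (l₁ ++ ⟨m', A⟩ :: l₂) z - ghF B (l₁ ++ ⟨m, A⟩ :: l₂) z ≤ (m' - m) * K / 2 := by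
  have h1 : GhNn l₁ := fun l hl => hnn l (List.mem_append_left _ hl)
  have h2 : GhNn l₂ := fun l hl => hnn l (List.mem_append_right _ hl)
  exact fdm_prefix hB (fdm_nn_cons hm A h2) (fdm_nn_cons (hm.trans hmm) A h2) (fun z => fdm_one hB A h2 hmm hK z) l₁ h1 z

/-- P6: the continuation is nondecreasing in the mass of each level -/
theorem fd_mass_mono_pf (B : GhB S) (hB : B.Ok) (l₁ : List (GhLv S ι)) (A : S → ι → ℝ) (l₂ : List (GhLv S ι)) {m m' : ℝ} (hm : 0 ≤ m)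
    (hmm : m ≤ m') (hnn : ∀ l ∈ l₁ ++ l₂, 0 ≤ l.m) (z : S → ℝ) :
    ghF B (l₁ ++ ⟨m, A⟩ :: l₂) z ≤ ghF B (l₁ ++ ⟨m', A⟩ :: l₂) z :=
  (fdm_main hB l₁ A l₂ (K := ∑ s, ∑ i, A s i ^ 2) hm hmm hnn (fun s =>
    Finset.single_le_sum (f := fun s => ∑ i, A s i ^ 2) (fun _ _ => Finset.sum_nonneg fun _ _ => sq_nonneg _) (Finset.mem_univ s)) z).1

/-- P6, MESH FREE Lipschitz bound in the mass of a level -/
theorem fd_mass_lip_pf (B : GhB S) (hB : B.Ok) (l₁ : List (GhLv S ι)) (A : S → ι → ℝ) (l₂ : List (GhLv S ι)) {m m' K : ℝ} (hm : 0 ≤ m)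
    (hmm : m ≤ m') (hnn : ∀ l ∈ l₁ ++ l₂, 0 ≤ l.m) (hK : ∀ s, ∑ i, A s i ^ 2 ≤ K) (z : S → ℝ) :
    ghF B (l₁ ++ ⟨m', A⟩ :: l₂) z - ghF B (l₁ ++ ⟨m, A⟩ :: l₂) z ≤ (m' - m) * K / 2 :=
  (fdm_main hB l₁ A l₂ hm hmm hnn hK z).2

end p6

end Claimed.Agent.R286
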