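import Claimed.Agent.R286.Defs.Gh

/-!
# Row 286 (S0533), Gaussian kit, file Gk/Reg : THE CLASS OF REGULAR FUNCTIONS AND ITS CLOSURE UNDER `T_m`      (helper91; prefixes `gk_`, `Gk`, `ghr_`)

THE vocabulary of the Gaussian calculus (PE Section 2, Lemmas 2.1 and 2.2; LL Section 2).  No sigma-fields: everything is a function of the revealed field.

General part (any measure space `Ω`, any measure `μ`, any noise `a : Ω → V` with values in a normed space `V`):

* `GkGr u`          : exponential growth `‖u z‖ ≤ A exp (K ‖z‖)`;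
* `GkNoise μ a`     : `a` is a.e. strongly measurable and has ALL exponential moments;
* `gkP μ a u z`     : `∫ u (z + a o) dμ(o)` (vector valued `u` allowed);
* `GkEG k u`        : `C^k`, all derivatives of order `≤ k` of exponential growth;
* `GkReg F`         : **the class**: `F` smooth, every derivative of order `≥ 1` BOUNDED (`F` itself is Lipschitz, not bounded);
* `GkPos U`         : the multiplicative class: `U > 0` smooth, `‖D^j U‖ ≤ C_j U` for every `j`.

Exits: `gk_P_hasFDerivAt`, `gk_P_fderiv`, `gk_P_main` (differentiation under the integral, all orders, with the bound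
`‖D^j (P u) z‖ ≤ ∫ ‖D^j u (z + a)‖`), `GkReg.exp : GkReg F → GkPos (exp ∘ F)`, `GkPos.log : GkPos U → GkReg (log ∘ U)`, `GkPos.P`, `GkReg.P`,
`GkReg.lip`, `GkPos.harnack`, `GkReg.eg`, `GkPos.eg`, `GkReg.const_mul`, `GkReg.add_const`, `gk_reg_clm`, `gk_pos_sum`.

Hierarchy part: `ghr_std_prob` (instance), `ghr_exp_l1`, `ghrInc` (the increment as a continuous linear map), `ghr_noise`, `ghr_noise_clm`,
`GkReg.T` (**closure under `T_m`**, every real mass), `ghr_F0`, `ghr_F` (**every continuation `ghF B ls` is in the class**).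
-/

set_option autoImplicit false

namespace Claimed.Agent.R286

open MeasureTheory ProbabilityTheory Filter Topology
open scoped ContDiff

section General

variable {Ω : Type} [MeasurableSpace Ω] {V : Type} [NormedAddCommGroup V] [NormedSpace ℝ V]

/-- exponential growth -/
def GkGr {E : Type} [NormedAddCommGroup E] (u : V → E) : Prop :=
  ∃ A K : ℝ, 0 ≤ A ∧ 0 ≤ K ∧ ∀ z, ‖u z‖ ≤ A * Real.exp (K * ‖z‖)

/-- a noise with all exponential moments -/
structure GkNoise (μ : Measure Ω) (a : Ω → V) : Prop where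
  meas : AEStronglyMeasurable a μ
  expInt : ∀ K : ℝ, Integrable (fun o => Real.exp (K * ‖a o‖)) μ

/-- averaging over the noise -/
noncomputable def gkP {E : Type} [NormedAddCommGroup E] [NormedSpace ℝ E] (μ : Measure Ω) (a : Ω → V) (u : V → E) (z : V) : E :=
  ∫ o, u (z + a o) ∂μ

/-- `C^k` with exponential growth of all derivatives of order `≤ k` -/
def GkEG {E : Type} [NormedAddCommGroup E] [NormedSpace ℝ E] (k : ℕ) (u : V → E) : Prop :=
  ContDiff ℝ k u ∧ ∀ j ≤ k, GkGr (iteratedFDeriv ℝ j u)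

variable {μ : Measure Ω} {a : Ω → V}

theorem gk_box {E : Type} [NormedAddCommGroup E] {u : V → E} {A K : ℝ} (hA : 0 ≤ A) (hK : 0 ≤ K)
    (hu : ∀ z, ‖u z‖ ≤ A * Real.exp (K * ‖z‖)) {z z0 : V} {r : ℝ} (hz : ‖z - z0‖ ≤ r) (w : V) :
    ‖u (z + w)‖ ≤ A * Real.exp (K * (‖z0‖ + r)) * Real.exp (K * ‖w‖) := by
  refine (hu _).trans ?_
  rw [mul_assoc, ← Real.exp_add]
  refine mul_le_mul_of_nonneg_left (Real.exp_le_exp.2 ?_) hA
  rw [← mul_add]
  refine mul_le_mul_of_nonneg_left ?_ hK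
  have h1 : ‖z + w‖ ≤ ‖z‖ + ‖w‖ := norm_add_le _ _
  have h2 : ‖z‖ ≤ ‖z0‖ + ‖z - z0‖ := by
    have := norm_add_le z0 (z - z0)
    simpa using this
  linarith

theorem gk_aesm {E : Type} [NormedAddCommGroup E] (hn : GkNoise μ a) {u : V → E} (hc : Continuous u) (z : V) :
    AEStronglyMeasurable (fun o => u (z + a o)) μ :=
  hc.comp_aestronglyMeasurable (aestronglyMeasurable_const.add hn.meas)

theorem gk_int {E : Type} [NormedAddCommGroup E] (hn : GkNoise μ a) {u : V → E} (hc : Continuous u) (hg : GkGr u) (z : V) :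
    Integrable (fun o => u (z + a o)) μ := by
  obtain ⟨A, K, hA, hK, hu⟩ := hg
  refine ((hn.expInt K).const_mul (A * Real.exp (K * (‖z‖ + 0)))).mono' (gk_aesm hn hc z) (Eventually.of_forall fun o => ?_)
  exact gk_box hA hK hu (by simp) _

theorem gk_P_continuous {E : Type} [NormedAddCommGroup E] [NormedSpace ℝ E] (hn : GkNoise μ a) {u : V → E} (hc : Continuous u) (hg : GkGr u) :
    Continuous (gkP μ a u) := by
  obtain ⟨A, K, hA, hK, hu⟩ := hg
  rw [continuous_iff_continuousAt]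
  intro z0
  unfold gkP
  refine continuousAt_of_dominated (bound := fun o => A * Real.exp (K * (‖z0‖ + 1)) * Real.exp (K * ‖a o‖))
    (Eventually.of_forall fun z => gk_aesm hn hc z) ?_ ((hn.expInt K).const_mul _) (Eventually.of_forall fun o => ?_)
  · filter_upwards [Metric.closedBall_mem_nhds z0 one_pos] with z hz
    refine Eventually.of_forall fun o => gk_box hA hK hu ?_ _
    simpa [dist_eq_norm] using hz
  · exact (hc.comp (continuous_id.add continuous_const)).continuousAt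

theorem gk_P_hasFDerivAt {E : Type} [NormedAddCommGroup E] [NormedSpace ℝ E] (hn : GkNoise μ a) {u : V → E}
    (hd : Differentiable ℝ u) (hc' : Continuous (fderiv ℝ u)) (hg : GkGr u) (hg' : GkGr (fderiv ℝ u)) (z0 : V) :
    HasFDerivAt (gkP μ a u) (gkP μ a (fderiv ℝ u) z0) z0 := by
  obtain ⟨A, K, hA, hK, hu⟩ := hg'
  unfold gkP
  refine hasFDerivAt_integral_of_dominated_of_fderiv_le (s := Metric.closedBall z0 1)
    (bound := fun o => A * Real.exp (K * (‖z0‖ + 1)) * Real.exp (K * ‖a o‖))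
    (F' := fun z o => fderiv ℝ u (z + a o)) (Metric.closedBall_mem_nhds z0 one_pos)
    (Eventually.of_forall fun z => gk_aesm hn hd.continuous z) (gk_int hn hd.continuous hg z0) (gk_aesm hn hc' z0) ?_
    ((hn.expInt K).const_mul _) ?_
  · refine Eventually.of_forall fun o z hz => gk_box hA hK hu ?_ _
    simpa [dist_eq_norm] using hz
  · refine Eventually.of_forall fun o z _ => ?_
    have h1 : HasFDerivAt (fun y : V => y + a o) (ContinuousLinearMap.id ℝ V) z := (hasFDerivAt_id z).add_const _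
    have h2 := (hd (z + a o)).hasFDerivAt.comp z h1
    rw [ContinuousLinearMap.comp_id] at h2
    exact h2

theorem GkEG.fderiv {E : Type} [NormedAddCommGroup E] [NormedSpace ℝ E] {k : ℕ} {u : V → E} (h : GkEG (k + 1) u) :
    GkEG k (fderiv ℝ u) := by
  refine ⟨?_, fun j hj => ?_⟩
  · have := h.1
    rw [show ((k + 1 : ℕ) : ℕ∞ω) = (k : ℕ∞ω) + 1 by norm_cast, contDiff_succ_iff_fderiv] at this
    exact this.2.2
  · obtain ⟨A, K, hA, hK, hu⟩ := h.2 (j + 1) (by omega)
    exact ⟨A, K, hA, hK, fun z => by rw [norm_iteratedFDeriv_fderiv]; exact hu z⟩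

theorem GkEG.gr {E : Type} [NormedAddCommGroup E] [NormedSpace ℝ E] {k : ℕ} {u : V → E} (h : GkEG k u) : GkGr u := by
  obtain ⟨A, K, hA, hK, hu⟩ := h.2 0 (by omega)
  exact ⟨A, K, hA, hK, fun z => by simpa using hu z⟩

theorem GkEG.gr_fderiv {E : Type} [NormedAddCommGroup E] [NormedSpace ℝ E] {k : ℕ} {u : V → E} (h : GkEG (k + 1) u) : GkGr (_root_.fderiv ℝ u) :=
  h.fderiv.gr

theorem GkEG.differentiable {E : Type} [NormedAddCommGroup E] [NormedSpace ℝ E] {k : ℕ} {u : V → E} (h : GkEG (k + 1) u) : Differentiable ℝ u :=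
  h.1.differentiable (by simp)

theorem gk_P_fderiv {E : Type} [NormedAddCommGroup E] [NormedSpace ℝ E] (hn : GkNoise μ a) {k : ℕ} {u : V → E} (h : GkEG (k + 1) u) :
    _root_.fderiv ℝ (gkP μ a u) = gkP μ a (_root_.fderiv ℝ u) := by
  funext z
  exact (gk_P_hasFDerivAt hn h.differentiable h.fderiv.1.continuous h.gr h.gr_fderiv z).fderiv

/-- **differentiation under the noise integral, all orders** -/
theorem gk_P_main (hn : GkNoise μ a) (k : ℕ) : ∀ {E : Type} [NormedAddCommGroup E] [NormedSpace ℝ E] {u : V → E}, GkEG k u →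
    ContDiff ℝ k (gkP μ a u) ∧ ∀ j ≤ k, ∀ z, ‖iteratedFDeriv ℝ j (gkP μ a u) z‖ ≤ ∫ o, ‖iteratedFDeriv ℝ j u (z + a o)‖ ∂μ := by
  induction k with
  | zero =>
    intro E _ _ u h
    refine ⟨?_, fun j hj z => ?_⟩
    · exact_mod_cast (contDiff_zero (𝕜 := ℝ)).2 (gk_P_continuous hn h.1.continuous h.gr)
    · obtain rfl : j = 0 := by omega
      simp only [norm_iteratedFDeriv_zero]
      exact norm_integral_le_integral_norm _
  | succ k ih =>
    intro E _ _ u h
    have hf := gk_P_fderiv hn h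
    have ih' := ih h.fderiv
    refine ⟨?_, fun j hj z => ?_⟩
    · rw [show ((k + 1 : ℕ) : ℕ∞ω) = (k : ℕ∞ω) + 1 by norm_cast, contDiff_succ_iff_fderiv]
      refine ⟨fun z => (gk_P_hasFDerivAt hn h.differentiable h.fderiv.1.continuous h.gr h.gr_fderiv z).differentiableAt, by simp, ?_⟩
      rw [hf]
      exact ih'.1
    · rcases j with _ | j
      · simp only [norm_iteratedFDeriv_zero]
        exact norm_integral_le_integral_norm _
      · rw [← norm_iteratedFDeriv_fderiv, hf]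
        refine (ih'.2 j (by omega) z).trans (le_of_eq ?_)
        simp only [norm_iteratedFDeriv_fderiv]

/-! ### the two classes -/

/-- smooth, all derivatives of order `≥ 1` bounded -/
structure GkReg (F : V → ℝ) : Prop where
  smooth : ContDiff ℝ ∞ F
  bdd : ∀ j : ℕ, 1 ≤ j → ∃ C : ℝ, ∀ z, ‖iteratedFDeriv ℝ j F z‖ ≤ C

/-- smooth, positive, all derivatives bounded by a multiple of the function -/
structure GkPos (U : V → ℝ) : Prop where
  smooth : ContDiff ℝ ∞ U
  pos : ∀ z, 0 < U z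
  bdd : ∀ j : ℕ, ∃ C : ℝ, ∀ z, ‖iteratedFDeriv ℝ j U z‖ ≤ C * U z

theorem gk_cd {E : Type} [NormedAddCommGroup E] [NormedSpace ℝ E] {F : V → E} (h : ContDiff ℝ ∞ F) (n : ℕ) : ContDiff ℝ n F :=
  h.of_le (by exact_mod_cast le_top)

/-- a common `D` for the orders `1 .. n` -/
theorem gk_common {P : ℕ → V → ℝ} (h : ∀ j : ℕ, 1 ≤ j → ∃ C : ℝ, ∀ z, P j z ≤ C) (n : ℕ) :
    ∃ D : ℝ, 1 ≤ D ∧ ∀ i, 1 ≤ i → i ≤ n → ∀ z, P i z ≤ D ^ i := by
  choose! C hC using h
  refine ⟨1 + ∑ i ∈ Finset.range (n + 1), |C i|, by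
    have : 0 ≤ ∑ i ∈ Finset.range (n + 1), |C i| := Finset.sum_nonneg fun _ _ => abs_nonneg _
    linarith, fun i hi hin z => ?_⟩
  have h0 : 0 ≤ ∑ i ∈ Finset.range (n + 1), |C i| := Finset.sum_nonneg fun _ _ => abs_nonneg _
  have h1 : |C i| ≤ ∑ i ∈ Finset.range (n + 1), |C i| :=
    Finset.single_le_sum (f := fun i => |C i|) (fun _ _ => abs_nonneg _) (Finset.mem_range.2 (by omega))
  have h2 : 1 + ∑ i ∈ Finset.range (n + 1), |C i| ≤ (1 + ∑ i ∈ Finset.range (n + 1), |C i|) ^ i :=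
    le_self_pow₀ (by linarith) (by omega)
  calc P i z ≤ C i := hC i hi z
    _ ≤ |C i| := le_abs_self _
    _ ≤ _ := by linarith

theorem gk_norm_iter_exp (i : ℕ) (y : ℝ) : ‖iteratedFDeriv ℝ i Real.exp y‖ = Real.exp y := by
  rw [norm_iteratedFDeriv_eq_norm_iteratedDeriv, iteratedDeriv_eq_iterate, Real.iter_deriv_exp, Real.norm_eq_abs,
    abs_of_pos (Real.exp_pos _)]

theorem GkReg.exp {F : V → ℝ} (h : GkReg F) : GkPos (fun z => Real.exp (F z)) := by
  refine ⟨Real.contDiff_exp.comp h.smooth, fun z => Real.exp_pos _, fun n => ?_⟩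
  obtain ⟨D, -, hD⟩ := gk_common (P := fun j z => ‖iteratedFDeriv ℝ j F z‖) h.bdd n
  refine ⟨n.factorial * D ^ n, fun z => ?_⟩
  have := norm_iteratedFDeriv_comp_le (g := Real.exp) (f := F) (n := n) (N := ∞) Real.contDiff_exp h.smooth
    (by exact_mod_cast le_top) z (C := Real.exp (F z)) (D := D) (fun i _ => (gk_norm_iter_exp i _).le) (fun i h1 h2 => hD i h1 h2 z)
  calc _ ≤ n.factorial * Real.exp (F z) * D ^ n := this
    _ = _ := by ring

theorem GkReg.const_mul {F : V → ℝ} (h : GkReg F) (c : ℝ) : GkReg (fun z => c * F z) := by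
  refine ⟨contDiff_const.mul h.smooth, fun j hj => ?_⟩
  obtain ⟨C, hC⟩ := h.bdd j hj
  refine ⟨|c| * C, fun z => ?_⟩
  have := iteratedFDeriv_const_smul_apply' (𝕜 := ℝ) (a := c) (f := F) (i := j) (x := z) (gk_cd h.smooth j).contDiffAt
  simp only [smul_eq_mul] at this
  rw [this, norm_smul, Real.norm_eq_abs]
  exact mul_le_mul_of_nonneg_left (hC z) (abs_nonneg _)

theorem GkReg.add_const {F : V → ℝ} (h : GkReg F) (c : ℝ) : GkReg (fun z => F z + c) := by
  refine ⟨h.smooth.add contDiff_const, fun j hj => ?_⟩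
  obtain ⟨C, hC⟩ := h.bdd j hj
  refine ⟨C, fun z => ?_⟩
  have := fun_iteratedFDeriv_add_apply (𝕜 := ℝ) (f := F) (g := fun _ => c) (i := j) (x := z) (gk_cd h.smooth j).contDiffAt contDiffAt_const
  rw [this, iteratedFDeriv_const_of_ne (by omega)]
  simpa using hC z

theorem GkPos.log {U : V → ℝ} (h : GkPos U) : GkReg (fun z => Real.log (U z)) := by
  have hsm : ContDiff ℝ ∞ (fun z => Real.log (U z)) := h.smooth.log fun z => (h.pos z).ne'
  refine ⟨hsm, fun n hn => ?_⟩
  obtain ⟨D, -, hD⟩ := gk_common (P := fun j z => ‖iteratedFDeriv ℝ j U z‖ / U z) (fun j _ => by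
    obtain ⟨C, hC⟩ := h.bdd j
    exact ⟨C, fun z => by rw [div_le_iff₀ (h.pos z)]; exact hC z⟩) n
  set C0 : ℝ := ∑ i ∈ Finset.range (n + 1), ‖iteratedFDerivWithin ℝ i Real.log (Set.Ioi 0) 1‖ with hC0
  refine ⟨n.factorial * C0 * D ^ n, fun x => ?_⟩
  -- the normalised function
  set W : V → ℝ := fun z => (U x)⁻¹ * U z with hW
  have hWs : ContDiff ℝ ∞ W := contDiff_const.mul h.smooth
  have hWx : W x = 1 := inv_mul_cancel₀ (h.pos x).ne'
  have hWpos : ∀ z, 0 < W z := fun z => mul_pos (inv_pos.2 (h.pos x)) (h.pos z)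
  have e1 : (fun z => Real.log (U z)) = fun z => (Real.log ∘ W) z + Real.log (U x) := by
    funext z
    simp only [Function.comp, hW]
    rw [Real.log_mul (inv_pos.2 (h.pos x)).ne' (h.pos z).ne', Real.log_inv]
    ring
  have hlW : ContDiff ℝ ∞ (Real.log ∘ W) := hWs.log fun z => (hWpos z).ne'
  have e2 : iteratedFDeriv ℝ n (fun z => Real.log (U z)) x = iteratedFDeriv ℝ n (Real.log ∘ W) x := by
    rw [e1, fun_iteratedFDeriv_add_apply (gk_cd hlW n).contDiffAt contDiffAt_const, iteratedFDeriv_const_of_ne (by omega)]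
    simp
  rw [e2]
  refine norm_iteratedFDeriv_comp_le' (g := Real.log) (f := W) (n := n) (N := ∞) (t := Set.Ioi 0)
    (by rintro _ ⟨z, rfl⟩; exact hWpos z) (uniqueDiffOn_Ioi 0)
    (Real.contDiffOn_log.mono fun y hy => (ne_of_gt hy : y ≠ 0)) hWs (by exact_mod_cast le_top) x (fun i hi => ?_) (fun i h1 h2 => ?_)
  · rw [hWx, hC0]
    exact Finset.single_le_sum (f := fun i => ‖iteratedFDerivWithin ℝ i Real.log (Set.Ioi 0) 1‖) (fun _ _ => norm_nonneg _)
      (Finset.mem_range.2 (by omega))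
  · have := iteratedFDeriv_const_smul_apply' (𝕜 := ℝ) (a := (U x)⁻¹) (f := U) (i := i) (x := x) (gk_cd h.smooth i).contDiffAt
    simp only [smul_eq_mul] at this
    rw [hW, this, norm_smul, Real.norm_eq_abs, abs_of_pos (inv_pos.2 (h.pos x)), inv_mul_eq_div]
    exact hD i h1 h2 x

/-- a function of the class `GkReg` is Lipschitz -/
theorem GkReg.lip {F : V → ℝ} (h : GkReg F) : ∃ L : ℝ, 0 ≤ L ∧ ∀ z w, |F (z + w) - F z| ≤ L * ‖w‖ := by
  obtain ⟨C, hC⟩ := h.bdd 1 le_rfl
  have hC0 : 0 ≤ C := (norm_nonneg _).trans (hC 0)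
  refine ⟨C, hC0, fun z w => ?_⟩
  have hl : LipschitzWith (Real.toNNReal C) F := by
    refine lipschitzWith_of_nnnorm_fderiv_le (h.smooth.differentiable (by simp)) fun x => ?_
    rw [← NNReal.coe_le_coe, coe_nnnorm, Real.coe_toNNReal _ hC0]
    have := hC x
    rwa [← norm_iteratedFDeriv_fderiv, norm_iteratedFDeriv_zero] at this
  have := hl.dist_le_mul (z + w) z
  rw [Real.dist_eq, dist_eq_norm, Real.coe_toNNReal _ hC0] at this
  simpa using this

theorem GkReg.gr {F : V → ℝ} (h : GkReg F) : GkGr F := by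
  obtain ⟨L, hL, hl⟩ := h.lip
  refine ⟨|F 0| + L, 1, by positivity, zero_le_one, fun z => ?_⟩
  have h1 := hl 0 z
  rw [zero_add] at h1
  have h2 : |F z| ≤ |F 0| + L * ‖z‖ := by
    have := abs_sub_abs_le_abs_sub (F z) (F 0)
    linarith
  have h3 : 1 + ‖z‖ ≤ Real.exp (1 * ‖z‖) := by rw [one_mul]; linarith [Real.add_one_le_exp ‖z‖]
  rw [Real.norm_eq_abs]
  calc |F z| ≤ |F 0| + L * ‖z‖ := h2
    _ ≤ (|F 0| + L) * (1 + ‖z‖) := by nlinarith [abs_nonneg (F 0), norm_nonneg z]
    _ ≤ _ := mul_le_mul_of_nonneg_left h3 (by positivity)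

theorem GkReg.eg {F : V → ℝ} (h : GkReg F) (k : ℕ) : GkEG k F := by
  refine ⟨gk_cd h.smooth k, fun j _ => ?_⟩
  rcases Nat.eq_zero_or_pos j with rfl | hj
  · obtain ⟨A, K, hA, hK, hu⟩ := h.gr
    exact ⟨A, K, hA, hK, fun z => by simpa using hu z⟩
  · obtain ⟨C, hC⟩ := h.bdd j hj
    exact ⟨C, 0, (norm_nonneg _).trans (hC 0), le_rfl, fun z => by simpa using hC z⟩

/-- Harnack inequality of the class `GkPos` -/
theorem GkPos.harnack {U : V → ℝ} (h : GkPos U) : ∃ L : ℝ, 0 ≤ L ∧ ∀ z w, U (z + w) ≤ U z * Real.exp (L * ‖w‖) ∧ U z * Real.exp (-(L * ‖w‖)) ≤ U (z + w) := by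
  obtain ⟨L, hL, hl⟩ := h.log.lip
  refine ⟨L, hL, fun z w => ?_⟩
  have h1 := abs_le.1 (hl z w)
  constructor
  · rw [← Real.exp_log (h.pos (z + w)), ← Real.exp_log (h.pos z), ← Real.exp_add]
    exact Real.exp_le_exp.2 (by linarith [h1.2])
  · rw [← Real.exp_log (h.pos (z + w)), ← Real.exp_log (h.pos z), ← Real.exp_add]
    exact Real.exp_le_exp.2 (by linarith [h1.1])

theorem GkPos.eg {U : V → ℝ} (h : GkPos U) (k : ℕ) : GkEG k U := by
  obtain ⟨L, hL, hl⟩ := h.harnack
  refine ⟨gk_cd h.smooth k, fun j _ => ?_⟩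
  obtain ⟨C, hC⟩ := h.bdd j
  have hC0 : 0 ≤ C := by
    have := (norm_nonneg _).trans (hC 0)
    exact nonneg_of_mul_nonneg_left this (h.pos 0)
  refine ⟨C * U 0, L, mul_nonneg hC0 (h.pos 0).le, hL, fun z => (hC z).trans ?_⟩
  rw [mul_assoc]
  have := (hl 0 z).1
  rw [zero_add] at this
  exact mul_le_mul_of_nonneg_left this hC0

theorem GkPos.P [NeZero μ] (hn : GkNoise μ a) {U : V → ℝ} (h : GkPos U) : GkPos (gkP μ a U) := by
  refine ⟨contDiff_infty.2 fun n => (gk_P_main hn n (h.eg n)).1, fun z => ?_, fun j => ?_⟩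
  · have hi := gk_int hn h.smooth.continuous (h.eg 0).gr z
    have e : (fun o => U (z + a o)) = fun o => Real.exp (Real.log (U (z + a o))) := by
      funext o; rw [Real.exp_log (h.pos _)]
    unfold gkP
    rw [e] at hi ⊢
    exact integral_exp_pos hi
  · obtain ⟨C, hC⟩ := h.bdd j
    refine ⟨C, fun z => ((gk_P_main hn j (h.eg j)).2 j le_rfl z).trans ?_⟩
    unfold gkP
    rw [← integral_const_mul]
    have hc : Continuous (iteratedFDeriv ℝ j U) := (gk_cd h.smooth j).continuous_iteratedFDeriv le_rfl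
    refine integral_mono (gk_int hn hc ((h.eg j).2 j le_rfl) z).norm ((gk_int hn h.smooth.continuous (h.eg 0).gr z).const_mul C) fun o => hC _

theorem GkReg.P [IsProbabilityMeasure μ] (hn : GkNoise μ a) {F : V → ℝ} (h : GkReg F) : GkReg (gkP μ a F) := by
  refine ⟨contDiff_infty.2 fun n => (gk_P_main hn n (h.eg n)).1, fun j hj => ?_⟩
  obtain ⟨C, hC⟩ := h.bdd j hj
  refine ⟨C, fun z => ((gk_P_main hn j (h.eg j)).2 j le_rfl z).trans ?_⟩
  have hc : Continuous (iteratedFDeriv ℝ j F) := (gk_cd h.smooth j).continuous_iteratedFDeriv le_rfl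
  calc ∫ o, ‖iteratedFDeriv ℝ j F (z + a o)‖ ∂μ ≤ ∫ _o, C ∂μ :=
        integral_mono (gk_int hn hc ((h.eg j).2 j le_rfl) z).norm (integrable_const C) fun o => hC _
    _ = C := by simp

/-- a continuous linear form -/
theorem gk_reg_clm (L : V →L[ℝ] ℝ) : GkReg (fun z => L z) := by
  refine ⟨L.contDiff, fun j hj => ⟨‖L‖, fun z => ?_⟩⟩
  obtain ⟨i, rfl⟩ : ∃ i, j = i + 1 := ⟨j - 1, by omega⟩
  rw [← norm_iteratedFDeriv_fderiv]
  have e : fderiv ℝ (fun z => L z) = fun _ => L := by funext y; exact L.fderiv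
  rw [e]
  rcases Nat.eq_zero_or_pos i with rfl | hi
  · simp
  · rw [iteratedFDeriv_const_of_ne (by omega)]
    simp

/-- finite sums with nonnegative weights, not all zero -/
theorem gk_pos_sum {T : Type} [Fintype T] (w : T → ℝ) (U : T → V → ℝ) (hw : ∀ s, 0 ≤ w s) (hw1 : ∃ s, 0 < w s) (h : ∀ s, GkPos (U s)) :
    GkPos (fun z => ∑ s, w s * U s z) := by
  have hsm : ∀ s, ContDiff ℝ ∞ (fun z => w s * U s z) := fun s => contDiff_const.mul (h s).smooth
  refine ⟨ContDiff.sum fun s _ => hsm s, fun z => ?_, fun j => ?_⟩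
  · obtain ⟨s0, hs0⟩ := hw1
    exact Finset.sum_pos' (fun s _ => mul_nonneg (hw s) ((h s).pos z).le) ⟨s0, Finset.mem_univ _, mul_pos hs0 ((h s0).pos z)⟩
  · choose C hC using fun s => (h s).bdd j
    refine ⟨∑ s, |C s|, fun z => ?_⟩
    rw [iteratedFDeriv_fun_sum_apply fun s _ => (gk_cd (hsm s) j).contDiffAt, Finset.mul_sum]
    refine (norm_sum_le _ _).trans (Finset.sum_le_sum fun s _ => ?_)
    have := iteratedFDeriv_const_smul_apply' (𝕜 := ℝ) (a := w s) (f := U s) (i := j) (x := z) (gk_cd (h s).smooth j).contDiffAt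
    simp only [smul_eq_mul] at this
    rw [this, norm_smul, Real.norm_eq_abs, abs_of_nonneg (hw s)]
    have h1 : |C s| ≤ ∑ s, |C s| := Finset.single_le_sum (f := fun s => |C s|) (fun _ _ => abs_nonneg _) (Finset.mem_univ s)
    have h2 := hC s z
    have h3 := (h s).pos z
    calc w s * ‖iteratedFDeriv ℝ j (U s) z‖ ≤ w s * (C s * U s z) := mul_le_mul_of_nonneg_left h2 (hw s)
      _ ≤ w s * ((∑ s, |C s|) * U s z) := by
          refine mul_le_mul_of_nonneg_left (mul_le_mul_of_nonneg_right ((le_abs_self _).trans h1) h3.le) (hw s)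
      _ = _ := by ring

end General

section Gh

variable {S ι : Type} [Fintype S] [Fintype ι]

instance ghr_std_prob : IsProbabilityMeasure (ghStd ι) := by
  unfold ghStd; infer_instance

theorem ghr_gauss_exp_abs (s : ℝ) : Integrable (fun x : ℝ => Real.exp (s * |x|)) (gaussianReal 0 1) := by
  refine ((integrable_exp_mul_gaussianReal (μ := 0) (v := 1) s).add
    (integrable_exp_mul_gaussianReal (μ := 0) (v := 1) (-s))).mono' (by fun_prop)
    (Eventually.of_forall fun x => ?_)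
  rw [Real.norm_eq_abs, abs_of_pos (Real.exp_pos _)]
  simp only [Pi.add_apply]
  rcases abs_cases x with ⟨h, _⟩ | ⟨h, _⟩
  · rw [h]; linarith [Real.exp_pos (-s * x)]
  · rw [h, mul_neg, ← neg_mul]; linarith [Real.exp_pos (s * x)]

/-- exponential moments of the `ℓ¹` norm of the standard driver -/
theorem ghr_exp_l1 (s : ℝ) : Integrable (fun ξ : ι → ℝ => Real.exp (s * ∑ i, |ξ i|)) (ghStd ι) := by
  have h := Integrable.fintype_prod (ι := ι) (f := fun _ (x : ℝ) => Real.exp (s * |x|))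
    (μ := fun _ => gaussianReal 0 1) (fun _ => ghr_gauss_exp_abs s)
  refine h.congr (Eventually.of_forall fun g => ?_)
  simp only
  rw [← Real.exp_sum, Finset.mul_sum]

/-- the increment as a continuous linear map -/
noncomputable def ghrInc (l : GhLv S ι) : (ι → ℝ) →L[ℝ] (S → ℝ) :=
  LinearMap.toContinuousLinearMap
    { toFun := l.inc
      map_add' := fun x y => by
        funext s; simp only [GhLv.inc, Pi.add_apply, mul_add, Finset.sum_add_distrib]
      map_smul' := fun c x => by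
        funext s; simp only [GhLv.inc, Pi.smul_apply, smul_eq_mul, RingHom.id_apply, Finset.mul_sum]
        exact Finset.sum_congr rfl fun i _ => by ring }

theorem ghrInc_apply (l : GhLv S ι) (ξ : ι → ℝ) : ghrInc l ξ = l.inc ξ := rfl

theorem ghr_norm_le_l1 (ξ : ι → ℝ) : ‖ξ‖ ≤ ∑ i, |ξ i| := by
  refine (pi_norm_le_iff_of_nonneg (Finset.sum_nonneg fun _ _ => abs_nonneg _)).2 fun i => ?_
  rw [Real.norm_eq_abs]
  exact Finset.single_le_sum (f := fun i => |ξ i|) (fun _ _ => abs_nonneg _) (Finset.mem_univ i)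

/-- any continuous linear image of the standard driver is a noise -/
theorem ghr_noise_clm {V : Type} [NormedAddCommGroup V] [NormedSpace ℝ V] (L : (ι → ℝ) →L[ℝ] V) :
    GkNoise (ghStd ι) (fun ξ => L ξ) := by
  refine ⟨L.continuous.aestronglyMeasurable, fun K => ?_⟩
  refine (ghr_exp_l1 (ι := ι) (|K| * ‖L‖)).mono' (by
    have := L.continuous
    exact (by fun_prop : Continuous fun ξ => Real.exp (K * ‖L ξ‖)).aestronglyMeasurable) (Eventually.of_forall fun ξ => ?_)
  rw [Real.norm_eq_abs, abs_of_pos (Real.exp_pos _)]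
  refine Real.exp_le_exp.2 ?_
  calc K * ‖L ξ‖ ≤ |K| * ‖L ξ‖ := mul_le_mul_of_nonneg_right (le_abs_self K) (norm_nonneg _)
    _ ≤ |K| * (‖L‖ * ‖ξ‖) := mul_le_mul_of_nonneg_left (L.le_opNorm ξ) (abs_nonneg _)
    _ ≤ |K| * (‖L‖ * ∑ i, |ξ i|) :=
        mul_le_mul_of_nonneg_left (mul_le_mul_of_nonneg_left (ghr_norm_le_l1 ξ) (norm_nonneg _)) (abs_nonneg _)
    _ = _ := by ring

theorem ghr_noise (l : GhLv S ι) : GkNoise (ghStd ι) l.inc := ghr_noise_clm (ghrInc l)

/-- `T_m` along a noise, as a function of the base point -/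
theorem ghr_T_eq {Ω : Type} [MeasurableSpace Ω] {V : Type} [NormedAddCommGroup V] [NormedSpace ℝ V] (μ : Measure Ω) (a : Ω → V) (m : ℝ) (F : V → ℝ) :
    (fun z => ghT μ m fun o => F (z + a o)) =
      if m = 0 then gkP μ a F else fun z => m⁻¹ * Real.log (gkP μ a (fun y => Real.exp (m * F y)) z) := by
  by_cases hm : m = 0
  · rw [if_pos hm]; funext z; simp [hm, ghT, gkP]
  · rw [if_neg hm]; funext z; simp [hm, ghT, gkP]

/-- **closure of the class under `T_m`** (any mass, any sign) -/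
theorem GkReg.T {Ω : Type} [MeasurableSpace Ω] {V : Type} [NormedAddCommGroup V] [NormedSpace ℝ V] {μ : Measure Ω} [IsProbabilityMeasure μ] {a : Ω → V}
    (hn : GkNoise μ a) (m : ℝ) {F : V → ℝ} (h : GkReg F) : GkReg (fun z => ghT μ m fun o => F (z + a o)) := by
  rw [ghr_T_eq]
  by_cases hm : m = 0
  · rw [if_pos hm]; exact h.P hn
  · rw [if_neg hm]
    exact (((h.const_mul m).exp.P hn).log).const_mul _

theorem ghr_F0 {B : GhB S} (hB : B.Ok) : GkReg (ghF0 B) := by
  have h1 : ∀ s : S, GkPos (fun z : S → ℝ => Real.exp (B.a * z s)) := fun s =>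
    ((gk_reg_clm (ContinuousLinearMap.proj (R := ℝ) (φ := fun _ : S => ℝ) s)).const_mul B.a).exp
  have h2 : ∃ s, 0 < B.w s := by
    by_contra hc
    push Not at hc
    have : ∑ s, B.w s ≤ 0 := Finset.sum_nonpos fun s _ => hc s
    rw [hB.sum] at this
    linarith
  exact ((gk_pos_sum B.w _ hB.nonneg h2 h1).log).const_mul _

/-- **every continuation is in the class** -/
theorem ghr_F {B : GhB S} (hB : B.Ok) (ls : List (GhLv S ι)) : GkReg (ghF B ls) := by
  induction ls with
  | nil => exact ghr_F0 hB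
  | cons l ls ih => exact ih.T (ghr_noise l) l.m

end Gh

theorem ghr_eqns_cite : True := by
  have := @GkGr.eq_1
  have := @gkP.eq_1
  have := @GkEG.eq_1
  have := @ghrInc.eq_1
  trivial

end Claimed.Agent.R286
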