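import Claimed.Agent.R286.Gk.Heat

/-!
# Row 286, GaussCalc, file Gk/Taylor : FINITE TAYLOR EXPANSION ALONG A CHAIN OF DERIVATIVES (GC4')      (helper127; prefix `ght_`)

Class free, real variable.   A *chain* is a sequence `w 0, w 1, ...` of functions on `[0,t]`, continuous on the CLOSED interval,
with `HasDerivAt (w j) (w (j+1) θ) θ` on the OPEN interval only (this is what Gaussian interpolation gives: `√θ` is singular at the end points).

* `ght_taylor`       : `w 0 t = ∑_{j ≤ k} w j 0 t^j/j! + ∫_0^t (t-θ)^k/k! w (k+1) θ dθ`;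
* `ght_taylor_bound` : `|w 0 t - ∑_{j ≤ k} w j 0 t^j/j!| ≤ M t^(k+1)/(k+1)!` if `|w (k+1)| ≤ M` on `(0,t)`;
* `ght_taylor_one`, `ght_taylor_bound_one` : the case `t = 1`;
* `ght_first`, `ght_first_bound` : order zero (`w 0 t - w 0 0 = ∫ w 1`, Lipschitz bound).

## Part 2 : AFFINE VARIANCE PATHS, INTERPOLATION AND ITS TAYLOR EXPANSION (GC4, GC4')

On the names of `Gk/Reg` (91) and `Gk/Heat` (119).   Drivers `ξ : ι → ℝ` under `ghStd ι`, feature vectors `Φ i : V`, coordinate variances `c i ≥ 0`: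
the Gaussian field is `∑ i, √(c i) ξ i • Φ i` (for `V = S → ℝ` this is `(ghLvF Φ m c).inc ξ`, see `ght_inc_lvF`).

* `ghtAv Φ c u z`   : `E u (z + ∑ i, √(c i) ξ i • Φ i)`;
* `ghtOp Φ d u`     : the generator `½ ∑ i, d i D_{Φ i} D_{Φ i} u` of the variance change `d`;
* `ghtC c0 d t`     : the affine path `c0 + t d`   (heat flow: `c0 = 0`; Guerra interpolation: `d = +1` on one block with `c0 = 0`, `d = -1` on the other block with `c0 = 1`; clock changes: any `d`).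

Exits: `ght_av_hasDerivAt` (GC4: derivative inside `(0,1)`), `ght_av_continuousOn` (closed interval), `ght_av_taylor`, `ght_av_taylor_bound` (GC4'),
`ght_av_first`, `ght_av_first_bound`, `GkEG.ghtOp`, `GkEG.ghtOp_iter`.
-/

set_option autoImplicit false

namespace Claimed.Agent.R286

open MeasureTheory Set Finset intervalIntegral
open scoped Nat

/-- the step of the induction: one integration by parts, done by the fundamental theorem for
`θ ↦ -(t-θ)^(k+1)/(k+1)! * f θ`. -/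
theorem ght_step {f g : ℝ → ℝ} {t : ℝ} (ht : 0 ≤ t) (k : ℕ)
    (hf : ContinuousOn f (Icc 0 t)) (hg : ContinuousOn g (Icc 0 t))
    (hd : ∀ θ ∈ Ioo 0 t, HasDerivAt f (g θ) θ) :
    ∫ θ in (0 : ℝ)..t, (t - θ) ^ k / k ! * f θ =
      f 0 * t ^ (k + 1) / (k + 1)! + ∫ θ in (0 : ℝ)..t, (t - θ) ^ (k + 1) / (k + 1)! * g θ := by
  have hk : ((k + 1)! : ℝ) = (k + 1) * k ! := by
    rw [Nat.factorial_succ]; push_cast; ring
  have hk0 : (k ! : ℝ) ≠ 0 := by positivity
  have hk1 : ((k : ℝ) + 1) ≠ 0 := by positivity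
  set H : ℝ → ℝ := fun θ => -((t - θ) ^ (k + 1) / (k + 1)!) * f θ with hH
  have hc1 : ContinuousOn (fun θ : ℝ => (t - θ) ^ k / k ! * f θ) (Icc 0 t) :=
    (by fun_prop : Continuous fun θ : ℝ => (t - θ) ^ k / k !).continuousOn.mul hf
  have hc2 : ContinuousOn (fun θ : ℝ => (t - θ) ^ (k + 1) / (k + 1)! * g θ) (Icc 0 t) :=
    (by fun_prop : Continuous fun θ : ℝ => (t - θ) ^ (k + 1) / (k + 1)!).continuousOn.mul hg
  have hi1 : IntervalIntegrable (fun θ : ℝ => (t - θ) ^ k / k ! * f θ) volume 0 t :=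
    (by rwa [uIcc_of_le ht] : ContinuousOn _ (uIcc 0 t)).intervalIntegrable
  have hi2 : IntervalIntegrable (fun θ : ℝ => (t - θ) ^ (k + 1) / (k + 1)! * g θ) volume 0 t :=
    (by rwa [uIcc_of_le ht] : ContinuousOn _ (uIcc 0 t)).intervalIntegrable
  have hHc : ContinuousOn H (Icc 0 t) :=
    (by fun_prop : Continuous fun θ : ℝ => -((t - θ) ^ (k + 1) / (k + 1)!)).continuousOn.mul hf
  have hHd : ∀ θ ∈ Ioo 0 t, HasDerivAt H
      ((t - θ) ^ k / k ! * f θ - (t - θ) ^ (k + 1) / (k + 1)! * g θ) θ := by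
    intro θ hθ
    have h1 : HasDerivAt (fun θ : ℝ => -((t - θ) ^ (k + 1) / (k + 1)!)) ((t - θ) ^ k / k !) θ := by
      have h0 : HasDerivAt (fun θ : ℝ => t - θ) (-1) θ := by
        simpa using (hasDerivAt_id θ).const_sub t
      have := ((h0.pow (k + 1)).div_const ((k + 1)! : ℝ)).neg
      refine HasDerivAt.congr_deriv this ?_
      rw [hk]
      push_cast
      field_simp
    have := h1.mul (hd θ hθ)
    refine HasDerivAt.congr_deriv this ?_
    ring
  have hftc := integral_eq_sub_of_hasDerivAt_of_le ht hHc hHd (hi1.sub hi2)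
  rw [integral_sub hi1 hi2] at hftc
  have e1 : H t = 0 := by simp [hH]
  have e0 : H 0 = -(f 0 * t ^ (k + 1) / (k + 1)!) := by simp [hH]; ring
  rw [e1, e0] at hftc
  linarith

/-- **Taylor's formula with integral remainder along a chain.** -/
theorem ght_taylor (w : ℕ → ℝ → ℝ) {t : ℝ} (ht : 0 ≤ t) (k : ℕ)
    (hc : ∀ j ≤ k + 1, ContinuousOn (w j) (Icc 0 t))
    (hd : ∀ j ≤ k, ∀ θ ∈ Ioo 0 t, HasDerivAt (w j) (w (j + 1) θ) θ) :
    w 0 t = ∑ j ∈ range (k + 1), w j 0 * t ^ j / j ! +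
      ∫ θ in (0 : ℝ)..t, (t - θ) ^ k / k ! * w (k + 1) θ := by
  induction k with
  | zero =>
    have hi : IntervalIntegrable (w 1) volume 0 t :=
      (by rw [uIcc_of_le ht]; exact hc 1 le_rfl : ContinuousOn _ (uIcc 0 t)).intervalIntegrable
    have := integral_eq_sub_of_hasDerivAt_of_le ht (hc 0 (by omega)) (hd 0 le_rfl) hi
    simp only [zero_add, range_one, sum_singleton, pow_zero, Nat.factorial_zero, Nat.cast_one,
      div_one, mul_one, one_mul]
    linarith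
  | succ k ih =>
    have h1 := ih (fun j hj => hc j (by omega)) (fun j hj => hd j (by omega))
    have h2 := ght_step ht k (hc (k + 1) (by omega)) (hc (k + 2) le_rfl) (hd (k + 1) le_rfl)
    rw [h1, h2, sum_range_succ _ (k + 1)]
    ring

theorem ght_integral_kernel {t : ℝ} (k : ℕ) :
    ∫ θ in (0 : ℝ)..t, (t - θ) ^ k / k ! = t ^ (k + 1) / (k + 1)! := by
  have hk : ((k + 1)! : ℝ) = (k + 1) * k ! := by
    rw [Nat.factorial_succ]; push_cast; ring
  rw [intervalIntegral.integral_div, intervalIntegral.integral_comp_sub_left (fun x => x ^ k) t,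
    integral_pow, hk]
  simp only [sub_self, sub_zero]
  rw [zero_pow (by omega), sub_zero, div_div]

/-- **Lagrange-type bound of the remainder.** -/
theorem ght_taylor_bound (w : ℕ → ℝ → ℝ) {t M : ℝ} (ht : 0 ≤ t) (k : ℕ)
    (hc : ∀ j ≤ k + 1, ContinuousOn (w j) (Icc 0 t))
    (hd : ∀ j ≤ k, ∀ θ ∈ Ioo 0 t, HasDerivAt (w j) (w (j + 1) θ) θ)
    (hM : ∀ θ ∈ Ioo 0 t, |w (k + 1) θ| ≤ M) :
    |w 0 t - ∑ j ∈ range (k + 1), w j 0 * t ^ j / j !| ≤ M * t ^ (k + 1) / (k + 1)! := by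
  rw [ght_taylor w ht k hc hd, add_sub_cancel_left]
  have hb : ∀ θ ∈ Ioo 0 t, ‖(t - θ) ^ k / k ! * w (k + 1) θ‖ ≤ (t - θ) ^ k / k ! * M := by
    intro θ hθ
    have h0 : 0 ≤ (t - θ) ^ k / k ! := by
      have : 0 ≤ t - θ := by linarith [hθ.2]
      positivity
    rw [Real.norm_eq_abs, abs_mul, abs_of_nonneg h0]
    exact mul_le_mul_of_nonneg_left (hM θ hθ) h0
  have hi : IntervalIntegrable (fun θ : ℝ => (t - θ) ^ k / k ! * M) volume 0 t :=
    (by fun_prop : Continuous fun θ : ℝ => (t - θ) ^ k / k ! * M).intervalIntegrable _ _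
  have h1 := intervalIntegral.norm_integral_le_of_norm_le ht
    (f := fun θ : ℝ => (t - θ) ^ k / k ! * w (k + 1) θ) (g := fun θ : ℝ => (t - θ) ^ k / k ! * M)
    (by
      have : ∀ᵐ θ ∂(volume : Measure ℝ), θ ≠ t := by
        simp [ae_iff, measure_singleton]
      filter_upwards [this] with θ hθ hmem
      exact hb θ ⟨hmem.1, lt_of_le_of_ne hmem.2 hθ⟩) hi
  rw [intervalIntegral.integral_mul_const, ght_integral_kernel, Real.norm_eq_abs] at h1
  calc _ ≤ t ^ (k + 1) / (k + 1)! * M := h1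
    _ = _ := by ring

/-- the case `t = 1` -/
theorem ght_taylor_one (w : ℕ → ℝ → ℝ) (k : ℕ)
    (hc : ∀ j ≤ k + 1, ContinuousOn (w j) (Set.Icc (0 : ℝ) 1))
    (hd : ∀ j ≤ k, ∀ θ ∈ Set.Ioo (0 : ℝ) 1, HasDerivAt (w j) (w (j + 1) θ) θ) :
    w 0 1 = ∑ j ∈ range (k + 1), w j 0 / j ! +
      ∫ θ in (0 : ℝ)..1, (1 - θ) ^ k / k ! * w (k + 1) θ := by
  have := ght_taylor w zero_le_one k hc hd
  simpa using this

theorem ght_taylor_bound_one (w : ℕ → ℝ → ℝ) {M : ℝ} (k : ℕ)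
    (hc : ∀ j ≤ k + 1, ContinuousOn (w j) (Set.Icc (0 : ℝ) 1))
    (hd : ∀ j ≤ k, ∀ θ ∈ Set.Ioo (0 : ℝ) 1, HasDerivAt (w j) (w (j + 1) θ) θ)
    (hM : ∀ θ ∈ Set.Ioo (0 : ℝ) 1, |w (k + 1) θ| ≤ M) :
    |w 0 1 - ∑ j ∈ range (k + 1), w j 0 / j !| ≤ M / (k + 1)! := by
  have := ght_taylor_bound w zero_le_one k hc hd hM
  simpa using this

/-- order zero, two functions -/
theorem ght_first {f g : ℝ → ℝ} {t : ℝ} (ht : 0 ≤ t)
    (hf : ContinuousOn f (Icc 0 t)) (hg : ContinuousOn g (Icc 0 t))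
    (hd : ∀ θ ∈ Ioo 0 t, HasDerivAt f (g θ) θ) :
    f t - f 0 = ∫ θ in (0 : ℝ)..t, g θ := by
  have hi : IntervalIntegrable g volume 0 t :=
    (by rwa [uIcc_of_le ht] : ContinuousOn _ (uIcc 0 t)).intervalIntegrable
  exact (integral_eq_sub_of_hasDerivAt_of_le ht hf hd hi).symm

/-- order zero, bound; NO continuity of the derivative is needed (mean value inequality). -/
theorem ght_first_bound {f g : ℝ → ℝ} {t M : ℝ} (ht : 0 ≤ t)
    (hf : ContinuousOn f (Icc 0 t))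
    (hd : ∀ θ ∈ Ioo 0 t, HasDerivAt f (g θ) θ) (hM : ∀ θ ∈ Ioo 0 t, |g θ| ≤ M) :
    |f t - f 0| ≤ M * t := by
  rcases ht.eq_or_lt with rfl | ht0
  · simp
  · obtain ⟨c, hc, hcs⟩ := exists_hasDerivAt_eq_slope f g ht0 hf hd
    have h1 := hM c hc
    rw [hcs, sub_zero, abs_div, abs_of_pos ht0, div_le_iff₀ ht0] at h1
    exact h1

/-! ## Part 2 : affine variance paths -/

section interp

open ProbabilityTheory Filter Topology

variable {ι : Type} [Fintype ι] {V : Type} [NormedAddCommGroup V] [NormedSpace ℝ V]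

/-- `E u (z + ∑ i, √(c i) ξ i • Φ i)` -/
noncomputable def ghtAv (Φ : ι → V) (c : ι → ℝ) (u : V → ℝ) (z : V) : ℝ :=
  gkP (ghStd ι) (ghhLin Φ fun i => Real.sqrt (c i)) u z

/-- the generator of the variance change `d` -/
noncomputable def ghtOp (Φ : ι → V) (d : ι → ℝ) (u : V → ℝ) : V → ℝ :=
  fun y => (1 / 2 : ℝ) * ∑ i, d i * ghhD (Φ i) (ghhD (Φ i) u) y

/-- the affine variance path -/
def ghtC (c0 d : ι → ℝ) (t : ℝ) : ι → ℝ := fun i => c0 i + t * d i

theorem GkEG.ghtOp {k : ℕ} {u : V → ℝ} (h : GkEG (k + 2) u) (Φ : ι → V) (d : ι → ℝ) :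
    GkEG k (ghtOp Φ d u) := by
  unfold Claimed.Agent.R286.ghtOp
  exact (GkEG.sum Finset.univ fun i _ => ((h.dir (Φ i)).dir (Φ i)).const_mul (d i)).const_mul _

theorem GkEG.ghtOp_iter (Φ : ι → V) (d : ι → ℝ) (j : ℕ) : ∀ {k : ℕ} {u : V → ℝ}, GkEG (k + 2 * j) u →
    GkEG k ((Claimed.Agent.R286.ghtOp Φ d)^[j] u) := by
  induction j with
  | zero => intro k u h; simpa using h
  | succ j ih =>
    intro k u h
    rw [Function.iterate_succ_apply']
    exact GkEG.ghtOp (ih (k := k + 2) (by convert h using 1; ring)) Φ d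

theorem ght_C_nonneg {c0 d : ι → ℝ} (h0 : ∀ i, 0 ≤ c0 i) (h1 : ∀ i, 0 ≤ c0 i + d i) {t : ℝ}
    (ht : t ∈ Icc (0 : ℝ) 1) (i : ι) : 0 ≤ ghtC c0 d t i := by
  have e : ghtC c0 d t i = (1 - t) * c0 i + t * (c0 i + d i) := by unfold ghtC; ring
  rw [e]
  exact add_nonneg (mul_nonneg (by linarith [ht.2]) (h0 i)) (mul_nonneg ht.1 (h1 i))

/-- inside the interval a coordinate variance is positive or the coordinate does not move -/
theorem ght_C_pos_or {c0 d : ι → ℝ} (h0 : ∀ i, 0 ≤ c0 i) (h1 : ∀ i, 0 ≤ c0 i + d i) {t : ℝ}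
    (ht : t ∈ Ioo (0 : ℝ) 1) (i : ι) : 0 < ghtC c0 d t i ∨ (c0 i = 0 ∧ d i = 0) := by
  have e : ghtC c0 d t i = (1 - t) * c0 i + t * (c0 i + d i) := by unfold ghtC; ring
  rcases (h0 i).eq_or_lt with h | h
  · rcases (h1 i).eq_or_lt with h' | h'
    · right; exact ⟨h.symm, by linarith⟩
    · left; rw [e]
      have := mul_pos ht.1 h'
      have := mul_nonneg (by linarith [ht.2] : (0 : ℝ) ≤ 1 - t) (h0 i)
      linarith
  · left; rw [e]
    have := mul_pos (by linarith [ht.2] : (0 : ℝ) < 1 - t) h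
    have := mul_nonneg ht.1.le (h1 i)
    linarith

/-- linearity of the average on the generator -/
theorem ght_av_op {u : V → ℝ} (hu : GkEG 2 u) (Φ : ι → V) (d c : ι → ℝ) (z : V) :
    ghtAv Φ c (ghtOp Φ d u) z = (1 / 2 : ℝ) * ∑ i, d i * ghtAv Φ c (ghhD (Φ i) (ghhD (Φ i) u)) z := by
  unfold ghtAv ghtOp gkP
  have hi : ∀ i, Integrable (fun o => ghhD (Φ i) (ghhD (Φ i) u) (z + ghhLin Φ (fun i => Real.sqrt (c i)) o)) (ghStd ι) := by
    intro i
    have h := (GkEG.dir (k := 0) (GkEG.dir (k := 1) hu (Φ i)) (Φ i))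
    exact gk_int (ghh_noise Φ _) h.1.continuous h.gr z
  rw [MeasureTheory.integral_const_mul, integral_finsetSum _ fun i _ => (hi i).const_mul (d i)]
  simp only [MeasureTheory.integral_const_mul]

/-- **GC4**: the derivative of the average along an affine variance path, inside the interval. -/
theorem ght_av_hasDerivAt {u : V → ℝ} (hu : GkEG 2 u) (Φ : ι → V) {c0 d : ι → ℝ}
    (h0 : ∀ i, 0 ≤ c0 i) (h1 : ∀ i, 0 ≤ c0 i + d i) {t : ℝ} (ht : t ∈ Ioo (0 : ℝ) 1) (z : V) :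
    HasDerivAt (fun τ => ghtAv Φ (ghtC c0 d τ) u z) (ghtAv Φ (ghtC c0 d t) (ghtOp Φ d u) z) t := by
  have hp := ghh_heat_line hu Φ z c0 d (t := t) fun i hi => by
    rcases ght_C_pos_or h0 h1 ht i with h | ⟨-, h⟩
    · exact h
    · exact absurd h hi
  refine hp.congr_deriv ?_
  rw [ght_av_op hu]
  rfl

/-- continuity on the CLOSED interval -/
theorem ght_av_continuousOn {u : V → ℝ} (hu : GkEG 0 u) (Φ : ι → V) (c0 d : ι → ℝ) (z : V) (T : Set ℝ) :
    ContinuousOn (fun τ => ghtAv Φ (ghtC c0 d τ) u z) T := by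
  refine ghh_cont_var hu.continuous hu.gr Φ z (c := fun τ => ghtC c0 d τ) fun i => ?_
  unfold ghtC
  fun_prop

/-- the chain of the iterated generators -/
noncomputable def ghtChain (Φ : ι → V) (c0 d : ι → ℝ) (u : V → ℝ) (z : V) (j : ℕ) (τ : ℝ) : ℝ :=
  ghtAv Φ (ghtC c0 d τ) ((ghtOp Φ d)^[j] u) z

theorem ght_C_zero (c0 d : ι → ℝ) : ghtC c0 d 0 = c0 := by funext i; simp [ghtC]

theorem ght_C_one (c0 d : ι → ℝ) : ghtC c0 d 1 = fun i => c0 i + d i := by funext i; simp [ghtC]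

/-- **GC4'**: Taylor's formula with integral remainder along an affine variance path (end points included). -/
theorem ght_av_taylor (k : ℕ) {u : V → ℝ} (hu : GkEG (2 * k + 2) u) (Φ : ι → V) {c0 d : ι → ℝ}
    (h0 : ∀ i, 0 ≤ c0 i) (h1 : ∀ i, 0 ≤ c0 i + d i) (z : V) :
    ghtAv Φ (fun i => c0 i + d i) u z = ∑ j ∈ Finset.range (k + 1), ghtAv Φ c0 ((ghtOp Φ d)^[j] u) z / j ! +
      ∫ θ in (0 : ℝ)..1, (1 - θ) ^ k / k ! * ghtAv Φ (ghtC c0 d θ) ((ghtOp Φ d)^[k + 1] u) z := by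
  have h := ght_taylor_one (ghtChain Φ c0 d u z) k (fun j hj => ?_) (fun j hj θ hθ => ?_)
  · simpa only [ghtChain, ght_C_zero, ght_C_one, Function.iterate_zero, id] using h
  · exact ght_av_continuousOn (GkEG.ghtOp_iter Φ d j (k := 0) (hu.mono (by omega))) Φ c0 d z _
  · unfold ghtChain
    rw [Function.iterate_succ_apply']
    exact ght_av_hasDerivAt (GkEG.ghtOp_iter Φ d j (k := 2) (hu.mono (by omega))) Φ h0 h1 hθ z

/-- an average is bounded by the supremum -/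
theorem ght_av_abs_le {u : V → ℝ} {M : ℝ} (hM : ∀ y, |u y| ≤ M) (Φ : ι → V) (c : ι → ℝ) (z : V) :
    |ghtAv Φ c u z| ≤ M := by
  unfold ghtAv gkP
  have := norm_integral_le_of_norm_le_const (μ := ghStd ι)
    (f := fun o => u (z + ghhLin Φ (fun i => Real.sqrt (c i)) o)) (C := M) (Eventually.of_forall fun o => hM _)
  simpa using this

/-- **GC4'**, bound of the remainder -/
theorem ght_av_taylor_bound (k : ℕ) {u : V → ℝ} (hu : GkEG (2 * k + 2) u) (Φ : ι → V) {c0 d : ι → ℝ}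
    (h0 : ∀ i, 0 ≤ c0 i) (h1 : ∀ i, 0 ≤ c0 i + d i) (z : V) {M : ℝ}
    (hM : ∀ θ ∈ Ioo (0 : ℝ) 1, |ghtAv Φ (ghtC c0 d θ) ((ghtOp Φ d)^[k + 1] u) z| ≤ M) :
    |ghtAv Φ (fun i => c0 i + d i) u z - ∑ j ∈ Finset.range (k + 1), ghtAv Φ c0 ((ghtOp Φ d)^[j] u) z / j !|
      ≤ M / (k + 1)! := by
  have h := ght_taylor_bound_one (ghtChain Φ c0 d u z) (M := M) k (fun j hj => ?_) (fun j hj θ hθ => ?_) hM
  · simpa only [ghtChain, ght_C_zero, ght_C_one, Function.iterate_zero, id] using h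
  · exact ght_av_continuousOn (GkEG.ghtOp_iter Φ d j (k := 0) (hu.mono (by omega))) Φ c0 d z _
  · unfold ghtChain
    rw [Function.iterate_succ_apply']
    exact ght_av_hasDerivAt (GkEG.ghtOp_iter Φ d j (k := 2) (hu.mono (by omega))) Φ h0 h1 hθ z

/-- first order: the difference of the two end points is the integral of the generator -/
theorem ght_av_first {u : V → ℝ} (hu : GkEG 2 u) (Φ : ι → V) {c0 d : ι → ℝ}
    (h0 : ∀ i, 0 ≤ c0 i) (h1 : ∀ i, 0 ≤ c0 i + d i) (z : V) :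
    ghtAv Φ (fun i => c0 i + d i) u z - ghtAv Φ c0 u z =
      ∫ θ in (0 : ℝ)..1, ghtAv Φ (ghtC c0 d θ) (ghtOp Φ d u) z := by
  have h := ght_av_taylor 0 (by simpa using hu) Φ h0 h1 z
  simp only [zero_add, Finset.range_one, Finset.sum_singleton, Function.iterate_zero, id, Nat.factorial_zero,
    Nat.cast_one, div_one, pow_zero, one_mul, Function.iterate_one] at h
  linarith

theorem ght_av_first_bound {u : V → ℝ} (hu : GkEG 2 u) (Φ : ι → V) {c0 d : ι → ℝ}
    (h0 : ∀ i, 0 ≤ c0 i) (h1 : ∀ i, 0 ≤ c0 i + d i) (z : V) {M : ℝ} (hM : ∀ y, |ghtOp Φ d u y| ≤ M) :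
    |ghtAv Φ (fun i => c0 i + d i) u z - ghtAv Φ c0 u z| ≤ M := by
  have h := ght_av_taylor_bound 0 (by simpa using hu) Φ h0 h1 z (M := M)
    (fun θ _ => by simpa using ght_av_abs_le hM Φ _ z)
  simpa using h

theorem ght_eqns_cite : True := by
  have := @ghtAv.eq_1; have := @ghtOp.eq_1; have := @ghtC.eq_1; have := @ghtChain.eq_1
  trivial

end interp

end Claimed.Agent.R286
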