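import Claimed.Agent.R286.Gk.Reg
import Claimed.Agent.Lib.BLGauss

/-!
# Row 286 (S0533), Gaussian kit, GC3 **HEAT** on `ghStd ι`      (helper119; head of the kit helper91; prefix `ghh_`; class and smoothing = helper91's `GkEG`, `gkP` of Gk/Reg)

PAPER FREE.   Drivers `ξ : ι → ℝ` under `ghStd ι = Measure.pi (gaussianReal 0 1)`;  test functions `u : V → ℝ` on ANY real normed space `V` (in the row: the field space `S → ℝ`).
* closure of `GkEG k`:  `GkEG.bound` (common constants), `ghh_eg_mk`, `GkEG.mono`, `ghh_eg_zero`, `ghh_eg_succ`, `.add .sub .neg .sum .mul .const_mul .const_smul .clm_comp`, `ghh_eg_const`, `ghh_eg_clm`,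
  directional derivatives `GkEG.dir`, affine substitutions `GkEG.comp_affine`
* `ghhD v u`            the directional derivative `y ↦ Du(y)[v]`
* `ghh_integrable_exp_norm`, `GkEG.integrable`      integrability under `ghStd ι`
* `ghh_ibp`             **IBP**   `∫ (∑ i, ξ i * v i) w = ∫ Dw[v]`,  `w ∈ GkEG 1`;   `ghh_ibp_coord`;   `ghh_ibp_gr`, `ghh_ibp_raw`: `w` only differentiable everywhere (derivative not continuous)
* `ghhLin Φ σ ξ = ∑ i, (σ i * ξ i) • Φ i`      the noise with features `Φ i ∈ V` and STANDARD DEVIATIONS `σ i`;  smoothing = `gkP (ghStd ι) (ghhLin Φ σ) u z`;  `ghh_noise`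
* `ghh_hasFDerivAt_sd`  Frechet derivative of `σ ↦ gkP (ghStd ι) (ghhLin Φ σ) u z`;   `ghh_path`  **the master formula**: along any differentiable path of standard deviations
  `d/dt gkP (ghStd ι) (ghhLin Φ (σ t)) u z = ∑ i, σ' i * σ t i * gkP .. (D²u[Φ i, Φ i]) z`   (`u ∈ GkEG 2`; no positivity, no square root)
* `ghh_path_var`        paths of VARIANCES `c t i` (each coordinate: positive at `t0`, or frozen near `t0`):  `d/dt gkP .. (ghhLin Φ √(c t)) u z = 1/2 ∑ i, c' i * gkP .. (D²u[Φ i, Φ i]) z`;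
  `ghh_heat_line` the line `c + t dv`;   `ghh_var_sub`, `ghh_heat_sub` integrated forms on `[s, t]` (positivity INSIDE the interval only)
* `ghh_heat_cont` joint continuity in `(σ, z)`, `ghh_cont_var` continuity along paths of variances (degenerate ones included), `ghh_P_zero`
* `ghh_D_P`, `GkEG.P`   `D_v (P u) = P (D_v u)`,  `P` preserves `GkEG k` (any noise);   `ghh_P_bound`, `GkEG.P_unif` constants UNIFORM over `‖σ‖ ≤ R`;   `ghh_cont_sd`
* `ghh_inc_eq`, `ghh_incF_eq`      the increments `l.inc`, `(ghLvF Φ m dv).inc` of Defs/Gh are `ghhLin`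
-/

set_option autoImplicit false

namespace Claimed.Agent.R286

open MeasureTheory ProbabilityTheory Filter Topology Set
open Claimed.Agent.BL

/-! ## 1. the class -/

section cls

variable {E : Type} [NormedAddCommGroup E] [NormedSpace ℝ E] {F : Type} [NormedAddCommGroup F] [NormedSpace ℝ F]

/-- the directional derivative -/
noncomputable def ghhD (v : E) (u : E → F) (y : E) : F := fderiv ℝ u y v

theorem ghh_cls_eqns_cite : True := by
  have := @ghhD.eq_1
  trivial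

omit [NormedSpace ℝ E] in
theorem ghh_exp_mono {A A' B B' : ℝ} (hA : A ≤ A') (hA0 : 0 ≤ A') (hB : B ≤ B') (x : E) :
    A * Real.exp (B * ‖x‖) ≤ A' * Real.exp (B' * ‖x‖) := by
  have h1 : Real.exp (B * ‖x‖) ≤ Real.exp (B' * ‖x‖) :=
    Real.exp_le_exp.2 (mul_le_mul_of_nonneg_right hB (norm_nonneg _))
  calc A * Real.exp (B * ‖x‖) ≤ A' * Real.exp (B * ‖x‖) := mul_le_mul_of_nonneg_right hA (Real.exp_pos _).le
    _ ≤ A' * Real.exp (B' * ‖x‖) := mul_le_mul_of_nonneg_left h1 hA0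

omit [NormedSpace ℝ E] in
theorem ghh_common {f : ℕ → E → ℝ} (k : ℕ) (h : ∀ j ≤ k, ∃ A B : ℝ, 0 ≤ A ∧ 0 ≤ B ∧ ∀ x, f j x ≤ A * Real.exp (B * ‖x‖)) :
    ∃ A B : ℝ, 0 ≤ A ∧ 0 ≤ B ∧ ∀ j ≤ k, ∀ x, f j x ≤ A * Real.exp (B * ‖x‖) := by
  induction k with
  | zero =>
    obtain ⟨A, B, hA, hB, hAB⟩ := h 0 le_rfl
    exact ⟨A, B, hA, hB, fun j hj x => by obtain rfl : j = 0 := by omega
                                          exact hAB x⟩
  | succ k ih =>
    obtain ⟨A, B, hA, hB, hAB⟩ := ih fun j hj => h j (by omega)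
    obtain ⟨A', B', hA', hB', hAB'⟩ := h (k + 1) le_rfl
    refine ⟨A + A', B + B', by positivity, by positivity, fun j hj x => ?_⟩
    rcases Nat.lt_or_ge j (k + 1) with hlt | hge
    · exact (hAB j (by omega) x).trans (ghh_exp_mono (by linarith) (by linarith) (by linarith) x)
    · obtain rfl : j = k + 1 := by omega
      exact (hAB' x).trans (ghh_exp_mono (by linarith) (by linarith) (by linarith) x)

/-- common constants for all orders `≤ k` -/
theorem GkEG.bound {k : ℕ} {u : E → F} (h : GkEG k u) :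
    ∃ A B : ℝ, 0 ≤ A ∧ 0 ≤ B ∧ ∀ j : ℕ, j ≤ k → ∀ x, ‖iteratedFDeriv ℝ j u x‖ ≤ A * Real.exp (B * ‖x‖) :=
  ghh_common (f := fun j x => ‖iteratedFDeriv ℝ j u x‖) k h.2

/-- the constructor with common constants of any sign -/
theorem ghh_eg_mk {k : ℕ} {u : E → F} (hc : ContDiff ℝ k u) (A B : ℝ)
    (h : ∀ j : ℕ, j ≤ k → ∀ x, ‖iteratedFDeriv ℝ j u x‖ ≤ A * Real.exp (B * ‖x‖)) : GkEG k u :=
  ⟨hc, fun j hj => ⟨|A|, |B|, abs_nonneg _, abs_nonneg _, fun x =>
    (h j hj x).trans (ghh_exp_mono (le_abs_self _) (abs_nonneg _) (le_abs_self _) x)⟩⟩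

theorem GkEG.mono {k l : ℕ} {u : E → F} (h : GkEG k u) (hl : l ≤ k) : GkEG l u :=
  ⟨h.1.of_le (by exact_mod_cast hl), fun j hj => h.2 j (hj.trans hl)⟩

theorem GkEG.continuous {k : ℕ} {u : E → F} (h : GkEG k u) : Continuous u := h.1.continuous

theorem GkEG.norm_le {k : ℕ} {u : E → F} (h : GkEG k u) :
    ∃ A B : ℝ, 0 ≤ A ∧ 0 ≤ B ∧ ∀ x, ‖u x‖ ≤ A * Real.exp (B * ‖x‖) := by
  obtain ⟨A, B, hA, hB, hAB⟩ := h.bound
  refine ⟨A, B, hA, hB, fun x => ?_⟩
  have := hAB 0 (Nat.zero_le _) x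
  rwa [norm_iteratedFDeriv_zero] at this

theorem GkEG.abs_le {k : ℕ} {u : E → ℝ} (h : GkEG k u) :
    ∃ A B : ℝ, 0 ≤ A ∧ 0 ≤ B ∧ ∀ x, |u x| ≤ A * Real.exp (B * ‖x‖) := h.norm_le

theorem ghh_eg_zero {u : E → F} (hc : Continuous u) {A B : ℝ} (h : ∀ x, ‖u x‖ ≤ A * Real.exp (B * ‖x‖)) : GkEG 0 u := by
  refine ghh_eg_mk (by simpa using (contDiff_zero (𝕜 := ℝ)).2 hc) (A) (B) fun j hj x => ?_
  obtain rfl : j = 0 := by omega
  rw [norm_iteratedFDeriv_zero]
  exact h x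

theorem GkEG.continuous_fderiv {k : ℕ} {u : E → F} (h : GkEG (k + 1) u) : Continuous (_root_.fderiv ℝ u) :=
  h.1.continuous_fderiv (by simp)

/-- from the derivative to the function -/
theorem ghh_eg_succ {k : ℕ} {u : E → F} (h0 : GkEG 0 u) (hd : Differentiable ℝ u) (h : GkEG k (fderiv ℝ u)) : GkEG (k + 1) u := by
  obtain ⟨A0, B0, hA0, hB0, h0'⟩ := h0.norm_le
  obtain ⟨A, B, hA, hB, hAB⟩ := h.bound
  have e : ((k + 1 : ℕ) : WithTop ℕ∞) = (k : WithTop ℕ∞) + 1 := by push_cast; rfl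
  refine ghh_eg_mk (?_) (A0 + A) (B0 + B) fun j hj x => ?_
  · rw [e, contDiff_succ_iff_fderiv]
    exact ⟨hd, by simp, h.1⟩
  · rcases j with _ | i
    · rw [norm_iteratedFDeriv_zero]
      exact (h0' x).trans (ghh_exp_mono (by linarith) (by linarith) (by linarith) x)
    · rw [← norm_iteratedFDeriv_fderiv]
      exact (hAB i (by omega) x).trans (ghh_exp_mono (by linarith) (by linarith) (by linarith) x)

theorem GkEG.norm_fderiv_le {k : ℕ} {u : E → F} (h : GkEG (k + 1) u) :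
    ∃ A B : ℝ, 0 ≤ A ∧ 0 ≤ B ∧ ∀ x, ‖_root_.fderiv ℝ u x‖ ≤ A * Real.exp (B * ‖x‖) := h.fderiv.norm_le

/-- composition with a continuous linear map on the left -/
theorem GkEG.clm_comp {G : Type} [NormedAddCommGroup G] [NormedSpace ℝ G] {k : ℕ} {u : E → F} (h : GkEG k u) (L : F →L[ℝ] G) :
    GkEG k (fun x => L (u x)) := by
  obtain ⟨A, B, hA, hB, hAB⟩ := h.bound
  refine ghh_eg_mk (L.contDiff.comp h.1) (‖L‖ * A) (B) fun j hj x => ?_
  refine (L.norm_iteratedFDeriv_comp_left h.1.contDiffAt (by exact_mod_cast hj)).trans ?_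
  rw [mul_assoc]
  exact mul_le_mul_of_nonneg_left (hAB j hj x) (norm_nonneg _)

/-- directional derivatives -/
theorem GkEG.dir {k : ℕ} {u : E → F} (h : GkEG (k + 1) u) (v : E) : GkEG k (ghhD v u) :=
  h.fderiv.clm_comp (ContinuousLinearMap.apply ℝ F v)

theorem GkEG.const_smul {k : ℕ} {u : E → F} (h : GkEG k u) (c : ℝ) : GkEG k (fun x => c • u x) :=
  h.clm_comp (c • ContinuousLinearMap.id ℝ F)

theorem GkEG.const_mul {k : ℕ} {u : E → ℝ} (h : GkEG k u) (c : ℝ) : GkEG k (fun x => c * u x) := h.const_smul c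

theorem GkEG.add {k : ℕ} {u v : E → F} (hu : GkEG k u) (hv : GkEG k v) : GkEG k (fun x => u x + v x) := by
  obtain ⟨A, B, hA, hB, hAB⟩ := hu.bound
  obtain ⟨A', B', hA', hB', hAB'⟩ := hv.bound
  refine ghh_eg_mk (hu.1.add hv.1) (A + A') (B + B') fun j hj x => ?_
  have h1 : ContDiffAt ℝ j u x := (hu.1.of_le (by exact_mod_cast hj)).contDiffAt
  have h2 : ContDiffAt ℝ j v x := (hv.1.of_le (by exact_mod_cast hj)).contDiffAt
  have h3 := fun_iteratedFDeriv_add_apply (𝕜 := ℝ) h1 h2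
  rw [h3, add_mul]
  refine (norm_add_le _ _).trans (add_le_add ((hAB j hj x).trans ?_) ((hAB' j hj x).trans ?_))
  · exact ghh_exp_mono le_rfl hA (by linarith) x
  · exact ghh_exp_mono le_rfl hA' (by linarith) x

theorem GkEG.neg {k : ℕ} {u : E → F} (h : GkEG k u) : GkEG k (fun x => - u x) := by
  simpa using h.const_smul (-1)

theorem GkEG.sub {k : ℕ} {u v : E → F} (hu : GkEG k u) (hv : GkEG k v) : GkEG k (fun x => u x - v x) := by
  simpa [sub_eq_add_neg] using hu.add hv.neg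

theorem ghh_eg_const (k : ℕ) (c : F) : GkEG k (fun _ : E => c) := by
  refine ghh_eg_mk (contDiff_const) (‖c‖) (0) fun j _ x => ?_
  rcases j with _ | i
  · simp
  · rw [iteratedFDeriv_const_of_ne (by omega)]
    simp

theorem GkEG.sum {k : ℕ} {α : Type*} (s : Finset α) {u : α → E → F} (h : ∀ i ∈ s, GkEG k (u i)) : GkEG k (fun x => ∑ i ∈ s, u i x) := by
  classical
  induction s using Finset.induction_on with
  | empty => simpa using ghh_eg_const (E := E) (F := F) k 0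
  | insert a s ha ih =>
    simp only [Finset.sum_insert ha]
    exact (h a (Finset.mem_insert_self _ _)).add (ih fun i hi => h i (Finset.mem_insert_of_mem hi))

theorem GkEG.mul {k : ℕ} {u v : E → ℝ} (hu : GkEG k u) (hv : GkEG k v) : GkEG k (fun x => u x * v x) := by
  obtain ⟨A, B, hA, hB, hAB⟩ := hu.bound
  obtain ⟨A', B', hA', hB', hAB'⟩ := hv.bound
  refine ghh_eg_mk (hu.1.mul hv.1) (2 ^ k * (A * A')) (B + B') fun j hj x => ?_
  refine (norm_iteratedFDeriv_mul_le hu.1 hv.1 x (by exact_mod_cast hj)).trans ?_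
  have h1 : ∀ i ∈ Finset.range (j + 1), (j.choose i : ℝ) * ‖iteratedFDeriv ℝ i u x‖ * ‖iteratedFDeriv ℝ (j - i) v x‖
      ≤ (j.choose i : ℝ) * ((A * A') * Real.exp ((B + B') * ‖x‖)) := by
    intro i hi
    rw [Finset.mem_range] at hi
    rw [mul_assoc]
    refine mul_le_mul_of_nonneg_left ?_ (Nat.cast_nonneg _)
    calc ‖iteratedFDeriv ℝ i u x‖ * ‖iteratedFDeriv ℝ (j - i) v x‖
        ≤ (A * Real.exp (B * ‖x‖)) * (A' * Real.exp (B' * ‖x‖)) :=
          mul_le_mul (hAB i (by omega) x) (hAB' (j - i) (by omega) x) (norm_nonneg _) (by positivity)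
      _ = _ := by rw [add_mul, Real.exp_add]; ring
  refine (Finset.sum_le_sum h1).trans ?_
  rw [← Finset.sum_mul, ← Nat.cast_sum, Nat.sum_range_choose, ← mul_assoc]
  refine mul_le_mul_of_nonneg_right (mul_le_mul_of_nonneg_right ?_ (by positivity)) (Real.exp_pos _).le
  push_cast
  exact pow_le_pow_right₀ (by norm_num) hj

/-- affine substitutions -/
theorem GkEG.comp_affine {E' : Type} [NormedAddCommGroup E'] [NormedSpace ℝ E'] {k : ℕ} {u : E → F} (h : GkEG k u)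
    (z : E) (L : E' →L[ℝ] E) : GkEG k (fun x => u (z + L x)) := by
  obtain ⟨A, B, hA, hB, hAB⟩ := h.bound
  have hc : ContDiff ℝ k (fun y => u (z + y)) := h.1.comp (contDiff_const.add contDiff_id)
  refine ghh_eg_mk (hc.comp L.contDiff) (A * Real.exp (B * ‖z‖) * (1 + ‖L‖) ^ k) (B * ‖L‖) fun j hj x => ?_
  have e : (fun x => u (z + L x)) = (fun y => u (z + y)) ∘ L := rfl
  rw [e, L.iteratedFDeriv_comp_right hc x (by exact_mod_cast hj)]
  refine (ContinuousMultilinearMap.norm_compContinuousLinearMap_le _ _).trans ?_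
  rw [iteratedFDeriv_comp_add_left, Finset.prod_const, Finset.card_univ, Fintype.card_fin]
  have h1 : ‖L‖ ^ j ≤ (1 + ‖L‖) ^ k :=
    (pow_le_pow_left₀ (norm_nonneg _) (by linarith) j).trans (pow_le_pow_right₀ (by linarith [norm_nonneg L]) hj)
  have h2 : ‖iteratedFDeriv ℝ j u (z + L x)‖ ≤ A * Real.exp (B * ‖z‖) * Real.exp (B * ‖L‖ * ‖x‖) := by
    refine (hAB j hj _).trans ?_
    rw [mul_assoc, ← Real.exp_add]
    refine mul_le_mul_of_nonneg_left (Real.exp_le_exp.2 ?_) hA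
    have : ‖z + L x‖ ≤ ‖z‖ + ‖L‖ * ‖x‖ := (norm_add_le _ _).trans (add_le_add le_rfl (L.le_opNorm x))
    calc B * ‖z + L x‖ ≤ B * (‖z‖ + ‖L‖ * ‖x‖) := mul_le_mul_of_nonneg_left this hB
      _ = _ := by ring
  calc ‖iteratedFDeriv ℝ j u (z + L x)‖ * ‖L‖ ^ j
      ≤ (A * Real.exp (B * ‖z‖) * Real.exp (B * ‖L‖ * ‖x‖)) * (1 + ‖L‖) ^ k :=
        mul_le_mul h2 h1 (by positivity) (by positivity)
    _ = _ := by ring

/-- continuous linear maps are in the class -/
theorem ghh_eg_clm (k : ℕ) (L : E →L[ℝ] F) : GkEG k (fun x => L x) := by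
  refine ghh_eg_mk (L.contDiff) (‖L‖) (1) fun j _ x => ?_
  have hx : ‖x‖ ≤ Real.exp (1 * ‖x‖) := by
    rw [one_mul]; linarith [Real.add_one_le_exp ‖x‖]
  have h1 : (1 : ℝ) ≤ Real.exp (1 * ‖x‖) := Real.one_le_exp (by positivity)
  rcases j with _ | _ | j
  · rw [norm_iteratedFDeriv_zero]
    exact (L.le_opNorm x).trans (mul_le_mul_of_nonneg_left hx (norm_nonneg _))
  · rw [zero_add, norm_iteratedFDeriv_one, L.fderiv]
    exact le_mul_of_one_le_right (norm_nonneg _) h1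
  · rw [← norm_iteratedFDeriv_fderiv]
    have : fderiv ℝ (fun x => L x) = fun _ => L := by funext y; exact L.fderiv
    rw [this, iteratedFDeriv_const_of_ne (by omega)]
    simp only [Pi.zero_apply, norm_zero]
    positivity

omit [NormedSpace ℝ E] in
theorem ghh_exp_affine_le {B : ℝ} (hB : 0 ≤ B) {X Y : ℝ} {x y : E} (hx : ‖x‖ ≤ X) (hy : ‖y‖ ≤ Y) :
    Real.exp (B * ‖x + y‖) ≤ Real.exp (B * X) * Real.exp (B * Y) := by
  rw [← Real.exp_add]
  refine Real.exp_le_exp.2 ?_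
  have : ‖x + y‖ ≤ X + Y := (norm_add_le _ _).trans (add_le_add hx hy)
  calc B * ‖x + y‖ ≤ B * (X + Y) := mul_le_mul_of_nonneg_left this hB
    _ = _ := by ring

end cls

/-! ## 2. the standard Gaussian on the drivers -/

section gauss

variable {ι : Type} [Fintype ι]

/-- exponential moments of the norm -/
theorem ghh_integrable_exp_norm (b : ℝ) : Integrable (fun ξ : ι → ℝ => Real.exp (b * ‖ξ‖)) (ghStd ι) := by
  have h1 : Integrable (fun ξ : ι → ℝ => ∏ i, (Real.exp (|b| * ξ i) + Real.exp (-|b| * ξ i))) (ghStd ι) := by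
    unfold ghStd
    exact Integrable.fintype_prod (f := fun _ x => Real.exp (|b| * x) + Real.exp (-|b| * x))
      fun _ => (integrable_exp_mul_gaussianReal _).add (integrable_exp_mul_gaussianReal _)
  refine h1.mono' (by fun_prop) (Eventually.of_forall fun ξ => ?_)
  rw [Real.norm_eq_abs, abs_of_pos (Real.exp_pos _)]
  have h2 : b * ‖ξ‖ ≤ ∑ i, |b| * |ξ i| := by
    rw [← Finset.mul_sum]
    exact (mul_le_mul_of_nonneg_right (le_abs_self b) (norm_nonneg _)).trans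
      (mul_le_mul_of_nonneg_left (ghr_norm_le_l1 ξ) (abs_nonneg _))
  refine (Real.exp_le_exp.2 h2).trans ?_
  rw [Real.exp_sum]
  refine Finset.prod_le_prod (fun i _ => (Real.exp_pos _).le) fun i _ => ?_
  rcases abs_cases (ξ i) with ⟨h, -⟩ | ⟨h, -⟩
  · rw [h]
    linarith [Real.exp_pos (-|b| * ξ i)]
  · rw [h]
    have : |b| * -ξ i = -|b| * ξ i := by ring
    rw [this]
    linarith [Real.exp_pos (|b| * ξ i)]

theorem GkEG.integrable {F : Type} [NormedAddCommGroup F] [NormedSpace ℝ F] {k : ℕ} {w : (ι → ℝ) → F} (h : GkEG k w) :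
    Integrable w (ghStd ι) := by
  obtain ⟨A, B, hA, hB, hAB⟩ := h.norm_le
  exact ((ghh_integrable_exp_norm B).const_mul A).mono' h.continuous.aestronglyMeasurable
    (Eventually.of_forall fun x => hAB x)

theorem ghh_eg_lin (k : ℕ) (v : ι → ℝ) : GkEG k (fun ξ : ι → ℝ => ∑ i, ξ i * v i) := by
  have e : (fun ξ : ι → ℝ => ∑ i, ξ i * v i) = fun ξ => (blDot ι).flip v ξ := by
    funext ξ
    rw [ContinuousLinearMap.flip_apply, bl_dot_apply]
  rw [e]
  exact ghh_eg_clm k _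

/-- **IBP** in the direction `v`, raw form: `w` differentiable everywhere (NO continuity of the derivative) and three integrabilities -/
theorem ghh_ibp_raw {w : (ι → ℝ) → ℝ} (hdw : Differentiable ℝ w) (v : ι → ℝ) (i1 : Integrable (fun ξ => fderiv ℝ w ξ v) (ghStd ι))
    (i2 : Integrable (fun ξ => (∑ i, ξ i * v i) * w ξ) (ghStd ι)) (i3 : Integrable w (ghStd ι)) :
    ∫ ξ, (∑ i, ξ i * v i) * w ξ ∂ghStd ι = ∫ ξ, fderiv ℝ w ξ v ∂ghStd ι := by
  set g : (ι → ℝ) → ℝ := fun x => Real.exp (-((∑ i, x i ^ 2) / 2)) with hg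
  have hgd : ∀ x, HasFDerivAt g (g x • -(blDot ι x)) x := fun x => ((bl_sq_hasFDerivAt x).neg).exp
  have hd : ∀ x, fderiv ℝ g x v = -(g x * ∑ i, x i * v i) := by
    intro x
    rw [(hgd x).fderiv]
    simp [bl_dot_apply]
  have hgi := bl_integrable_exp_neg_sq (ι := ι)
  unfold ghStd at i1 i2 i3 ⊢
  rw [bl_pi_gaussian_eq_tilted] at i1 i2 i3 ⊢
  rw [integrable_tilted_iff hgi] at i1 i2 i3
  have key := integral_mul_fderiv_eq_neg_fderiv_mul_of_integrable (μ := (volume : Measure (ι → ℝ)))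
    (f := w) (g := g) (v := v)
    (i1.congr (Eventually.of_forall fun x => by simp [hg, mul_comm]))
    (i2.neg.congr (Eventually.of_forall fun x => by simp only [hd, Pi.neg_apply, smul_eq_mul]; ring))
    (i3.congr (Eventually.of_forall fun x => by simp [hg, mul_comm]))
    (fun x _ => hdw x)
    (fun x _ => (hgd x).differentiableAt)
  rw [integral_tilted, integral_tilted]
  set Z : ℝ := ∫ x : ι → ℝ, Real.exp (-((∑ i, x i ^ 2) / 2)) with hZ
  have e1 : ∫ x, w x * fderiv ℝ g x v = -∫ x, g x * ((∑ i, x i * v i) * w x) := by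
    rw [← integral_neg]
    refine integral_congr_ae (Eventually.of_forall fun x => ?_)
    simp only [hd]; ring
  have e2 : ∫ x, fderiv ℝ w x v * g x = ∫ x, g x * fderiv ℝ w x v := by
    refine integral_congr_ae (Eventually.of_forall fun x => ?_)
    simp only [mul_comm]
  rw [e1, e2, neg_inj] at key
  have f1 : ∀ F : (ι → ℝ) → ℝ, ∫ x, (Real.exp (-((∑ i, x i ^ 2) / 2)) / Z) • F x = Z⁻¹ * ∫ x, g x * F x := by
    intro F
    rw [← integral_const_mul]
    refine integral_congr_ae (Eventually.of_forall fun x => ?_)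
    simp only [smul_eq_mul, hg]
    ring
  rw [f1, f1, key]

/-- **IBP** in the direction `v` -/
theorem ghh_ibp {w : (ι → ℝ) → ℝ} (hw : GkEG 1 w) (v : ι → ℝ) :
    ∫ ξ, (∑ i, ξ i * v i) * w ξ ∂ghStd ι = ∫ ξ, fderiv ℝ w ξ v ∂ghStd ι :=
  ghh_ibp_raw hw.differentiable v (hw.dir v).integrable ((ghh_eg_lin 0 v).mul (hw.mono (Nat.zero_le _))).integrable hw.integrable

/-- **IBP** for an everywhere differentiable `w`; `w` and `Dw[v]` of exponential growth (the derivative need not be continuous) -/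
theorem ghh_ibp_gr {w : (ι → ℝ) → ℝ} (hdw : Differentiable ℝ w) (v : ι → ℝ) {A B : ℝ} (h0 : ∀ ξ, |w ξ| ≤ A * Real.exp (B * ‖ξ‖))
    (h1 : ∀ ξ, |fderiv ℝ w ξ v| ≤ A * Real.exp (B * ‖ξ‖)) :
    ∫ ξ, (∑ i, ξ i * v i) * w ξ ∂ghStd ι = ∫ ξ, fderiv ℝ w ξ v ∂ghStd ι := by
  have hw0 : GkEG 0 w := ghh_eg_zero hdw.continuous h0
  refine ghh_ibp_raw hdw v ?_ ((ghh_eg_lin 0 v).mul hw0).integrable hw0.integrable
  exact ((ghh_integrable_exp_norm B).const_mul A).mono' (measurable_fderiv_apply_const ℝ w v).aestronglyMeasurable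
    (Eventually.of_forall h1)

/-- **IBP**, one coordinate -/
theorem ghh_ibp_coord [DecidableEq ι] {w : (ι → ℝ) → ℝ} (hw : GkEG 1 w) (i : ι) :
    ∫ ξ, ξ i * w ξ ∂ghStd ι = ∫ ξ, fderiv ℝ w ξ (Pi.single i 1) ∂ghStd ι := by
  rw [← ghh_ibp hw]
  refine integral_congr_ae (Eventually.of_forall fun ξ => ?_)
  simp [Pi.single_apply]

end gauss

/-! ## 3. the heat equation -/

section heat

variable {ι : Type} [Fintype ι] {V : Type} [NormedAddCommGroup V] [NormedSpace ℝ V]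

/-- the noise with features `Φ i` and standard deviations `σ i` -/
noncomputable def ghhLin (Φ : ι → V) (σ ξ : ι → ℝ) : V := ∑ i, (σ i * ξ i) • Φ i

/-- the same as a continuous linear map of the driver -/
noncomputable def ghhLinL (Φ : ι → V) (σ : ι → ℝ) : (ι → ℝ) →L[ℝ] V :=
  ∑ i, (ContinuousLinearMap.proj (R := ℝ) (φ := fun _ : ι => ℝ) i).smulRight (σ i • Φ i)

theorem ghh_lin_eqns_cite : True := by
  have := @ghhLin.eq_1
  have := @ghhLinL.eq_1
  trivial

theorem ghhLinL_apply (Φ : ι → V) (σ ξ : ι → ℝ) : ghhLinL Φ σ ξ = ghhLin Φ σ ξ := by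
  simp only [ghhLinL, ghhLin, _root_.sum_apply, ContinuousLinearMap.smulRight_apply,
    ContinuousLinearMap.proj_apply, smul_smul]
  exact Finset.sum_congr rfl fun i _ => by rw [mul_comm]

theorem ghh_lin_comm (Φ : ι → V) (σ ξ : ι → ℝ) : ghhLin Φ σ ξ = ghhLin Φ ξ σ := by
  unfold ghhLin
  exact Finset.sum_congr rfl fun i _ => by rw [mul_comm]

theorem ghh_lin_single [DecidableEq ι] (Φ : ι → V) (σ : ι → ℝ) (i : ι) : ghhLin Φ σ (Pi.single i 1) = σ i • Φ i := by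
  unfold ghhLin
  rw [Finset.sum_eq_single i]
  · simp
  · intro j _ hj
    simp [hj]
  · simp

theorem ghh_lin_norm_le (Φ : ι → V) (σ ξ : ι → ℝ) : ‖ghhLin Φ σ ξ‖ ≤ (∑ i, ‖Φ i‖) * ‖σ‖ * ‖ξ‖ := by
  unfold ghhLin
  refine (norm_sum_le _ _).trans ?_
  rw [Finset.sum_mul, Finset.sum_mul]
  refine Finset.sum_le_sum fun i _ => ?_
  rw [norm_smul, norm_mul]
  have h1 := norm_le_pi_norm σ i
  have h2 := norm_le_pi_norm ξ i
  calc ‖σ i‖ * ‖ξ i‖ * ‖Φ i‖ ≤ ‖σ‖ * ‖ξ‖ * ‖Φ i‖ := by gcongr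
    _ = _ := by ring

theorem ghh_linL_norm_le (Φ : ι → V) (σ : ι → ℝ) : ‖ghhLinL Φ σ‖ ≤ (∑ i, ‖Φ i‖) * ‖σ‖ :=
  ContinuousLinearMap.opNorm_le_bound _ (by positivity) fun ξ => by
    rw [ghhLinL_apply]
    exact ghh_lin_norm_le Φ σ ξ

theorem ghh_lin_continuous (Φ : ι → V) : Continuous fun p : (ι → ℝ) × (ι → ℝ) => ghhLin Φ p.1 p.2 := by
  unfold ghhLin
  fun_prop

theorem ghh_noise (Φ : ι → V) (σ : ι → ℝ) : GkNoise (ghStd ι) (ghhLin Φ σ) := by
  have := ghr_noise_clm (ghhLinL Φ σ)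
  simpa only [ghhLinL_apply] using this

/-- the levels of the hierarchy are of this form -/
theorem ghh_inc_eq {S : Type} [Fintype S] (l : GhLv S ι) : l.inc = ghhLin (fun i s => l.A s i) fun _ => 1 := by
  funext ξ s
  simp [GhLv.inc, ghhLin, Finset.sum_apply, mul_comm]

theorem ghh_incF_eq {S : Type} [Fintype S] (Φ : S → ι → ℝ) (m : ℝ) (dv : ι → ℝ) :
    (ghLvF Φ m dv).inc = ghhLin (fun i s => Φ s i) fun i => Real.sqrt (dv i) := by
  funext ξ s
  simp only [GhLv.inc, ghLvF, ghhLin, Finset.sum_apply, Pi.smul_apply, smul_eq_mul]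
  exact Finset.sum_congr rfl fun i _ => by ring

theorem ghh_fderiv_comp_affine {E E' F : Type} [NormedAddCommGroup E] [NormedSpace ℝ E] [NormedAddCommGroup E'] [NormedSpace ℝ E']
    [NormedAddCommGroup F] [NormedSpace ℝ F] {u : E → F} (hd : Differentiable ℝ u) (z : E) (L : E' →L[ℝ] E) (x : E') :
    HasFDerivAt (fun x => u (z + L x)) ((fderiv ℝ u (z + L x)).comp L) x :=
  (hd (z + L x)).hasFDerivAt.comp x (L.hasFDerivAt.const_add z)

/-- the common dominating function -/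
theorem ghh_dom {F : Type} [NormedAddCommGroup F] {w : V → F} {A B : ℝ} (hA : 0 ≤ A) (hB : 0 ≤ B) (hw : ∀ y, ‖w y‖ ≤ A * Real.exp (B * ‖y‖))
    (Φ : ι → V) {z : V} {σ : ι → ℝ} {Z R : ℝ} (hz : ‖z‖ ≤ Z) (hσ : ‖σ‖ ≤ R) (ξ : ι → ℝ) :
    ‖w (z + ghhLin Φ σ ξ)‖ ≤ A * Real.exp (B * Z) * Real.exp (B * ((∑ i, ‖Φ i‖) * R) * ‖ξ‖) := by
  refine (hw _).trans ?_
  rw [mul_assoc]
  refine mul_le_mul_of_nonneg_left ?_ hA
  have h1 : ‖ghhLin Φ σ ξ‖ ≤ (∑ i, ‖Φ i‖) * R * ‖ξ‖ :=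
    (ghh_lin_norm_le Φ σ ξ).trans (by gcongr)
  refine (ghh_exp_affine_le hB hz h1).trans (le_of_eq ?_)
  rw [mul_assoc B]

/-- joint continuity in the standard deviations and the base point (degenerate ones included) -/
theorem ghh_heat_cont {F : Type} [NormedAddCommGroup F] [NormedSpace ℝ F] {u : V → F} (hc : Continuous u) (hg : GkGr u) (Φ : ι → V) :
    Continuous fun p : (ι → ℝ) × V => gkP (ghStd ι) (ghhLin Φ p.1) u p.2 := by
  obtain ⟨A, B, hA, hB, hAB⟩ := hg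
  rw [continuous_iff_continuousAt]
  intro p0
  unfold gkP
  refine continuousAt_of_dominated
    (bound := fun ξ => A * Real.exp (B * (‖p0.2‖ + 1)) * Real.exp (B * ((∑ i, ‖Φ i‖) * (‖p0.1‖ + 1)) * ‖ξ‖))
    (Eventually.of_forall fun p => ?_) ?_ ((ghh_integrable_exp_norm _).const_mul _) (Eventually.of_forall fun ξ => ?_)
  · exact (hc.comp (continuous_const.add ((ghh_lin_continuous Φ).comp (by fun_prop : Continuous fun ξ : ι → ℝ => (p.1, ξ))))).aestronglyMeasurable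
  · filter_upwards [Metric.closedBall_mem_nhds p0 one_pos] with p hp
    have hp' : ‖p - p0‖ ≤ 1 := by simpa [dist_eq_norm] using hp
    have h1 : ‖p.1 - p0.1‖ ≤ 1 := (norm_fst_le (p - p0)).trans hp'
    have h2 : ‖p.2 - p0.2‖ ≤ 1 := (norm_snd_le (p - p0)).trans hp'
    refine Eventually.of_forall fun ξ => ghh_dom hA hB hAB Φ ?_ ?_ ξ
    · have := norm_add_le p0.2 (p.2 - p0.2)
      rw [add_sub_cancel] at this
      linarith
    · have := norm_add_le p0.1 (p.1 - p0.1)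
      rw [add_sub_cancel] at this
      linarith
  · exact (hc.comp (continuous_snd.add ((ghh_lin_continuous Φ).comp (by fun_prop : Continuous fun p : (ι → ℝ) × V => (p.1, ξ))))).continuousAt

/-- **the derivative in the standard deviations** -/
theorem ghh_hasFDerivAt_sd {u : V → ℝ} (hu : GkEG 2 u) (Φ : ι → V) (z : V) (σ0 : ι → ℝ) :
    HasFDerivAt (fun σ : ι → ℝ => gkP (ghStd ι) (ghhLin Φ σ) u z)
      (∑ i, (σ0 i * gkP (ghStd ι) (ghhLin Φ σ0) (ghhD (Φ i) (ghhD (Φ i) u)) z) •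
        ContinuousLinearMap.proj (R := ℝ) (φ := fun _ : ι => ℝ) i) σ0 := by
  classical
  obtain ⟨A, B, hA, hB, hAB⟩ := GkEG.norm_fderiv_le (k := 1) hu
  have hcf : Continuous (fderiv ℝ u) := GkEG.continuous_fderiv (k := 1) hu
  have hd : Differentiable ℝ u := GkEG.differentiable (k := 1) hu
  set C : ℝ := ∑ i, ‖Φ i‖ with hC
  have hC0 : 0 ≤ C := Finset.sum_nonneg fun i _ => norm_nonneg _
  set F' : (ι → ℝ) → (ι → ℝ) → ((ι → ℝ) →L[ℝ] ℝ) := fun σ ξ => (fderiv ℝ u (z + ghhLin Φ σ ξ)).comp (ghhLinL Φ ξ) with hF'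
  set bound : (ι → ℝ) → ℝ := fun ξ => A * Real.exp (B * ‖z‖) * C * Real.exp ((B * (C * (‖σ0‖ + 1)) + 1) * ‖ξ‖) with hbound
  have hbi : Integrable bound (ghStd ι) := (ghh_integrable_exp_norm _).const_mul _
  have hb : ∀ ξ, ∀ σ ∈ Metric.closedBall σ0 1, ‖F' σ ξ‖ ≤ bound ξ := by
    intro ξ σ hσ
    have hσ' : ‖σ‖ ≤ ‖σ0‖ + 1 := by
      have h1 : ‖σ - σ0‖ ≤ 1 := by simpa [dist_eq_norm] using hσ
      have := norm_add_le σ0 (σ - σ0)
      rw [add_sub_cancel] at this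
      linarith
    have a1 := ghh_dom hA hB hAB Φ (le_refl ‖z‖) hσ' ξ
    have a2 : ‖ghhLinL Φ ξ‖ ≤ C * Real.exp ‖ξ‖ :=
      (ghh_linL_norm_le Φ ξ).trans (mul_le_mul_of_nonneg_left (by linarith [Real.add_one_le_exp ‖ξ‖]) hC0)
    calc ‖F' σ ξ‖ ≤ ‖fderiv ℝ u (z + ghhLin Φ σ ξ)‖ * ‖ghhLinL Φ ξ‖ := ContinuousLinearMap.opNorm_comp_le _ _
      _ ≤ (A * Real.exp (B * ‖z‖) * Real.exp (B * (C * (‖σ0‖ + 1)) * ‖ξ‖)) * (C * Real.exp ‖ξ‖) :=
          mul_le_mul a1 a2 (norm_nonneg _) (by positivity)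
      _ = bound ξ := by
          simp only [hbound]
          rw [add_mul, one_mul, Real.exp_add]
          ring
  have hF'c : Continuous (F' σ0) := by
    refine continuous_clm_apply.2 fun τ => ?_
    have e : (fun ξ => F' σ0 ξ τ) = fun ξ => fderiv ℝ u (z + ghhLin Φ σ0 ξ) (ghhLin Φ ξ τ) := by
      funext ξ
      simp only [hF', ContinuousLinearMap.comp_apply, ghhLinL_apply]
    rw [e]
    exact (hcf.comp (continuous_const.add ((ghh_lin_continuous Φ).comp (by fun_prop : Continuous fun ξ : ι → ℝ => (σ0, ξ))))).clm_apply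
      ((ghh_lin_continuous Φ).comp (by fun_prop : Continuous fun ξ : ι → ℝ => (ξ, τ)))
  have hF'i : Integrable (F' σ0) (ghStd ι) :=
    hbi.mono' hF'c.aestronglyMeasurable (Eventually.of_forall fun ξ => hb ξ σ0 (Metric.mem_closedBall_self zero_le_one))
  have key : HasFDerivAt (fun σ : ι → ℝ => ∫ ξ, u (z + ghhLin Φ σ ξ) ∂ghStd ι) (∫ ξ, F' σ0 ξ ∂ghStd ι) σ0 := by
    refine hasFDerivAt_integral_of_dominated_of_fderiv_le (s := Metric.closedBall σ0 1) (bound := bound) (F' := F')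
      (Metric.closedBall_mem_nhds σ0 one_pos) (Eventually.of_forall fun σ => gk_aesm (ghh_noise Φ σ) hd.continuous z)
      (gk_int (ghh_noise Φ σ0) hd.continuous hu.gr z) hF'c.aestronglyMeasurable (Eventually.of_forall hb) hbi
      (Eventually.of_forall fun ξ σ _ => ?_)
    have := ghh_fderiv_comp_affine hd z (ghhLinL Φ ξ) σ
    simp only [ghhLinL_apply, ghh_lin_comm Φ ξ] at this
    exact this
  unfold gkP
  refine key.congr_fderiv (ContinuousLinearMap.ext fun τ => ?_)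
  rw [ContinuousLinearMap.integral_apply hF'i]
  -- the value of the derivative
  have hw : ∀ i, GkEG 1 (fun ξ => ghhD (Φ i) u (z + ghhLinL Φ σ0 ξ)) := fun i => (GkEG.dir (k := 1) hu (Φ i)).comp_affine z _
  have e1 : ∀ ξ, F' σ0 ξ τ = ∑ i, τ i * (ξ i * ghhD (Φ i) u (z + ghhLinL Φ σ0 ξ)) := by
    intro ξ
    simp only [hF', ContinuousLinearMap.comp_apply, ghhLinL_apply, ghhD]
    rw [show ghhLin Φ ξ τ = ∑ i, (ξ i * τ i) • Φ i from rfl, map_sum]
    refine Finset.sum_congr rfl fun i _ => ?_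
    rw [map_smul, smul_eq_mul]
    ring
  have e2 : ∀ i, ∫ ξ, ξ i * ghhD (Φ i) u (z + ghhLinL Φ σ0 ξ) ∂ghStd ι
      = σ0 i * ∫ ξ, ghhD (Φ i) (ghhD (Φ i) u) (z + ghhLin Φ σ0 ξ) ∂ghStd ι := by
    intro i
    rw [ghh_ibp_coord (hw i) i, ← integral_const_mul]
    refine integral_congr_ae (Eventually.of_forall fun ξ => ?_)
    simp only
    rw [(ghh_fderiv_comp_affine (GkEG.differentiable (k := 0) (GkEG.dir (k := 1) hu (Φ i))) z (ghhLinL Φ σ0) ξ).fderiv,
      ContinuousLinearMap.comp_apply, ghhLinL_apply, ghhLinL_apply, ghh_lin_single, map_smul, smul_eq_mul]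
    rfl
  have hi : ∀ i ∈ Finset.univ, Integrable (fun ξ => τ i * (ξ i * ghhD (Φ i) u (z + ghhLinL Φ σ0 ξ))) (ghStd ι) := by
    intro i _
    have h1 : GkEG 0 (fun ξ : ι → ℝ => ξ i) := ghh_eg_clm 0 (ContinuousLinearMap.proj (R := ℝ) (φ := fun _ : ι => ℝ) i)
    exact ((h1.mul ((hw i).mono (Nat.zero_le _))).integrable).const_mul _
  rw [integral_congr_ae (Eventually.of_forall e1), integral_finsetSum _ hi]
  simp only [integral_const_mul, e2, _root_.sum_apply, _root_.smul_apply, ContinuousLinearMap.proj_apply, smul_eq_mul]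
  exact Finset.sum_congr rfl fun i _ => by ring

/-- **the master formula**: any differentiable path of standard deviations -/
theorem ghh_path {u : V → ℝ} (hu : GkEG 2 u) (Φ : ι → V) (z : V) {σ : ℝ → ι → ℝ} {σ' : ι → ℝ} {t0 : ℝ}
    (hσ : ∀ i, HasDerivAt (fun t => σ t i) (σ' i) t0) :
    HasDerivAt (fun t => gkP (ghStd ι) (ghhLin Φ (σ t)) u z)
      (∑ i, σ' i * σ t0 i * gkP (ghStd ι) (ghhLin Φ (σ t0)) (ghhD (Φ i) (ghhD (Φ i) u)) z) t0 := by
  have h1 : HasDerivAt σ σ' t0 := hasDerivAt_pi.2 hσ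
  have h2 := (ghh_hasFDerivAt_sd hu Φ z (σ t0)).comp_hasDerivAt t0 h1
  refine h2.congr_deriv ?_
  simp only [_root_.sum_apply, _root_.smul_apply, ContinuousLinearMap.proj_apply, smul_eq_mul]
  exact Finset.sum_congr rfl fun i _ => by ring

/-- **paths of VARIANCES**: every coordinate either has a positive variance at `t0`, or does not move near `t0` -/
theorem ghh_path_var {u : V → ℝ} (hu : GkEG 2 u) (Φ : ι → V) (z : V) {c : ℝ → ι → ℝ} {c' : ι → ℝ} {t0 : ℝ}
    (hc : ∀ i, (0 < c t0 i ∧ HasDerivAt (fun t => c t i) (c' i) t0) ∨ (c' i = 0 ∧ ∀ᶠ t in 𝓝 t0, c t i = c t0 i)) :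
    HasDerivAt (fun t => gkP (ghStd ι) (ghhLin Φ fun i => Real.sqrt (c t i)) u z)
      (1 / 2 * ∑ i, c' i * gkP (ghStd ι) (ghhLin Φ fun i => Real.sqrt (c t0 i)) (ghhD (Φ i) (ghhD (Φ i) u)) z) t0 := by
  have h1 : ∀ i, HasDerivAt (fun t => Real.sqrt (c t i)) (c' i / (2 * Real.sqrt (c t0 i))) t0 := by
    intro i
    rcases hc i with ⟨hp, hd⟩ | ⟨h0, he⟩
    · exact hd.sqrt hp.ne'
    · rw [h0, zero_div]
      refine (hasDerivAt_const t0 (Real.sqrt (c t0 i))).congr_of_eventuallyEq ?_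
      filter_upwards [he] with t ht
      rw [ht]
  refine (ghh_path hu Φ z (σ := fun t i => Real.sqrt (c t i)) h1).congr_deriv ?_
  rw [Finset.mul_sum]
  refine Finset.sum_congr rfl fun i _ => ?_
  rcases hc i with ⟨hp, -⟩ | ⟨h0, -⟩
  · have : Real.sqrt (c t0 i) ≠ 0 := (Real.sqrt_pos.2 hp).ne'
    field_simp
  · rw [h0]
    ring

/-- **the heat equation along a line of variances** `c + t dv` -/
theorem ghh_heat_line {u : V → ℝ} (hu : GkEG 2 u) (Φ : ι → V) (z : V) (c dv : ι → ℝ) {t : ℝ}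
    (hpos : ∀ i, dv i ≠ 0 → 0 < c i + t * dv i) :
    HasDerivAt (fun t => gkP (ghStd ι) (ghhLin Φ fun i => Real.sqrt (c i + t * dv i)) u z)
      (1 / 2 * ∑ i, dv i * gkP (ghStd ι) (ghhLin Φ fun i => Real.sqrt (c i + t * dv i)) (ghhD (Φ i) (ghhD (Φ i) u)) z) t := by
  refine ghh_path_var hu Φ z (c := fun t i => c i + t * dv i) fun i => ?_
  by_cases h : dv i = 0
  · exact Or.inr ⟨h, Eventually.of_forall fun t => by simp [h]⟩
  · refine Or.inl ⟨hpos i h, ?_⟩
    simpa using ((hasDerivAt_id t).mul_const (dv i)).const_add (c i)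

/-- continuity along continuous paths of variances -/
theorem ghh_cont_var {F : Type} [NormedAddCommGroup F] [NormedSpace ℝ F] {u : V → F} (hc : Continuous u) (hg : GkGr u) (Φ : ι → V) (z : V)
    {X : Type} [TopologicalSpace X] {c : X → ι → ℝ} {s : Set X} (hcc : ∀ i, ContinuousOn (fun t => c t i) s) :
    ContinuousOn (fun t => gkP (ghStd ι) (ghhLin Φ fun i => Real.sqrt (c t i)) u z) s := by
  have h1 : ContinuousOn (fun t => ((fun i => Real.sqrt (c t i)), z) : X → (ι → ℝ) × V) s :=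
    (continuousOn_pi.2 fun i => Real.continuous_sqrt.comp_continuousOn (hcc i)).prodMk continuousOn_const
  exact (ghh_heat_cont hc hg Φ).comp_continuousOn h1

/-- **integrated form** along a path of variances, degenerate end points allowed -/
theorem ghh_var_sub {u : V → ℝ} (hu : GkEG 2 u) (Φ : ι → V) (z : V) {c c' : ℝ → ι → ℝ} {s t : ℝ} (hst : s ≤ t)
    (hcc : ∀ i, ContinuousOn (fun r => c r i) (Icc s t)) (hcc' : ∀ i, ContinuousOn (fun r => c' r i) (Icc s t))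
    (hc : ∀ r ∈ Ioo s t, ∀ i, (0 < c r i ∧ HasDerivAt (fun r => c r i) (c' r i) r) ∨ (c' r i = 0 ∧ ∀ᶠ q in 𝓝 r, c q i = c r i)) :
    gkP (ghStd ι) (ghhLin Φ fun i => Real.sqrt (c t i)) u z - gkP (ghStd ι) (ghhLin Φ fun i => Real.sqrt (c s i)) u z
      = ∫ r in s..t, 1 / 2 * ∑ i, c' r i * gkP (ghStd ι) (ghhLin Φ fun i => Real.sqrt (c r i)) (ghhD (Φ i) (ghhD (Φ i) u)) z := by
  have h2 : ∀ i, GkEG 0 (ghhD (Φ i) (ghhD (Φ i) u)) := fun i => GkEG.dir (k := 0) (GkEG.dir (k := 1) hu (Φ i)) (Φ i)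
  have hc1 := ghh_cont_var hu.continuous hu.gr Φ z hcc
  have hc2 : ContinuousOn (fun r => 1 / 2 * ∑ i, c' r i * gkP (ghStd ι) (ghhLin Φ fun i => Real.sqrt (c r i)) (ghhD (Φ i) (ghhD (Φ i) u)) z)
      (Icc s t) :=
    continuousOn_const.mul (continuousOn_finsetSum _ fun i _ => (hcc' i).mul (ghh_cont_var (h2 i).continuous (h2 i).gr Φ z hcc))
  exact (intervalIntegral.integral_eq_sub_of_hasDerivAt_of_le hst hc1 (fun r hr => ghh_path_var hu Φ z (hc r hr))
    ((by rwa [uIcc_of_le hst] : ContinuousOn _ (uIcc s t)).intervalIntegrable)).symm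

/-- **integrated heat equation** on `[s, t]`;  the moving variances are positive INSIDE the interval only -/
theorem ghh_heat_sub {u : V → ℝ} (hu : GkEG 2 u) (Φ : ι → V) (z : V) (c dv : ι → ℝ) {s t : ℝ} (hst : s ≤ t)
    (hpos : ∀ r ∈ Ioo s t, ∀ i, dv i ≠ 0 → 0 < c i + r * dv i) :
    gkP (ghStd ι) (ghhLin Φ fun i => Real.sqrt (c i + t * dv i)) u z - gkP (ghStd ι) (ghhLin Φ fun i => Real.sqrt (c i + s * dv i)) u z
      = ∫ r in s..t, 1 / 2 * ∑ i, dv i * gkP (ghStd ι) (ghhLin Φ fun i => Real.sqrt (c i + r * dv i)) (ghhD (Φ i) (ghhD (Φ i) u)) z := by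
  refine ghh_var_sub hu Φ z (c := fun r i => c i + r * dv i) (c' := fun _ i => dv i) hst (fun i => by fun_prop) (fun i => continuousOn_const)
    fun r hr i => ?_
  by_cases h : dv i = 0
  · exact Or.inr ⟨h, Eventually.of_forall fun t => by simp [h]⟩
  · refine Or.inl ⟨hpos r hr i h, ?_⟩
    simpa using ((hasDerivAt_id r).mul_const (dv i)).const_add (c i)

/-- no noise -/
theorem ghh_P_zero {F : Type} [NormedAddCommGroup F] [NormedSpace ℝ F] [CompleteSpace F] (u : V → F) (Φ : ι → V) (z : V) :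
    gkP (ghStd ι) (ghhLin Φ fun _ => 0) u z = u z := by
  simp only [gkP, ghhLin, zero_mul, zero_smul, Finset.sum_const_zero, add_zero, integral_const, probReal_univ, one_smul]

/-- the smoothing commutes with directional derivatives -/
theorem ghh_D_P {Ω : Type} [MeasurableSpace Ω] {μ : Measure Ω} {a : Ω → V} (hn : GkNoise μ a) {k : ℕ} {u : V → ℝ} (hu : GkEG (k + 1) u) (v : V) :
    ghhD v (gkP μ a u) = gkP μ a (ghhD v u) := by
  funext z
  unfold ghhD
  rw [gk_P_fderiv hn hu]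
  unfold gkP
  exact ContinuousLinearMap.integral_apply (gk_int hn hu.fderiv.continuous hu.gr_fderiv z) v

/-- the smoothing preserves the class -/
theorem GkEG.P {Ω : Type} [MeasurableSpace Ω] {μ : Measure Ω} {a : Ω → V} (hn : GkNoise μ a) {F : Type} [NormedAddCommGroup F] [NormedSpace ℝ F]
    {k : ℕ} {u : V → F} (hu : GkEG k u) : GkEG k (gkP μ a u) := by
  obtain ⟨A, B, hA, hB, hAB⟩ := hu.bound
  obtain ⟨h1, h2⟩ := gk_P_main hn k hu
  refine ghh_eg_mk h1 (A * ∫ o, Real.exp (B * ‖a o‖) ∂μ) B fun j hj z => (h2 j hj z).trans ?_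
  have h3 : ∀ o, ‖iteratedFDeriv ℝ j u (z + a o)‖ ≤ A * Real.exp (B * ‖z‖) * Real.exp (B * ‖a o‖) := fun o => by
    rw [mul_assoc]
    exact (hAB j hj _).trans (mul_le_mul_of_nonneg_left (ghh_exp_affine_le hB le_rfl le_rfl) hA)
  have hcj : Continuous (iteratedFDeriv ℝ j u) := hu.1.continuous_iteratedFDeriv (by exact_mod_cast hj)
  refine (integral_mono_of_nonneg (Eventually.of_forall fun o => norm_nonneg _) ((hn.expInt B).const_mul _) (Eventually.of_forall h3)).trans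
    (le_of_eq ?_)
  rw [integral_const_mul]
  ring

/-- the smoothing preserves the class, with constants UNIFORM over bounded sets of standard deviations -/
theorem ghh_P_bound {F : Type} [NormedAddCommGroup F] [NormedSpace ℝ F] {k : ℕ} {u : V → F} (hu : GkEG k u) {A B : ℝ} (hA : 0 ≤ A) (hB : 0 ≤ B)
    (hAB : ∀ j : ℕ, j ≤ k → ∀ x, ‖iteratedFDeriv ℝ j u x‖ ≤ A * Real.exp (B * ‖x‖)) (Φ : ι → V) {R : ℝ} {σ : ι → ℝ} (hσ : ‖σ‖ ≤ R)
    {j : ℕ} (hj : j ≤ k) (z : V) :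
    ‖iteratedFDeriv ℝ j (gkP (ghStd ι) (ghhLin Φ σ) u) z‖
      ≤ A * (∫ ξ, Real.exp (B * ((∑ i, ‖Φ i‖) * R) * ‖ξ‖) ∂ghStd ι) * Real.exp (B * ‖z‖) := by
  refine ((gk_P_main (ghh_noise Φ σ) k hu).2 j hj z).trans ?_
  refine (integral_mono_of_nonneg (Eventually.of_forall fun o => norm_nonneg _) ((ghh_integrable_exp_norm _).const_mul _)
    (Eventually.of_forall fun ξ => ghh_dom hA hB (hAB j hj) Φ (le_refl ‖z‖) hσ ξ)).trans (le_of_eq ?_)
  rw [integral_const_mul]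
  ring

/-- the same, existential form: ONE pair of constants for all `‖σ‖ ≤ R` -/
theorem GkEG.P_unif {F : Type} [NormedAddCommGroup F] [NormedSpace ℝ F] {k : ℕ} {u : V → F} (hu : GkEG k u) (Φ : ι → V) (R : ℝ) :
    ∃ A B : ℝ, 0 ≤ A ∧ 0 ≤ B ∧ ∀ σ : ι → ℝ, ‖σ‖ ≤ R → ∀ j : ℕ, j ≤ k → ∀ z,
      ‖iteratedFDeriv ℝ j (gkP (ghStd ι) (ghhLin Φ σ) u) z‖ ≤ A * Real.exp (B * ‖z‖) := by
  obtain ⟨A, B, hA, hB, hAB⟩ := hu.bound
  exact ⟨A * ∫ ξ, Real.exp (B * ((∑ i, ‖Φ i‖) * R) * ‖ξ‖) ∂ghStd ι, B,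
    mul_nonneg hA (integral_nonneg fun ξ => (Real.exp_pos _).le), hB, fun σ hσ j hj z => ghh_P_bound hu hA hB hAB Φ hσ hj z⟩

/-- continuity along continuous paths of standard deviations and base points -/
theorem ghh_cont_sd {F : Type} [NormedAddCommGroup F] [NormedSpace ℝ F] {u : V → F} (hc : Continuous u) (hg : GkGr u) (Φ : ι → V)
    {X : Type} [TopologicalSpace X] {σ : X → ι → ℝ} {z : X → V} {s : Set X} (hσ : ∀ i, ContinuousOn (fun t => σ t i) s) (hz : ContinuousOn z s) :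
    ContinuousOn (fun t => gkP (ghStd ι) (ghhLin Φ (σ t)) u (z t)) s :=
  (ghh_heat_cont hc hg Φ).comp_continuousOn ((continuousOn_pi.2 hσ).prodMk hz)

end heat

end Claimed.Agent.R286
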