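import Claimed.Agent.R286.Gk.Split

/-!
# Row 286 (S0533), Gaussian kit on `Defs/Gh.lean`: MERGE / SPLIT for `ghA, ghE, ghC, ghH` and for the RAW TREE LAW on spin tests      (owner helper135; prefix `ghs_`, `Ghs`, `ghs*`; sorry free)

* Part C: `ghs_A_merge`, `ghs_A_congr`, `ghs_A_empty`; `GhsEq B X Y` (same `ghF`, `ghE`, `ghH`, hence `ghC`), closed under a common prefix (`GhsEq.append`);
  `ghs_eq_merge` (equal masses), `ghs_eq_split` (intermediate cut), `ghs_eq_empty`, `ghs_eq_cov_congr` (masses + covariance increments only; drivers may differ).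
* Part D: `ghsAT` one revelation of the tree law as an operator, `ghsN` = `ghNu` on a spin test as a function of the revealed fields;
  `ghs_N_continuous`, `ghs_N_abs_le`; laws of `q` independent increments (`ghs_law_pi_add`, `ghs_integral_pi_merge`);
  **`ghs_N_merge`** : `ghsN B (pre ++ l₁ :: l₂ :: ls) (ghsDbl pre.length rep) P = ghsN B (pre ++ l :: ls) rep P`.
-/

set_option autoImplicit false
set_option linter.unusedSectionVars false

namespace Claimed.Agent.R286

open MeasureTheory ProbabilityTheory Filter Topology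
open scoped ENNReal NNReal

variable {S ι ι₁ ι₂ : Type} [Fintype S] [Fintype ι] [Fintype ι₁] [Fintype ι₂]

/-! ### Part C: planted averages, `ghE`, `ghC`, `ghH` -/

/-- the planted density as a function of the field increment -/
noncomputable def ghsDx (B : GhB S) (l : GhLv S ι) (ls : List (GhLv S ι)) (z x : S → ℝ) : ℝ :=
  Real.exp (l.m * (ghF B ls (z + x) - ghF B (l :: ls) z))

theorem ghs_D_eq_Dx (B : GhB S) (l : GhLv S ι) (ls : List (GhLv S ι)) (z : S → ℝ) (ξ : ι → ℝ) :
    ghD B l ls z ξ = ghsDx B l ls z (l.inc ξ) := rfl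

theorem ghs_Dx_measurable {B : GhB S} (hB : B.Ok) (l : GhLv S ι) (ls : List (GhLv S ι)) (z : S → ℝ) :
    Measurable (ghsDx B l ls z) := by
  unfold ghsDx
  exact Real.measurable_exp.comp (measurable_const.mul
    (((ghs_F_measurable hB ls).comp (measurable_const.add measurable_id)).sub measurable_const))

/-- the density depends on the tail through its continuation only -/
theorem ghs_D_tail_congr (B : GhB S) (p : GhLv S ι) {X Y : List (GhLv S ι)} (h : ghF B X = ghF B Y) :
    ghD B p X = ghD B p Y := by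
  funext z ξ
  simp only [ghD, ghF, h]

/-- product of two successive planted densities of the same mass -/
theorem ghs_D_mul {B : GhB S} (hB : B.Ok) (l₁ l₂ l : GhLv S ι) (ls : List (GhLv S ι))
    (hm₁ : l₁.m = l.m) (hm₂ : l₂.m = l.m) (hc : ∀ s t, l.cov s t = l₁.cov s t + l₂.cov s t)
    (z : S → ℝ) (ξ₁ ξ₂ : ι → ℝ) :
    ghD B l₁ (l₂ :: ls) z ξ₁ * ghD B l₂ ls (z + l₁.inc ξ₁) ξ₂ = ghsDx B l ls z (l₁.inc ξ₁ + l₂.inc ξ₂) := by
  unfold ghD ghsDx
  rw [← Real.exp_add, hm₁, hm₂, ghs_F_merge hB l₁ l₂ l ls hm₁ hm₂ hc, add_assoc]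
  congr 1
  ring

/-- the planted average depends on the level through its mass and covariance increment only -/
theorem ghs_A_congr {B : GhB S} (hB : B.Ok) (l l' : GhLv S ι) (ls : List (GhLv S ι))
    (hm : l.m = l'.m) (hc : ∀ s t, l.cov s t = l'.cov s t) (g : (S → ℝ) → ℝ) (hg : Measurable g) :
    ghA B l ls g = ghA B l' ls g := by
  funext z
  unfold ghA
  have e : ∀ x, ghsDx B l ls z x = ghsDx B l' ls z x := by
    intro x; unfold ghsDx; rw [ghs_F_congr hB l l' ls hm hc, hm]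
  have := ghs_integral_congr l l' hc (fun x => ghsDx B l ls z x * g (z + x))
    ((ghs_Dx_measurable hB l ls z).mul (hg.comp (measurable_const.add measurable_id)))
  simp only [ghs_D_eq_Dx]
  rw [this]
  simp_rw [e]

/-- **merge of two planted averages of the same mass** -/
theorem ghs_A_merge {B : GhB S} (hB : B.Ok) (l₁ l₂ l : GhLv S ι) (ls : List (GhLv S ι)) (h : GhNn (l :: ls))
    (hm₁ : l₁.m = l.m) (hm₂ : l₂.m = l.m) (hc : ∀ s t, l.cov s t = l₁.cov s t + l₂.cov s t)
    {g : (S → ℝ) → ℝ} {M : ℝ} (hg : GhBC g M) :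
    ghA B l₁ (l₂ :: ls) (ghA B l₂ ls g) = ghA B l ls g := by
  funext z
  unfold ghA
  simp_rw [← integral_const_mul, ← mul_assoc, ghs_D_mul hB l₁ l₂ l ls hm₁ hm₂ hc, add_assoc]
  exact ghs_integral_merge l₁ l₂ l hc (fun x => ghsDx B l ls z x * g (z + x))
    ((ghs_Dx_measurable hB l ls z).mul (hg.cont.measurable.comp (measurable_const.add measurable_id)))
    (gh_b_A_integrable hB h hg z)

/-- a level with zero covariance increment acts trivially -/
theorem ghs_inc_zero (l : GhLv S ι) (h0 : ∀ s, l.cov s s = 0) (ξ : ι → ℝ) : l.inc ξ = 0 := by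
  have hA : ∀ s i, l.A s i = 0 := by
    intro s i
    have := h0 s
    unfold GhLv.cov at this
    have h2 := (Finset.sum_eq_zero_iff_of_nonneg (fun i _ => mul_self_nonneg (l.A s i))).1 this i (Finset.mem_univ i)
    exact mul_self_eq_zero.1 h2
  funext s; simp [GhLv.inc, hA]

theorem ghs_D_empty (B : GhB S) (l : GhLv S ι) (ls : List (GhLv S ι)) (h0 : ∀ s, l.cov s s = 0)
    (z : S → ℝ) (ξ : ι → ℝ) : ghD B l ls z ξ = 1 := by
  unfold ghD
  rw [ghs_inc_zero l h0, add_zero, ghs_F_empty B l ls h0]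
  simp

theorem ghs_A_empty (B : GhB S) (l : GhLv S ι) (ls : List (GhLv S ι)) (h0 : ∀ s, l.cov s s = 0)
    (g : (S → ℝ) → ℝ) : ghA B l ls g = g := by
  funext z
  unfold ghA
  simp_rw [ghs_D_empty B l ls h0, ghs_inc_zero l h0]
  simp

/-- expanded form of the recursion of the Hessian -/
theorem ghs_H_expand {B : GhB S} (hB : B.Ok) (v w : S → ℝ) {l : GhLv S ι} {ls : List (GhLv S ι)}
    (h : GhNn (l :: ls)) (z : S → ℝ) :
    ghH B (l :: ls) v w z = ghA B l ls (fun y => ghH B ls v w y + l.m * (ghE B ls v y * ghE B ls w y)) z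
      - l.m * (ghE B (l :: ls) v z * ghE B (l :: ls) w z) := by
  obtain ⟨M, hM⟩ := gh_b_H_bc hB v w h.tail
  rw [gh_b_H_cons]
  set ev := ghE B (l :: ls) v z with hev
  set ew := ghE B (l :: ls) w z with hew
  have bv := gh_b_E_bc' hB v h.tail
  have bw := gh_b_E_bc' hB w h.tail
  have e1 : (fun y => ghH B ls v w y + l.m * ghQ B l ls v w z y)
      = fun y => (ghH B ls v w y + l.m * (ghE B ls v y * ghE B ls w y))
        - ((l.m * ev) * ghE B ls w y + (l.m * ew) * ghE B ls v y) + l.m * (ev * ew) := by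
    funext y
    simp only [ghQ, ← hev, ← hew]
    ring
  have b1 := hM.add ((bv.mul bw).const_mul l.m)
  have b2 := bw.const_mul (l.m * ev)
  have b3 := bv.const_mul (l.m * ew)
  rw [e1, gh_b_A_add hB h (b1.sub (b2.add b3)) (gh_b_bc_const _),
    gh_b_A_sub hB h b1 (b2.add b3), gh_b_A_add hB h b2 b3, gh_b_A_const_mul,
    gh_b_A_const_mul, gh_b_A_const hB h, ← gh_b_E_cons, ← gh_b_E_cons, ← hev, ← hew]
  ring

/-- two hierarchies (possibly with different drivers) with the same continuation, planted means and Hessians -/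
structure GhsEq (B : GhB S) (X : List (GhLv S ι)) (Y : List (GhLv S ι₁)) : Prop where
  F : ghF B X = ghF B Y
  E : ∀ Φ, ghE B X Φ = ghE B Y Φ
  H : ∀ v w, ghH B X v w = ghH B Y v w

theorem GhsEq.C {B : GhB S} {X : List (GhLv S ι)} {Y : List (GhLv S ι₁)} (h : GhsEq B X Y) (v w : S → ℝ) :
    ghC B X v w = ghC B Y v w := by
  funext z
  simp only [ghC, h.E]

theorem ghs_eq_refl (B : GhB S) (X : List (GhLv S ι)) : GhsEq B X X := ⟨rfl, fun _ => rfl, fun _ _ => rfl⟩

theorem GhsEq.symm {B : GhB S} {X : List (GhLv S ι)} {Y : List (GhLv S ι₁)} (h : GhsEq B X Y) : GhsEq B Y X :=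
  ⟨h.F.symm, fun Φ => (h.E Φ).symm, fun v w => (h.H v w).symm⟩

theorem GhsEq.trans {B : GhB S} {X : List (GhLv S ι)} {Y : List (GhLv S ι₁)} {Z : List (GhLv S ι₂)}
    (h : GhsEq B X Y) (h' : GhsEq B Y Z) : GhsEq B X Z :=
  ⟨h.F.trans h'.F, fun Φ => (h.E Φ).trans (h'.E Φ), fun v w => (h.H v w).trans (h'.H v w)⟩

/-- the same level in front -/
theorem GhsEq.cons {B : GhB S} {X Y : List (GhLv S ι)} (h : GhsEq B X Y) (p : GhLv S ι) :
    GhsEq B (p :: X) (p :: Y) := by
  have hF : ghF B (p :: X) = ghF B (p :: Y) := ghs_F_append_congr B [p] h.F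
  have hD := ghs_D_tail_congr B p h.F
  have hE : ∀ Φ, ghE B (p :: X) Φ = ghE B (p :: Y) Φ := by
    intro Φ; funext z; simp only [ghE, hD, h.E]
  refine ⟨hF, hE, fun v w => ?_⟩
  funext z
  simp only [ghH, hD, h.E, h.H, hE]

theorem GhsEq.append {B : GhB S} {X Y : List (GhLv S ι)} (h : GhsEq B X Y) (pre : List (GhLv S ι)) :
    GhsEq B (pre ++ X) (pre ++ Y) := by
  induction pre with
  | nil => exact h
  | cons p pre ih => exact ih.cons p

/-- **merge of two revelations of the same mass** -/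
theorem ghs_eq_merge {B : GhB S} (hB : B.Ok) (l₁ l₂ l : GhLv S ι) (ls : List (GhLv S ι)) (h : GhNn (l :: ls))
    (hm₁ : l₁.m = l.m) (hm₂ : l₂.m = l.m) (hc : ∀ s t, l.cov s t = l₁.cov s t + l₂.cov s t) :
    GhsEq B (l₁ :: l₂ :: ls) (l :: ls) := by
  have h2 : GhNn (l₂ :: ls) := by
    intro x hx
    rcases List.mem_cons.1 hx with rfl | hx
    · rw [hm₂]; exact h.head
    · exact h.tail x hx
  have h1 : GhNn (l₁ :: l₂ :: ls) := by
    intro x hx
    rcases List.mem_cons.1 hx with rfl | hx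
    · rw [hm₁]; exact h.head
    · exact h2 x hx
  have hE : ∀ Φ, ghE B (l₁ :: l₂ :: ls) Φ = ghE B (l :: ls) Φ := by
    intro Φ
    rw [gh_b_E_cons, gh_b_E_cons, gh_b_E_cons]
    exact ghs_A_merge hB l₁ l₂ l ls h hm₁ hm₂ hc (gh_b_E_bc' hB Φ h.tail)
  refine ⟨ghs_F_merge hB l₁ l₂ l ls hm₁ hm₂ hc, hE, fun v w => ?_⟩
  funext z
  obtain ⟨M, hM⟩ := gh_b_H_bc hB v w h.tail
  have bK := hM.add (((gh_b_E_bc' hB v h.tail).mul (gh_b_E_bc' hB w h.tail)).const_mul l.m)
  have e2 : (fun y => ghH B (l₂ :: ls) v w y + l₁.m * (ghE B (l₂ :: ls) v y * ghE B (l₂ :: ls) w y))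
      = ghA B l₂ ls fun y => ghH B ls v w y + l.m * (ghE B ls v y * ghE B ls w y) := by
    funext y
    rw [ghs_H_expand hB v w h2 y, hm₁, hm₂]
    ring
  rw [ghs_H_expand hB v w h1 z, ghs_H_expand hB v w h z, e2, ghs_A_merge hB l₁ l₂ l ls h hm₁ hm₂ hc bK, hE, hE, hm₁]

/-- an empty revelation may be deleted -/
theorem ghs_eq_empty (B : GhB S) (l : GhLv S ι) (ls : List (GhLv S ι)) (h0 : ∀ s, l.cov s s = 0) :
    GhsEq B (l :: ls) ls := by
  have hE : ∀ Φ, ghE B (l :: ls) Φ = ghE B ls Φ := fun Φ => by rw [gh_b_E_cons, ghs_A_empty B l ls h0]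
  refine ⟨ghs_F_empty B l ls h0, hE, fun v w => ?_⟩
  funext z
  rw [gh_b_H_cons, ghs_A_empty B l ls h0]
  simp [ghQ, hE]

/-- an intermediate cut -/
theorem ghs_eq_split {B : GhB S} (hB : B.Ok) (l : GhLv S ι) (ls : List (GhLv S ι)) (h : GhNn (l :: ls))
    {θ : ℝ} (h0 : 0 ≤ θ) (h1 : θ ≤ 1) : GhsEq B (ghsSplit θ l ++ ls) (l :: ls) := by
  refine ghs_eq_merge hB (ghsScale (Real.sqrt θ) l) (ghsScale (Real.sqrt (1 - θ)) l) l ls h rfl rfl (fun s t => ?_)
  rw [ghs_scale_cov, ghs_scale_cov, Real.sq_sqrt h0, Real.sq_sqrt (by linarith)]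
  ring


/-- levels with the same mass and covariance increment in front (the drivers may differ) -/
theorem GhsEq.cons_same {B : GhB S} (hB : B.Ok) {X : List (GhLv S ι)} {Y : List (GhLv S ι₁)} (h : GhsEq B X Y)
    (hY : GhNn Y) {l : GhLv S ι} {l' : GhLv S ι₁} (hl : GhsSame l l') : GhsEq B (l :: X) (l' :: Y) := by
  have hF : ghF B (l :: X) = ghF B (l' :: Y) := by
    funext z
    simp only [ghF]
    rw [h.F]
    exact ghs_T_congr l l' hl.1 hl.2 _ (ghs_F_measurable hB Y) z
  have hD : ∀ z ξ, ghD B l X z ξ = ghsDx B l' Y z (l.inc ξ) := by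
    intro z ξ
    unfold ghD ghsDx
    rw [h.F, hF, hl.1]
  have hE : ∀ Φ, ghE B (l :: X) Φ = ghE B (l' :: Y) Φ := by
    intro Φ
    funext z
    simp only [ghE, hD, h.E, ghs_D_eq_Dx]
    exact ghs_integral_congr l l' hl.2 (fun x => ghsDx B l' Y z x * ghE B Y Φ (z + x))
      ((ghs_Dx_measurable hB l' Y z).mul
        ((gh_b_E_continuous hB Φ hY).measurable.comp (measurable_const.add measurable_id)))
  refine ⟨hF, hE, fun v w => ?_⟩
  funext z
  simp only [ghH, hD, h.E, h.H, hE, ghs_D_eq_Dx, hl.1]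
  have mE : ∀ Φ, Measurable fun x => ghE B Y Φ (z + x) := fun Φ =>
    (gh_b_E_continuous hB Φ hY).measurable.comp (measurable_const.add measurable_id)
  exact ghs_integral_congr l l' hl.2 (fun x => ghsDx B l' Y z x * (ghH B Y v w (z + x)
      + l'.m * ((ghE B Y v (z + x) - ghE B (l' :: Y) v z) * (ghE B Y w (z + x) - ghE B (l' :: Y) w z))))
    ((ghs_Dx_measurable hB l' Y z).mul
      (((gh_b_H_continuous hB v w hY).measurable.comp (measurable_const.add measurable_id)).add
        (measurable_const.mul (((mE v).sub measurable_const).mul ((mE w).sub measurable_const)))))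

/-- **everything depends on the levels through their masses and covariance increments only** -/
theorem ghs_eq_cov_congr {B : GhB S} (hB : B.Ok) {ls : List (GhLv S ι)} {ls' : List (GhLv S ι₁)}
    (h : List.Forall₂ GhsSame ls ls') (hnn : GhNn ls') : GhsEq B ls ls' := by
  induction h with
  | nil => exact ⟨rfl, fun _ => rfl, fun _ _ => rfl⟩
  | @cons l l' ls ls' hl _ ih => exact (ih hnn.tail).cons_same hB hnn.tail hl

/-! ### Part D: the raw tree law on spin tests -/

/-- one revelation of the tree law, as an operator on functions of the revealed fields -/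
noncomputable def ghsAT (B : GhB S) {q : ℕ} (l : GhLv S ι) (ls : List (GhLv S ι)) (r : Fin q → Fin q)
    (g : (Fin q → S → ℝ) → ℝ) (G : Fin q → S → ℝ) : ℝ :=
  ∫ W : Fin q → ι → ℝ, ghDT B l ls r G W * g (fun a => G a + l.inc (W (r a))) ∂(Measure.pi fun _ : Fin q => ghStd ι)

/-- the tree number of a spin test as a function of the revealed fields -/
noncomputable def ghsN (B : GhB S) {q : ℕ} (ls : List (GhLv S ι)) (rep : ℕ → Fin q → Fin q) (P : (Fin q → S) → ℝ)
    (G : Fin q → S → ℝ) : ℝ := ghNu B ls rep G fun _ σ => P σ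

theorem ghs_N_cons (B : GhB S) {q : ℕ} (l : GhLv S ι) (ls : List (GhLv S ι)) (rep : ℕ → Fin q → Fin q)
    (P : (Fin q → S) → ℝ) :
    ghsN B (l :: ls) rep P = ghsAT B l ls (rep 0) (ghsN B ls (fun t => rep (t + 1)) P) := rfl

theorem ghs_N_nil (B : GhB S) {q : ℕ} (rep : ℕ → Fin q → Fin q) (P : (Fin q → S) → ℝ) (G : Fin q → S → ℝ) :
    ghsN (ι := ι) B [] rep P G = ∑ σ : Fin q → S, (∏ a, ghGw B (G a) (σ a)) * P fun a => σ (rep 0 a) := rfl

section tree
variable {B : GhB S} (hB : B.Ok) {q : ℕ} {l : GhLv S ι} {ls : List (GhLv S ι)} (h : GhNn (l :: ls)) (r : Fin q → Fin q)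
include hB h

theorem ghs_DT_continuous_right (G : Fin q → S → ℝ) : Continuous (ghDT B l ls r G) := by
  unfold ghDT
  refine continuous_finsetProd _ fun a _ => ?_
  split_ifs
  · exact (gh_b_D_continuous hB h.tail l (G a)).comp (continuous_apply a)
  · exact continuous_const

theorem ghs_DT_continuous_left (W : Fin q → ι → ℝ) : Continuous fun G => ghDT B l ls r G W := by
  unfold ghDT
  refine continuous_finsetProd _ fun a _ => ?_
  split_ifs
  · exact (gh_b_D_continuous_left hB h (W a)).comp (continuous_apply a)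
  · exact continuous_const

theorem ghs_DT_le (G G₀ : Fin q → S → ℝ) (hG : ‖G - G₀‖ ≤ 1) (W : Fin q → ι → ℝ) :
    ghDT B l ls r G W ≤ Real.exp (2 * l.m) ^ q * ghDT B l ls r G₀ W := by
  unfold ghDT
  have h1 : (1 : ℝ) ≤ Real.exp (2 * l.m) := Real.one_le_exp (by have := h.head; positivity)
  calc ∏ a, (if r a = a then ghD B l ls (G a) (W a) else 1)
      ≤ ∏ a : Fin q, Real.exp (2 * l.m) * (if r a = a then ghD B l ls (G₀ a) (W a) else 1) := by
        refine Finset.prod_le_prod (fun a _ => ?_) fun a _ => ?_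
        · split_ifs
          · exact (gh_b_D_pos B l ls _ _).le
          · exact zero_le_one
        · split_ifs
          · refine (gh_b_D_le hB h (G a) (G₀ a) (W a)).trans ?_
            refine mul_le_mul_of_nonneg_right ?_ (gh_b_D_pos B l ls _ _).le
            apply Real.exp_le_exp.2
            have h2 : ‖G a - G₀ a‖ ≤ 1 := (norm_le_pi_norm (G - G₀) a).trans hG
            have hm := h.head
            nlinarith
          · simpa using h1
    _ = _ := by
        rw [Finset.prod_mul_distrib]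
        simp

theorem ghs_AT_integrable {g : (Fin q → S → ℝ) → ℝ} {M : ℝ} (hc : Continuous g) (hM : ∀ G, |g G| ≤ M)
    (G : Fin q → S → ℝ) :
    Integrable (fun W : Fin q → ι → ℝ => ghDT B l ls r G W * g (fun a => G a + l.inc (W (r a))))
      (Measure.pi fun _ : Fin q => ghStd ι) := by
  have hcont : Continuous fun W : Fin q → ι → ℝ => g (fun a => G a + l.inc (W (r a))) :=
    hc.comp (continuous_pi fun a => continuous_const.add ((gh_b_inc_continuous l).comp (continuous_apply (r a))))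
  refine ((gh_n_DT_integrable B hB l ls h r G).mul_const M).mono'
    ((ghs_DT_continuous_right hB h r G).mul hcont).aestronglyMeasurable (Eventually.of_forall fun W => ?_)
  rw [norm_mul, Real.norm_eq_abs, Real.norm_eq_abs, abs_of_nonneg (gh_n_DT_nonneg B l ls r G W)]
  exact mul_le_mul_of_nonneg_left (hM _) (gh_n_DT_nonneg B l ls r G W)

theorem ghs_AT_continuous {g : (Fin q → S → ℝ) → ℝ} {M : ℝ} (hc : Continuous g) (hM : ∀ G, |g G| ≤ M) :
    Continuous (ghsAT B l ls r g) := by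
  rw [continuous_iff_continuousAt]
  intro G₀
  unfold ghsAT
  refine continuousAt_of_dominated (bound := fun W => Real.exp (2 * l.m) ^ q * ghDT B l ls r G₀ W * M)
    (Eventually.of_forall fun G => (ghs_AT_integrable hB h r hc hM G).aestronglyMeasurable) ?_
    (((gh_n_DT_integrable B hB l ls h r G₀).const_mul _).mul_const M)
    (Eventually.of_forall fun W => ((ghs_DT_continuous_left hB h r W).mul
      (hc.comp (continuous_pi fun a => (continuous_apply a).add continuous_const))).continuousAt)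
  filter_upwards [Metric.ball_mem_nhds G₀ one_pos] with G hG
  refine Eventually.of_forall fun W => ?_
  rw [norm_mul, Real.norm_eq_abs, Real.norm_eq_abs, abs_of_nonneg (gh_n_DT_nonneg B l ls r G W)]
  refine mul_le_mul ?_ (hM _) (abs_nonneg _)
    (mul_nonneg (pow_nonneg (Real.exp_pos _).le _) (gh_n_DT_nonneg B l ls r G₀ W))
  exact ghs_DT_le hB h r G G₀ (by simpa [dist_eq_norm] using hG.le) W

end tree

/-- a bound of a spin test -/
theorem ghs_P_le {q : ℕ} (P : (Fin q → S) → ℝ) (σ : Fin q → S) : |P σ| ≤ ∑ τ, |P τ| :=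
  Finset.single_le_sum (f := fun τ => |P τ|) (fun _ _ => abs_nonneg _) (Finset.mem_univ σ)

theorem ghs_N_abs_le {B : GhB S} (hB : B.Ok) {q : ℕ} {ls : List (GhLv S ι)} (h : GhNn ls) (rep : ℕ → Fin q → Fin q)
    (P : (Fin q → S) → ℝ) (G : Fin q → S → ℝ) : |ghsN B ls rep P G| ≤ ∑ τ, |P τ| :=
  gh_n_abs_le B hB _ ls h rep G _ fun _ σ => ghs_P_le P σ

/-- **the tree number of a spin test is a continuous function of the revealed fields** -/
theorem ghs_N_continuous {B : GhB S} (hB : B.Ok) {q : ℕ} (P : (Fin q → S) → ℝ) :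
    ∀ {ls : List (GhLv S ι)}, GhNn ls → ∀ rep : ℕ → Fin q → Fin q, Continuous (ghsN B ls rep P)
  | [], _, rep => by
      have : ghsN (ι := ι) B [] rep P
          = fun G => ∑ σ : Fin q → S, (∏ a, ghGw B (G a) (σ a)) * P fun a => σ (rep 0 a) := by
        funext G; rfl
      rw [this]
      refine continuous_finsetSum _ fun σ _ => Continuous.mul ?_ continuous_const
      exact continuous_finsetProd _ fun a _ => (gh_b_Gw_continuous hB (σ a)).comp (continuous_apply a)
  | l :: ls, h, rep => by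
      rw [ghs_N_cons]
      exact ghs_AT_continuous hB h (rep 0) (ghs_N_continuous hB P h.tail _)
        (ghs_N_abs_le hB h.tail _ P)


/-! ### laws of `q` independent increments -/

theorem ghs_measurable_inc_pi (q : ℕ) (l : GhLv S ι) :
    Measurable fun (W : Fin q → ι → ℝ) (a : Fin q) => l.inc (W a) :=
  measurable_pi_lambda _ fun a => (ghs_measurable_inc l).comp (measurable_pi_apply a)

theorem ghs_law_pi (q : ℕ) (l : GhLv S ι) :
    (Measure.pi fun _ : Fin q => ghStd ι).map (fun W a => l.inc (W a))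
      = Measure.pi fun _ : Fin q => (ghStd ι).map l.inc :=
  Measure.pi_map_pi (fun _ => (ghs_measurable_inc l).aemeasurable)

theorem ghs_law_pi_congr (q : ℕ) (l : GhLv S ι) (l' : GhLv S ι₁) (hc : ∀ s t, l.cov s t = l'.cov s t) :
    (Measure.pi fun _ : Fin q => ghStd ι).map (fun W a => l.inc (W a))
      = (Measure.pi fun _ : Fin q => ghStd ι₁).map (fun W a => l'.inc (W a)) := by
  rw [ghs_law_pi, ghs_law_pi, ghs_law_congr l l' hc]

theorem ghs_measurable_add_pi (q : ℕ) (l₁ : GhLv S ι₁) (l₂ : GhLv S ι₂) :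
    Measurable fun (p : (Fin q → ι₁ → ℝ) × (Fin q → ι₂ → ℝ)) (a : Fin q) => l₁.inc (p.1 a) + l₂.inc (p.2 a) :=
  measurable_pi_lambda _ fun a =>
    ((ghs_measurable_inc l₁).comp ((measurable_pi_apply a).comp measurable_fst)).add
      ((ghs_measurable_inc l₂).comp ((measurable_pi_apply a).comp measurable_snd))

theorem ghs_law_pi_add (q : ℕ) (l₁ : GhLv S ι₁) (l₂ : GhLv S ι₂) (l : GhLv S ι)
    (hc : ∀ s t, l.cov s t = l₁.cov s t + l₂.cov s t) :
    ((Measure.pi fun _ : Fin q => ghStd ι₁).prod (Measure.pi fun _ : Fin q => ghStd ι₂)).map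
        (fun p a => l₁.inc (p.1 a) + l₂.inc (p.2 a))
      = (Measure.pi fun _ : Fin q => ghStd ι).map (fun W a => l.inc (W a)) := by
  have mp := measurePreserving_arrowProdEquivProdArrow (ι₁ → ℝ) (ι₂ → ℝ) (Fin q)
    (fun _ => ghStd ι₁) (fun _ => ghStd ι₂)
  rw [← mp.map_eq, Measure.map_map (ghs_measurable_add_pi q l₁ l₂) mp.measurable, ghs_law_pi, ← ghs_law_add l₁ l₂ l hc]
  have hm : Measurable fun p : (ι₁ → ℝ) × (ι₂ → ℝ) => l₁.inc p.1 + l₂.inc p.2 :=
    ((ghs_measurable_inc l₁).comp measurable_fst).add ((ghs_measurable_inc l₂).comp measurable_snd)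
  have : ∀ _ : Fin q, SigmaFinite (((ghStd ι₁).prod (ghStd ι₂)).map fun p => l₁.inc p.1 + l₂.inc p.2) := fun _ => by
    have : IsProbabilityMeasure (((ghStd ι₁).prod (ghStd ι₂)).map fun p => l₁.inc p.1 + l₂.inc p.2) :=
      Measure.isProbabilityMeasure_map hm.aemeasurable
    infer_instance
  exact Measure.pi_map_pi (μ := fun _ : Fin q => (ghStd ι₁).prod (ghStd ι₂))
    (f := fun _ p => l₁.inc p.1 + l₂.inc p.2) (fun _ => hm.aemeasurable)

theorem ghs_integral_pi_congr (q : ℕ) (l : GhLv S ι) (l' : GhLv S ι₁) (hc : ∀ s t, l.cov s t = l'.cov s t)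
    (Ψ : (Fin q → S → ℝ) → ℝ) (hΨ : Measurable Ψ) :
    ∫ W, Ψ (fun a => l.inc (W a)) ∂(Measure.pi fun _ : Fin q => ghStd ι)
      = ∫ W, Ψ (fun a => l'.inc (W a)) ∂(Measure.pi fun _ : Fin q => ghStd ι₁) := by
  rw [← integral_map (ghs_measurable_inc_pi q l).aemeasurable hΨ.aestronglyMeasurable, ghs_law_pi_congr q l l' hc,
    integral_map (ghs_measurable_inc_pi q l').aemeasurable hΨ.aestronglyMeasurable]

theorem ghs_integral_pi_merge (q : ℕ) (l₁ : GhLv S ι₁) (l₂ : GhLv S ι₂) (l : GhLv S ι)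
    (hc : ∀ s t, l.cov s t = l₁.cov s t + l₂.cov s t) (Ψ : (Fin q → S → ℝ) → ℝ) (hΨ : Measurable Ψ)
    (hi : Integrable (fun W => Ψ (fun a => l.inc (W a))) (Measure.pi fun _ : Fin q => ghStd ι)) :
    ∫ W₁, ∫ W₂, Ψ (fun a => l₁.inc (W₁ a) + l₂.inc (W₂ a)) ∂(Measure.pi fun _ : Fin q => ghStd ι₂)
        ∂(Measure.pi fun _ : Fin q => ghStd ι₁)
      = ∫ W, Ψ (fun a => l.inc (W a)) ∂(Measure.pi fun _ : Fin q => ghStd ι) := by
  have h1 : Integrable Ψ ((Measure.pi fun _ : Fin q => ghStd ι).map (fun W a => l.inc (W a))) :=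
    (integrable_map_measure hΨ.aestronglyMeasurable (ghs_measurable_inc_pi q l).aemeasurable).mpr hi
  rw [← ghs_law_pi_add q l₁ l₂ l hc] at h1
  have h2 : Integrable (fun p : (Fin q → ι₁ → ℝ) × (Fin q → ι₂ → ℝ) => Ψ fun a => l₁.inc (p.1 a) + l₂.inc (p.2 a))
      ((Measure.pi fun _ : Fin q => ghStd ι₁).prod (Measure.pi fun _ : Fin q => ghStd ι₂)) :=
    (integrable_map_measure hΨ.aestronglyMeasurable (ghs_measurable_add_pi q l₁ l₂).aemeasurable).mp h1
  rw [← integral_prod _ h2, ← integral_map (ghs_measurable_inc_pi q l).aemeasurable hΨ.aestronglyMeasurable,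
    ← ghs_law_pi_add q l₁ l₂ l hc, integral_map (ghs_measurable_add_pi q l₁ l₂).aemeasurable hΨ.aestronglyMeasurable]

/-! ### merge for the tree law -/

/-- the product of the transition densities as a function of the field increments -/
noncomputable def ghsDTx (B : GhB S) {q : ℕ} (l : GhLv S ι) (ls : List (GhLv S ι)) (r : Fin q → Fin q)
    (G x : Fin q → S → ℝ) : ℝ := ∏ a, if r a = a then ghsDx B l ls (G a) (x a) else 1

theorem ghs_DT_eq_DTx (B : GhB S) {q : ℕ} (l : GhLv S ι) (ls : List (GhLv S ι)) (r : Fin q → Fin q)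
    (G : Fin q → S → ℝ) (W : Fin q → ι → ℝ) : ghDT B l ls r G W = ghsDTx B l ls r G fun a => l.inc (W a) := rfl

theorem ghs_DTx_measurable {B : GhB S} (hB : B.Ok) {q : ℕ} (l : GhLv S ι) (ls : List (GhLv S ι)) (r : Fin q → Fin q)
    (G : Fin q → S → ℝ) : Measurable (ghsDTx B l ls r G) := by
  unfold ghsDTx
  refine Finset.measurable_prod _ fun a _ => ?_
  split_ifs
  · exact (ghs_Dx_measurable hB l ls (G a)).comp (measurable_pi_apply a)
  · exact measurable_const

theorem ghs_DT_mul {B : GhB S} (hB : B.Ok) {q : ℕ} (l₁ l₂ l : GhLv S ι) (ls : List (GhLv S ι))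
    (hm₁ : l₁.m = l.m) (hm₂ : l₂.m = l.m) (hc : ∀ s t, l.cov s t = l₁.cov s t + l₂.cov s t) (r : Fin q → Fin q)
    (G : Fin q → S → ℝ) (W₁ W₂ : Fin q → ι → ℝ) :
    ghDT B l₁ (l₂ :: ls) r G W₁ * ghDT B l₂ ls r (fun a => G a + l₁.inc (W₁ (r a))) W₂
      = ghsDTx B l ls r G fun a => l₁.inc (W₁ a) + l₂.inc (W₂ a) := by
  unfold ghDT ghsDTx
  rw [← Finset.prod_mul_distrib]
  refine Finset.prod_congr rfl fun a _ => ?_
  split_ifs with ha
  · simp only [ha]; exact ghs_D_mul hB l₁ l₂ l ls hm₁ hm₂ hc (G a) (W₁ a) (W₂ a)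
  · exact one_mul 1

/-- **merge of two revelations of the same mass with the same classes** -/
theorem ghs_AT_merge {B : GhB S} (hB : B.Ok) {q : ℕ} (l₁ l₂ l : GhLv S ι) (ls : List (GhLv S ι)) (h : GhNn (l :: ls))
    (hm₁ : l₁.m = l.m) (hm₂ : l₂.m = l.m) (hc : ∀ s t, l.cov s t = l₁.cov s t + l₂.cov s t) (r : Fin q → Fin q)
    {g : (Fin q → S → ℝ) → ℝ} {M : ℝ} (hg : Continuous g) (hM : ∀ G, |g G| ≤ M) :
    ghsAT B l₁ (l₂ :: ls) r (ghsAT B l₂ ls r g) = ghsAT B l ls r g := by
  funext G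
  unfold ghsAT
  simp_rw [← integral_const_mul, ← mul_assoc, ghs_DT_mul hB l₁ l₂ l ls hm₁ hm₂ hc, add_assoc]
  exact ghs_integral_pi_merge q l₁ l₂ l hc (fun x => ghsDTx B l ls r G x * g (fun a => G a + x (r a)))
    ((ghs_DTx_measurable hB l ls r G).mul (hg.measurable.comp
      (measurable_pi_lambda _ fun a => measurable_const.add (measurable_pi_apply (r a)))))
    (ghs_AT_integrable hB h r hg hM G)

/-- the operator depends on the tail through its continuation only -/
theorem ghs_AT_tail_congr (B : GhB S) {q : ℕ} (p : GhLv S ι) {X Y : List (GhLv S ι)} (h : ghF B X = ghF B Y) :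
    ghsAT (q := q) B p X = ghsAT B p Y := by
  funext r g G
  simp only [ghsAT, ghDT, ghs_D_tail_congr B p h]

/-- the family of class maps with the index `t` doubled -/
def ghsDbl {α : Type} (t : ℕ) (rep : ℕ → α) (j : ℕ) : α := if j ≤ t then rep j else rep (j - 1)

theorem ghs_dbl_succ {α : Type} (t : ℕ) (rep : ℕ → α) :
    (fun j => ghsDbl (t + 1) rep (j + 1)) = ghsDbl t fun j => rep (j + 1) := by
  funext j
  unfold ghsDbl
  by_cases hj : j ≤ t
  · rw [if_pos (by omega), if_pos hj]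
  · rw [if_neg (by omega), if_neg hj]
    congr 1
    omega

/-- **merge for the tree law, spin tests**: two consecutive revelations of equal mass, no split between them -/
theorem ghs_N_merge {B : GhB S} (hB : B.Ok) {q : ℕ} (l₁ l₂ l : GhLv S ι) (ls : List (GhLv S ι)) (h : GhNn (l :: ls))
    (hm₁ : l₁.m = l.m) (hm₂ : l₂.m = l.m) (hc : ∀ s t, l.cov s t = l₁.cov s t + l₂.cov s t)
    (P : (Fin q → S) → ℝ) : ∀ (pre : List (GhLv S ι)) (rep : ℕ → Fin q → Fin q),
    ghsN B (pre ++ l₁ :: l₂ :: ls) (ghsDbl pre.length rep) P = ghsN B (pre ++ l :: ls) rep P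
  | [], rep => by
      simp only [List.nil_append, List.length_nil]
      rw [ghs_N_cons, ghs_N_cons, ghs_N_cons]
      have e0 : ghsDbl 0 rep 0 = rep 0 := rfl
      have e1 : ghsDbl 0 rep (0 + 1) = rep 0 := rfl
      have e2 : (fun t => ghsDbl 0 rep (t + 1 + 1)) = fun t => rep (t + 1) := by
        funext t; rfl
      rw [e0, e1, e2]
      exact ghs_AT_merge hB l₁ l₂ l ls h hm₁ hm₂ hc (rep 0) (ghs_N_continuous hB P h.tail _)
        (ghs_N_abs_le hB h.tail _ P)
  | p :: pre, rep => by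
      simp only [List.cons_append, List.length_cons]
      rw [ghs_N_cons, ghs_N_cons, ghs_dbl_succ, ghs_N_merge hB l₁ l₂ l ls h hm₁ hm₂ hc P pre,
        ghs_AT_tail_congr B p (ghs_F_merge_deep hB pre l₁ l₂ l ls hm₁ hm₂ hc)]
      rfl


theorem ghs_nu_eqns_cite : True := by
  have := @ghsDx.eq_1
  have := @ghsAT.eq_1
  have := @ghsN.eq_1
  have := @ghsDTx.eq_1
  have := @ghsDbl.eq_1
  trivial

end Claimed.Agent.R286
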