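import Claimed.Agent.R286.Defs.Sk
import Claimed.Agent.R286.Top.Compl

/-!
# Row 286 (S0533), folder Gk, file Bridge : THE MEASURE BRIDGE      (owner helper124; prefix `ghb_`)

The only link between the frozen objects of `Def_0461` (couplings `g_ij`, `i < j`, counting prior) and the hierarchy of
`Defs/Gh.lean`, `Defs/Sk.lean` (drivers = ALL ordered pairs + field drivers, uniform prior).

* `ghb_lin_law`  : a linear image of the standard drivers with orthogonal rows is a product of centred Gaussians (GC9 type).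
* `ghbG`, `ghbZ` : `g_ij = (ξ_ij + ξ_ji)/√2`, `ζ = β/√(2n) ∑ ξ_ii`.
* `ghb_skFc`     : `skFc n (β²) ξ = skLogPartition β n (ghbG n ξ) - n log 2 + ghbZ β n ξ`      (pointwise, `0 ≤ β`).
* `ghb_law`      : the law of `(ghbG, ghbZ)` under `ghStd (SkDr n)` is `skcDisorder β n` (`Top/Compl.lean`), `1 ≤ n`.
* `ghb_map`      : `skFc n (β²)` under `ghStd` and `skcFree β n` under `skcDisorder β n` have the same law.
* `ghb_integral`, `ghb_integrable` : transfer of integrals.
-/

set_option autoImplicit false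

namespace Claimed.Agent.R286

open MeasureTheory ProbabilityTheory Filter Topology
open Claims.C0461
open scoped NNReal

/-! ## linear images of the standard drivers -/

theorem ghb_sq_sum {ι κ : Type} [Fintype ι] [Fintype κ] [DecidableEq κ] (M : κ → ι → ℝ) (D : κ → ℝ)
    (hM : ∀ k k', ∑ i, M k i * M k' i = if k = k' then D k else 0) (t : κ → ℝ) :
    ∑ i, (∑ k, t k * M k i) ^ 2 = ∑ k, D k * t k ^ 2 := by
  have h1 : ∀ i, (∑ k, t k * M k i) ^ 2 = ∑ k, ∑ k', t k * t k' * (M k i * M k' i) := by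
    intro i
    rw [sq, Finset.sum_mul_sum]
    refine Finset.sum_congr rfl fun k _ => Finset.sum_congr rfl fun k' _ => by ring
  simp_rw [h1]
  rw [Finset.sum_comm]
  refine Finset.sum_congr rfl fun k _ => ?_
  rw [Finset.sum_comm]
  simp_rw [← Finset.mul_sum, hM]
  simp [sq]
  ring

/-- **GC9 type lemma**: a linear image of the standard drivers whose rows are orthogonal is a product of centred Gaussians. -/
theorem ghb_lin_law {ι κ : Type} [Fintype ι] [Fintype κ] [DecidableEq κ] (M : κ → ι → ℝ) (D : κ → ℝ≥0)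
    (hM : ∀ k k', ∑ i, M k i * M k' i = if k = k' then (D k : ℝ) else 0) :
    (ghStd ι).map (fun ξ k => ∑ i, M k i * ξ i) = Measure.pi fun k => gaussianReal 0 (D k) := by
  have hΦ : Measurable (fun (ξ : ι → ℝ) (k : κ) => ∑ i, M k i * ξ i) := by fun_prop
  have : IsProbabilityMeasure (ghStd ι) := by unfold ghStd; infer_instance
  have : IsProbabilityMeasure ((ghStd ι).map (fun ξ k => ∑ i, M k i * ξ i)) :=
    Measure.isProbabilityMeasure_map hΦ.aemeasurable
  refine charFun_eq_pi_iff.mp fun t => ?_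
  have e1 : charFun (((ghStd ι).map (fun ξ k => ∑ i, M k i * ξ i)).map (WithLp.toLp 2)) t
      = charFun ((ghStd ι).map (WithLp.toLp 2)) (WithLp.toLp 2 fun i => ∑ k, t k * M k i) := by
    have m1 : Measurable (WithLp.toLp 2 : (κ → ℝ) → WithLp 2 (κ → ℝ)) := (MeasurableEquiv.toLp 2 (κ → ℝ)).measurable
    have m2 : Measurable (WithLp.toLp 2 : (ι → ℝ) → WithLp 2 (ι → ℝ)) := (MeasurableEquiv.toLp 2 (ι → ℝ)).measurable
    rw [Measure.map_map m1 hΦ, charFun_apply, charFun_apply,
      integral_map (m1.comp hΦ).aemeasurable (by fun_prop), integral_map m2.aemeasurable (by fun_prop)]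
    refine integral_congr_ae (Eventually.of_forall fun ξ => ?_)
    simp only [Function.comp_apply, PiLp.inner_apply]
    congr 2
    simp only [RCLike.inner_apply, conj_trivial, Finset.mul_sum, Finset.sum_mul]
    rw [Finset.sum_comm]
    congr 1
    refine Finset.sum_congr rfl fun i _ => Finset.sum_congr rfl fun k _ => by ring
  rw [e1]
  unfold ghStd
  rw [charFun_pi]
  simp only [charFun_gaussianReal]
  rw [← Complex.exp_sum, ← Complex.exp_sum]
  congr 1
  have h := ghb_sq_sum M (fun k => (D k : ℝ)) hM (fun k => t k)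
  have h' : (∑ i, ((∑ k, t k * M k i : ℝ) : ℂ) ^ 2) = ∑ k, ((D k : ℝ) : ℂ) * ((t k : ℝ) : ℂ) ^ 2 := by
    exact_mod_cast h
  simp only [Complex.ofReal_zero, mul_zero, zero_mul, zero_sub, NNReal.coe_one, Complex.ofReal_one, one_mul]
  rw [Finset.sum_neg_distrib, Finset.sum_neg_distrib, ← Finset.sum_div, ← Finset.sum_div, h']

/-- **block sums**: normalised sums of the drivers over pairwise disjoint blocks are independent centred Gaussians. -/
theorem ghb_block_law {ι κ : Type} [Fintype ι] [DecidableEq ι] [Fintype κ] [DecidableEq κ] (S : κ → Finset ι) (c : κ → ℝ)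
    (D : κ → ℝ≥0) (hS : ∀ k k', k ≠ k' → Disjoint (S k) (S k')) (hD : ∀ k, (D k : ℝ) = c k ^ 2 * (S k).card) :
    (ghStd ι).map (fun ξ k => c k * ∑ i ∈ S k, ξ i) = Measure.pi fun k => gaussianReal 0 (D k) := by
  have h := ghb_lin_law (fun k i => if i ∈ S k then c k else 0) D (by
    intro k k'
    have e : ∀ i, (if i ∈ S k then c k else 0) * (if i ∈ S k' then c k' else 0)
        = if i ∈ S k ∩ S k' then c k * c k' else 0 := by
      intro i
      by_cases h1 : i ∈ S k <;> by_cases h2 : i ∈ S k' <;> simp [h1, h2]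
    simp_rw [e]
    rw [Finset.sum_ite_mem, Finset.univ_inter, Finset.sum_const, nsmul_eq_mul]
    by_cases hk : k = k'
    · subst hk
      rw [if_pos rfl, Finset.inter_self, hD]
      ring
    · rw [if_neg hk, Finset.disjoint_iff_inter_eq_empty.mp (hS k k' hk)]
      simp)
  rw [← h]
  congr 1
  funext ξ k
  simp only [ite_mul, zero_mul]
  rw [Finset.sum_ite_mem, Finset.univ_inter, Finset.mul_sum]

/-! ## the couplings and the completion variable as functions of the drivers -/

/-- `g_ij = (ξ_ij + ξ_ji)/√2`, `i < j` -/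
noncomputable def ghbG (n : ℕ) (ξ : SkDr n → ℝ) : SKPair n → ℝ :=
  fun p => (ξ (Sum.inl (p.1.1, p.1.2)) + ξ (Sum.inl (p.1.2, p.1.1))) / Real.sqrt 2

/-- `ζ = β/√(2n) ∑ ξ_ii` -/
noncomputable def ghbZ (β : ℝ) (n : ℕ) (ξ : SkDr n → ℝ) : ℝ :=
  β / Real.sqrt (2 * n) * ∑ i : Fin n, ξ (Sum.inl (i, i))

/-- a sum over all ordered pairs = sum over `i < j` of the two orders + the diagonal -/
theorem ghb_sum_split {n : ℕ} (f : Fin n × Fin n → ℝ) :
    ∑ p, f p = ∑ p : SKPair n, (f (p.1.1, p.1.2) + f (p.1.2, p.1.1)) + ∑ i, f (i, i) := by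
  classical
  have h1 : ∑ p : Fin n × Fin n, f p = ∑ p with p.1 < p.2, f p + ∑ p with ¬ p.1 < p.2, f p :=
    (Finset.sum_filter_add_sum_filter_not _ _ _).symm
  have h2 : ∑ p : Fin n × Fin n with ¬ p.1 < p.2, f p
      = ∑ p with p.2 < p.1, f p + ∑ p with p.1 = p.2, f p := by
    rw [← Finset.sum_filter_add_sum_filter_not (Finset.univ.filter fun p : Fin n × Fin n => ¬ p.1 < p.2)
      (fun p => p.2 < p.1), Finset.filter_filter, Finset.filter_filter]
    congr 1
    · refine Finset.sum_congr (Finset.filter_congr fun p _ => ?_) fun _ _ => rfl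
      constructor
      · exact fun h => h.2
      · exact fun h => ⟨not_lt.mpr h.le, h⟩
    · refine Finset.sum_congr (Finset.filter_congr fun p _ => ?_) fun _ _ => rfl
      constructor
      · exact fun h => le_antisymm (not_lt.mp h.2) (not_lt.mp h.1)
      · exact fun h => ⟨by rw [h]; exact lt_irrefl _, by rw [h]; exact lt_irrefl _⟩
  have h3 : ∑ p : Fin n × Fin n with p.2 < p.1, f p = ∑ p : Fin n × Fin n with p.1 < p.2, f (p.2, p.1) := by
    refine Finset.sum_nbij' (fun p => (p.2, p.1)) (fun p => (p.2, p.1)) ?_ ?_ ?_ ?_ ?_ <;> simp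
  have h4 : ∑ p : Fin n × Fin n with p.1 = p.2, f p = ∑ i, f (i, i) := by
    refine Finset.sum_nbij' (fun p => p.1) (fun i => (i, i)) ?_ ?_ ?_ ?_ ?_
    · simp
    · simp
    · rintro ⟨a, b⟩ h
      simp only [Finset.mem_filter, Finset.mem_univ, true_and] at h
      simp [h]
    · simp
    · rintro ⟨a, b⟩ h
      simp only [Finset.mem_filter, Finset.mem_univ, true_and] at h
      simp [h]
  have h5 : ∀ g : Fin n × Fin n → ℝ, ∑ p : Fin n × Fin n with p.1 < p.2, g p = ∑ p : SKPair n, g p.1 := by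
    intro g
    exact Finset.sum_subtype _ (by simp) _
  rw [h1, h2, h3, h4, h5, h5, Finset.sum_add_distrib]
  ring

theorem ghb_sp_sq {n : ℕ} (σ : SkCfg n) (i : Fin n) : skSp σ i * skSp σ i = 1 := by
  unfold skSp pmSpin
  split_ifs <;> norm_num

/-- the field produced by the matrix revelation of the SK model -/
theorem ghb_field (β : ℝ) (hβ : 0 ≤ β) (n : ℕ) (ξ : SkDr n → ℝ) (σ : SkCfg n) :
    ((⟨0, β ^ 2, 0⟩ : SkInc).lv n).inc ξ σ
      = β / Real.sqrt n * ∑ p : SKPair n, ghbG n ξ p * pmSpin (σ p.1.1) * pmSpin (σ p.1.2) + ghbZ β n ξ := by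
  have h2 : Real.sqrt (2 * n) = Real.sqrt 2 * Real.sqrt n := Real.sqrt_mul (by norm_num) _
  simp only [GhLv.inc, SkInc.lv, ghLvF, Fintype.sum_sum_type, Sum.elim_inl, Sum.elim_inr, skPhi, Real.sqrt_zero,
    zero_mul, Finset.sum_const_zero, add_zero, Real.sqrt_sq hβ]
  rw [ghb_sum_split]
  congr 1
  · rw [Finset.mul_sum]
    refine Finset.sum_congr rfl fun p _ => ?_
    simp only [ghbG, skSp, h2]
    ring
  · unfold ghbZ
    rw [Finset.mul_sum]
    refine Finset.sum_congr rfl fun i _ => ?_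
    rw [ghb_sp_sq]
    ring

/-- **pointwise bridge**: the completed free energy of `Defs/Sk.lean` in terms of the frozen `skLogPartition` -/
theorem ghb_skFc (β : ℝ) (hβ : 0 ≤ β) (n : ℕ) (ξ : SkDr n → ℝ) :
    skFc n (β ^ 2) ξ = skLogPartition β n (ghbG n ξ) - n * Real.log 2 + ghbZ β n ξ := by
  have hc : (Fintype.card (SkCfg n) : ℝ) = 2 ^ n := by simp
  have hpos : 0 < ∑ σ : Fin n → Bool,
      Real.exp (β / Real.sqrt n * ∑ p : SKPair n, ghbG n ξ p * pmSpin (σ p.1.1) * pmSpin (σ p.1.2)) :=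
    Finset.sum_pos (fun _ _ => Real.exp_pos _) Finset.univ_nonempty
  simp only [skFc, skPhys, skG, skF, skLvs, List.map_nil, ghF, ghF0, skBase, ghUnif, inv_one, one_mul, hc,
    ghb_field β hβ, Real.exp_add]
  unfold skLogPartition
  rw [← Finset.mul_sum, ← Finset.sum_mul, Real.log_mul (by positivity) (by positivity),
    Real.log_mul hpos.ne' (Real.exp_pos _).ne', Real.log_exp, Real.log_inv, Real.log_pow]
  ring

/-! ## the law of the couplings and of the completion variable -/

/-- the blocks of drivers: `{(i,j),(j,i)}` for `i < j`, and the diagonal -/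
def ghbS (n : ℕ) : SKPair n ⊕ Unit → Finset (SkDr n)
  | Sum.inl p => {Sum.inl (p.1.1, p.1.2), Sum.inl (p.1.2, p.1.1)}
  | Sum.inr _ => Finset.univ.map ⟨fun i : Fin n => Sum.inl (i, i), fun a b h => by simpa using h⟩

theorem ghb_S_disj (n : ℕ) (k k' : SKPair n ⊕ Unit) (h : k ≠ k') : Disjoint (ghbS n k) (ghbS n k') := by
  rw [Finset.disjoint_left]
  rcases k with p | u <;> rcases k' with q | u'
  · intro x hx hx'
    simp only [ghbS, Finset.mem_insert, Finset.mem_singleton] at hx hx'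
    have hp := p.2
    have hq := q.2
    apply h
    congr 1
    apply Subtype.ext
    rcases hx with rfl | rfl <;> rcases hx' with e | e <;>
      simp only [Sum.inl.injEq, Prod.mk.injEq] at e
    · exact Prod.ext e.1 e.2
    · exact absurd (e.1 ▸ e.2 ▸ hp) (not_lt.mpr hq.le)
    · exact absurd (e.1 ▸ e.2 ▸ hp) (not_lt.mpr hq.le)
    · exact Prod.ext e.2 e.1
  · intro x hx hx'
    simp only [ghbS, Finset.mem_insert, Finset.mem_singleton, Finset.mem_map, Finset.mem_univ, true_and] at hx hx'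
    obtain ⟨i, hi⟩ := hx'
    have hi' : (Sum.inl (i, i) : SkDr n) = x := hi
    subst hi'
    have hp := p.2
    rcases hx with e | e <;> simp only [Sum.inl.injEq, Prod.mk.injEq] at e
    · exact absurd (e.1 ▸ e.2 ▸ hp) (lt_irrefl _)
    · exact absurd (e.1 ▸ e.2 ▸ hp) (lt_irrefl _)
  · intro x hx' hx
    simp only [ghbS, Finset.mem_insert, Finset.mem_singleton, Finset.mem_map, Finset.mem_univ, true_and] at hx hx'
    obtain ⟨i, hi⟩ := hx'
    have hi' : (Sum.inl (i, i) : SkDr n) = x := hi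
    subst hi'
    have hp := q.2
    rcases hx with e | e <;> simp only [Sum.inl.injEq, Prod.mk.injEq] at e
    · exact absurd (e.1 ▸ e.2 ▸ hp) (lt_irrefl _)
    · exact absurd (e.1 ▸ e.2 ▸ hp) (lt_irrefl _)
  · exact absurd rfl h

/-- **the law of `(g, ζ)`** under the standard drivers is the completed disorder of `Top/Compl.lean` -/
theorem ghb_law (β : ℝ) (n : ℕ) (hn : 1 ≤ n) :
    (ghStd (SkDr n)).map (fun ξ => (ghbG n ξ, ghbZ β n ξ)) = skcDisorder β n := by
  have hn0 : (0 : ℝ) < n := by exact_mod_cast hn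
  have h := ghb_block_law (ghbS n) (Sum.elim (fun _ => 1 / Real.sqrt 2) fun _ => β / Real.sqrt (2 * n))
    (Sum.elim (fun _ => 1) fun _ => skcVar β) (ghb_S_disj n) (by
      rintro (p | u)
      · have hne : (Sum.inl (p.1.1, p.1.2) : SkDr n) ≠ Sum.inl (p.1.2, p.1.1) := by
          intro e
          simp only [Sum.inl.injEq, Prod.mk.injEq] at e
          exact absurd (e.1 ▸ p.2) (lt_irrefl _)
        simp only [Sum.elim_inl, ghbS, Finset.card_pair hne, div_pow, one_pow, NNReal.coe_one]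
        rw [Real.sq_sqrt (by norm_num)]
        norm_num
      · have hv : ((skcVar β : ℝ≥0) : ℝ) = β ^ 2 / 2 := rfl
        simp only [Sum.elim_inr, ghbS, Finset.card_map, Finset.card_univ, Fintype.card_fin, div_pow, hv]
        rw [Real.sq_sqrt (by positivity)]
        field_simp)
  have hm : Measurable (fun (ξ : SkDr n → ℝ) (k : SKPair n ⊕ Unit) =>
      (Sum.elim (fun _ => 1 / Real.sqrt 2) fun _ => β / Real.sqrt (2 * n) : SKPair n ⊕ Unit → ℝ) k * ∑ i ∈ ghbS n k, ξ i) := by
    fun_prop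
  have mp1 := measurePreserving_sumPiEquivProdPi (X := fun _ : SKPair n ⊕ Unit => ℝ)
    (fun k => gaussianReal 0 ((Sum.elim (fun _ => 1) fun _ => skcVar β : SKPair n ⊕ Unit → ℝ≥0) k))
  have mp2 := (MeasurePreserving.id (Measure.pi fun _ : SKPair n => gaussianReal 0 1)).prod
    (measurePreserving_funUnique (gaussianReal 0 (skcVar β)) Unit)
  have mp := (mp2.comp mp1).map_eq
  rw [← h, Measure.map_map (mp2.comp mp1).measurable hm] at mp
  unfold skcDisorder skDisorder
  rw [← mp]
  congr 1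
  funext ξ
  refine Prod.ext ?_ ?_
  · funext p
    have hne : (Sum.inl (p.1.1, p.1.2) : SkDr n) ≠ Sum.inl (p.1.2, p.1.1) := by
      intro e
      simp only [Sum.inl.injEq, Prod.mk.injEq] at e
      exact absurd (e.1 ▸ p.2) (lt_irrefl _)
    show ghbG n ξ p = (Sum.elim (fun _ => 1 / Real.sqrt 2) fun _ => β / Real.sqrt (2 * n) : SKPair n ⊕ Unit → ℝ) (Sum.inl p) *
      ∑ i ∈ ghbS n (Sum.inl p), ξ i
    simp [ghbG, ghbS, Finset.sum_pair hne]
    ring
  · show ghbZ β n ξ = (Sum.elim (fun _ => 1 / Real.sqrt 2) fun _ => β / Real.sqrt (2 * n) : SKPair n ⊕ Unit → ℝ) (Sum.inr ()) *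
      ∑ i ∈ ghbS n (Sum.inr ()), ξ i
    simp only [ghbZ, ghbS, Sum.elim_inr, Finset.sum_map]
    rfl

/-! ## transfer -/

theorem ghb_meas_G (n : ℕ) : Measurable (ghbG n) := by
  unfold ghbG
  fun_prop

theorem ghb_meas_Z (β : ℝ) (n : ℕ) : Measurable (ghbZ β n) := by
  unfold ghbZ
  fun_prop

theorem ghb_meas_free (β : ℝ) (n : ℕ) : Measurable (skcFree β n) := by
  unfold skcFree
  exact (((sk_top_meas β n).comp measurable_fst).sub_const _).add measurable_snd

theorem ghb_meas_skFc (β : ℝ) (hβ : 0 ≤ β) (n : ℕ) : Measurable (skFc n (β ^ 2)) := by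
  have e : skFc n (β ^ 2) = fun ξ => skcFree β n (ghbG n ξ, ghbZ β n ξ) := by
    funext ξ
    rw [ghb_skFc β hβ]
    rfl
  rw [e]
  exact (ghb_meas_free β n).comp ((ghb_meas_G n).prodMk (ghb_meas_Z β n))

/-- `(g, ζ)` is measure preserving from the standard drivers to the completed disorder -/
theorem ghb_mp (β : ℝ) (n : ℕ) (hn : 1 ≤ n) :
    MeasurePreserving (fun ξ => (ghbG n ξ, ghbZ β n ξ)) (ghStd (SkDr n)) (skcDisorder β n) :=
  ⟨(ghb_meas_G n).prodMk (ghb_meas_Z β n), ghb_law β n hn⟩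

/-- the couplings alone -/
theorem ghb_mp_G (n : ℕ) (hn : 1 ≤ n) : MeasurePreserving (ghbG n) (ghStd (SkDr n)) (skDisorder n) := by
  refine ⟨ghb_meas_G n, ?_⟩
  have h := ghb_law 0 n hn
  have h2 := congrArg (fun μ => μ.map Prod.fst) h
  simp only [skcDisorder] at h2
  rw [Measure.map_map measurable_fst ((ghb_meas_G n).prodMk (ghb_meas_Z 0 n)), Measure.map_fst_prod] at h2
  simpa [Function.comp_def] using h2

/-- **same law**: `skFc n (β²)` under the standard drivers, `skcFree β n` under the completed disorder -/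
theorem ghb_map (β : ℝ) (hβ : 0 ≤ β) (n : ℕ) (hn : 1 ≤ n) :
    (ghStd (SkDr n)).map (skFc n (β ^ 2)) = (skcDisorder β n).map (skcFree β n) := by
  rw [← ghb_law β n hn, Measure.map_map (ghb_meas_free β n) ((ghb_meas_G n).prodMk (ghb_meas_Z β n))]
  congr 1
  funext ξ
  rw [ghb_skFc β hβ]
  rfl

theorem ghb_integral_comp (β : ℝ) (n : ℕ) (hn : 1 ≤ n) {f : (SKPair n → ℝ) × ℝ → ℝ}
    (hf : AEStronglyMeasurable f (skcDisorder β n)) :
    ∫ ξ, f (ghbG n ξ, ghbZ β n ξ) ∂ghStd (SkDr n) = ∫ ω, f ω ∂skcDisorder β n := by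
  rw [← ghb_law β n hn] at hf ⊢
  exact (integral_map ((ghb_meas_G n).prodMk (ghb_meas_Z β n)).aemeasurable hf).symm

/-- transfer of integrals of functions of the completed free energy -/
theorem ghb_integral (β : ℝ) (hβ : 0 ≤ β) (n : ℕ) (hn : 1 ≤ n) {φ : ℝ → ℝ} (hφ : Measurable φ) :
    ∫ ξ, φ (skFc n (β ^ 2) ξ) ∂ghStd (SkDr n) = ∫ ω, φ (skcFree β n ω) ∂skcDisorder β n := by
  rw [← ghb_integral_comp β n hn (f := fun ω => φ (skcFree β n ω)) (hφ.comp (ghb_meas_free β n)).aestronglyMeasurable]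
  refine integral_congr_ae (Eventually.of_forall fun ξ => ?_)
  simp only [ghb_skFc β hβ]
  rfl

theorem ghb_integrable (β : ℝ) (hβ : 0 ≤ β) (n : ℕ) (hn : 1 ≤ n) {φ : ℝ → ℝ} (hφ : Measurable φ) :
    Integrable (fun ξ => φ (skFc n (β ^ 2) ξ)) (ghStd (SkDr n)) ↔
      Integrable (fun ω => φ (skcFree β n ω)) (skcDisorder β n) := by
  have h := (ghb_mp β n hn).integrable_comp (g := fun ω => φ (skcFree β n ω))
    (hφ.comp (ghb_meas_free β n)).aestronglyMeasurable
  rw [← h]
  refine integrable_congr (Eventually.of_forall fun ξ => ?_)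
  simp only [ghb_skFc β hβ, Function.comp_apply]
  rfl

/-- transfer for the raw free energy -/
theorem ghb_integral_raw (β : ℝ) (n : ℕ) (hn : 1 ≤ n) {φ : ℝ → ℝ} (hφ : Measurable φ) :
    ∫ ξ, φ (skLogPartition β n (ghbG n ξ)) ∂ghStd (SkDr n) = ∫ g, φ (skLogPartition β n g) ∂skDisorder n := by
  rw [← (ghb_mp_G n hn).map_eq]
  exact (integral_map (ghb_meas_G n).aemeasurable (hφ.comp (sk_top_meas β n)).aestronglyMeasurable).symm

theorem ghb_defs_eqns_cite : True := by
  have := @ghbG.eq_1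
  have := @ghbZ.eq_1
  have := @ghbS.eq_1
  have := @ghbS.eq_2
  have := @ghbS.eq_def
  trivial

end Claimed.Agent.R286
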