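import Claimed.Agent.R286.Gk.Heat

/-!
# Row 286 (S0533), Gaussian kit, file Gk/HeatW : THE HEAT STEP ON A CLOSED INTERVAL, WITH A TIME DEPENDENT INTEGRAND      (helper91; prefix `ghw_`)

On top of helper119's `Gk/Heat.lean` (`ghhLin`, `ghhD`, `ghh_path` = derivative along paths of STANDARD DEVIATIONS) and of `Gk/Reg.lean` (`GkEG`, `gkP`).

* `ghw_sqrt_chain` : ABSTRACT chain rule from standard deviations to variances (Mathlib only).  If `d/ds G_t (a + s b) = ∑ k, b k (a k + s b k) H_k t (a + s b)`, the `H_k` are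
  jointly continuous at `(θ, √w(θ))`, the variances `w k ≥ 0` are differentiable at `θ` within `I`, then `t ↦ G_t (√w(t))` has at `θ` within `I` the derivative
  `∂_t G + 1/2 ∑ k, w' k H_k`.   NO positivity of the variances: end points of `[0,1]`, frozen and vanishing coordinates are all included.
* `ghw_within`     : differentiation under the integral sign WITHIN a convex set of real parameters.
* `ghw_cont`       : joint continuity of `(t, a) ↦ ∫ h_t (x + ∑ k, (a k ξ k) • e k) dγ(ξ)`.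
* **`ghw_heat`**   : `d/dt ∫ g_t (x + ∑ k, (√(w k t) ξ k) • e k) dγ = ∫ ∂_t g_t + 1/2 ∑ k, w' k ∫ D² g_t [e k, e k]`, within `I`, at every `θ ∈ I`.
* `ghw_heat_lv`    : the same for a level `ghLvF Φ m (w · t)` of `Defs/Gh.lean`.
-/

set_option autoImplicit false

namespace Claimed.Agent.R286

open MeasureTheory ProbabilityTheory Filter Topology Set


/-- **abstract chain rule from standard deviations to variances**, up to the boundary of the orthant, with a parameter -/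
theorem ghw_sqrt_chain {K : Type} [Fintype K] {I : Set ℝ} {θ : ℝ} (hθ : θ ∈ I)
    {Gf : ℝ → (K → ℝ) → ℝ} {H : K → ℝ → (K → ℝ) → ℝ} {w : K → ℝ → ℝ} {w' : K → ℝ} {D0 : ℝ}
    (hG : ∀ t ∈ I, ∀ (a b : K → ℝ) (s : ℝ), HasDerivAt (fun s : ℝ => Gf t (a + s • b))
      (∑ k, b k * (a k + s * b k) * H k t (a + s • b)) s)
    (hH : ∀ k, ContinuousWithinAt (fun p : ℝ × (K → ℝ) => H k p.1 p.2) (I ×ˢ Set.univ) (θ, fun k => Real.sqrt (w k θ)))
    (hw : ∀ k, HasDerivWithinAt (w k) (w' k) I θ) (hw0 : ∀ k, ∀ t ∈ I, 0 ≤ w k t)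
    (h0 : HasDerivWithinAt (fun t => Gf t (fun k => Real.sqrt (w k θ))) D0 I θ) :
    HasDerivWithinAt (fun t => Gf t (fun k => Real.sqrt (w k t)))
      (D0 + 1 / 2 * ∑ k, w' k * H k θ (fun k => Real.sqrt (w k θ))) I θ := by
  set a0 : K → ℝ := fun k => Real.sqrt (w k θ) with ha0
  set a : ℝ → K → ℝ := fun t k => Real.sqrt (w k t) with ha
  set Hc : K → ℝ := fun k => H k θ a0 with hHc
  have hmain : HasDerivWithinAt (fun t => ∑ k, (w k t - w k θ) / 2 * Hc k) (∑ k, w' k / 2 * Hc k) I θ :=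
    HasDerivWithinAt.fun_sum fun k _ => (((hw k).sub_const _).div_const 2).mul_const _
  set ρ : ℝ → ℝ := fun t => Gf t (a t) - Gf t a0 - ∑ k, (w k t - w k θ) / 2 * Hc k with hρdef
  have hρθ : ρ θ = 0 := by simp [hρdef, ha, ha0]
  have hρ : HasDerivWithinAt ρ 0 I θ := by
    rw [hasDerivWithinAt_iff_isLittleO, Asymptotics.isLittleO_iff]
    intro c hc
    -- the big O bound of the variances
    have hO : (fun t => ∑ k, |w k t - w k θ|) =O[𝓝[I] θ] fun t => t - θ :=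
      Asymptotics.IsBigO.fun_sum fun k _ => ((hw k).hasFDerivWithinAt.isBigO_sub).norm_left
    obtain ⟨C, hC, hOC⟩ := hO.exists_pos
    have hOC' := hOC.bound
    set ε : ℝ := c / C with hε
    have hεpos : 0 < ε := div_pos hc hC
    -- the neighbourhood where `H` is close to `Hc`
    have hU : ∀ᶠ p in 𝓝[I ×ˢ (Set.univ : Set (K → ℝ))] (θ, a0), ∀ k, |H k p.1 p.2 - Hc k| ≤ ε := by
      rw [Filter.eventually_all]
      intro k
      have := (hH k).tendsto.eventually (Metric.closedBall_mem_nhds (Hc k) hεpos)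
      filter_upwards [this] with p hp
      simpa [Real.dist_eq] using hp
    rw [eventually_nhdsWithin_iff, Metric.eventually_nhds_iff] at hU
    obtain ⟨δ, hδ, hU⟩ := hU
    have hat : Tendsto a (𝓝[I] θ) (𝓝 a0) := by
      rw [tendsto_pi_nhds]
      intro k
      exact ((hw k).continuousWithinAt.tendsto).sqrt
    have h1 : ∀ᶠ t in 𝓝[I] θ, dist (a t) a0 < δ := hat.eventually (Metric.ball_mem_nhds a0 hδ)
    have h2 : ∀ᶠ t in 𝓝[I] θ, dist t θ < δ := (nhdsWithin_le_nhds (Metric.ball_mem_nhds θ hδ))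
    filter_upwards [h1, h2, self_mem_nhdsWithin, hOC'] with t ht1 ht2 htI htO
    rw [hρθ, sub_zero, smul_zero, sub_zero]
    set b : K → ℝ := a t - a0 with hb
    set R : ℝ → ℝ := fun s => Gf t (a0 + s • b) - ∑ k, ((a0 k + s * b k) ^ 2 - a0 k ^ 2) / 2 * Hc k with hR
    have hRd : ∀ s : ℝ, HasDerivAt R (∑ k, b k * (a0 k + s * b k) * H k t (a0 + s • b)
        - ∑ k, (b k * (a0 k + s * b k)) * Hc k) s := by
      intro s
      refine (hG t htI a0 b s).sub (HasDerivAt.fun_sum fun k _ => ?_)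
      have e1 : HasDerivAt (fun s : ℝ => a0 k + s * b k) (b k) s := by
        simpa using ((hasDerivAt_id s).mul_const (b k)).const_add (a0 k)
      have e2 := (((e1.pow 2).sub_const (a0 k ^ 2)).div_const 2).mul_const (Hc k)
      refine e2.congr_deriv ?_
      rw [show (2 - 1 : ℕ) = 1 from rfl, pow_one]
      push_cast
      ring
    have ha0nn : ∀ k, 0 ≤ a0 k := fun k => Real.sqrt_nonneg _
    have hatnn : ∀ k, 0 ≤ a t k := fun k => Real.sqrt_nonneg _
    have hsq0 : ∀ k, a0 k ^ 2 = w k θ := fun k => Real.sq_sqrt (hw0 k θ hθ)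
    have hsqt : ∀ k, a t k ^ 2 = w k t := fun k => Real.sq_sqrt (hw0 k t htI)
    have hbound : ∀ s ∈ Set.Ico (0 : ℝ) 1, ‖∑ k, b k * (a0 k + s * b k) * H k t (a0 + s • b)
        - ∑ k, (b k * (a0 k + s * b k)) * Hc k‖ ≤ ε * ∑ k, |w k t - w k θ| := by
      intro s hs
      rw [← Finset.sum_sub_distrib, Finset.mul_sum]
      refine (norm_sum_le _ _).trans (Finset.sum_le_sum fun k _ => ?_)
      have hclose : |H k t (a0 + s • b) - Hc k| ≤ ε := by
        refine hU (y := (t, a0 + s • b)) ?_ ⟨htI, Set.mem_univ _⟩ k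
        rw [Prod.dist_eq]
        refine max_lt ht2 ?_
        rw [dist_eq_norm] at ht1 ⊢
        have : a0 + s • b - a0 = s • b := by abel
        rw [this, norm_smul, Real.norm_eq_abs, abs_of_nonneg hs.1]
        calc s * ‖b‖ ≤ 1 * ‖b‖ := mul_le_mul_of_nonneg_right hs.2.le (norm_nonneg _)
          _ = ‖a t - a0‖ := by rw [one_mul]
          _ < δ := ht1
      have hfac : |b k * (a0 k + s * b k)| ≤ |w k t - w k θ| := by
        have e : w k t - w k θ = b k * (a t k + a0 k) := by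
          rw [← hsqt, ← hsq0, hb]; simp only [Pi.sub_apply]; ring
        rw [e, abs_mul, abs_mul]
        refine mul_le_mul_of_nonneg_left ?_ (abs_nonneg _)
        have e3 : a0 k + s * b k = (1 - s) * a0 k + s * a t k := by
          rw [hb]; simp only [Pi.sub_apply]; ring
        have p1 : 0 ≤ (1 - s) * a0 k + s * a t k :=
          add_nonneg (mul_nonneg (by linarith [hs.2]) (ha0nn k)) (mul_nonneg hs.1 (hatnn k))
        rw [e3, abs_of_nonneg p1, abs_of_nonneg (add_nonneg (hatnn k) (ha0nn k))]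
        nlinarith [ha0nn k, hatnn k, hs.1, hs.2]
      rw [← mul_sub, norm_mul, Real.norm_eq_abs, Real.norm_eq_abs, mul_comm ε]
      exact mul_le_mul hfac hclose (abs_nonneg _) (abs_nonneg _)
    have hmv := norm_image_sub_le_of_norm_deriv_le_segment_01' (f := R)
      (fun s _ => (hRd s).hasDerivWithinAt) hbound
    have hR1 : R 1 - R 0 = ρ t := by
      simp only [hR, hρdef, one_smul, zero_smul, add_zero, one_mul, zero_mul]
      have e4 : a0 + b = a t := by rw [hb]; abel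
      rw [e4]
      have e5 : ∀ k, a0 k + b k = a t k := fun k => by rw [hb]; simp
      simp only [e5, hsqt, hsq0, sub_self, zero_div, zero_mul, Finset.sum_const_zero, sub_zero]
      ring
    rw [hR1] at hmv
    refine hmv.trans ?_
    have hsum : ∑ k, |w k t - w k θ| ≤ C * ‖t - θ‖ := by
      have := htO
      rwa [Real.norm_eq_abs, abs_of_nonneg (Finset.sum_nonneg fun _ _ => abs_nonneg _)] at this
    calc ε * ∑ k, |w k t - w k θ| ≤ ε * (C * ‖t - θ‖) := mul_le_mul_of_nonneg_left hsum hεpos.le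
      _ = c * ‖t - θ‖ := by rw [hε]; field_simp
  have hall := (h0.add hmain).add hρ
  refine (hall.congr_deriv ?_).congr (fun t _ => ?_) ?_
  · rw [add_zero, Finset.mul_sum]
    congr 1
    exact Finset.sum_congr rfl fun k _ => by ring
  · show Gf t (a t) = Gf t a0 + ∑ k, (w k t - w k θ) / 2 * Hc k + ρ t
    simp only [hρdef]; ring
  · show Gf θ (a θ) = Gf θ a0 + ∑ k, (w k θ - w k θ) / 2 * Hc k + ρ θ
    simp only [hρdef]; ring

/-- differentiation under the integral sign WITHIN a convex set of parameters -/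
theorem ghw_within {α : Type} [MeasurableSpace α] {μ : Measure α} {I : Set ℝ} (hI : Convex ℝ I) {θ : ℝ} (hθ : θ ∈ I)
    {F F' : ℝ → α → ℝ} {bound : α → ℝ}
    (hm : ∀ t ∈ I, AEStronglyMeasurable (F t) μ) (hint : Integrable (F θ) μ)
    (hb : ∀ o, ∀ t ∈ I, ‖F' t o‖ ≤ bound o) (hbi : Integrable bound μ)
    (hd : ∀ o, ∀ t ∈ I, HasDerivWithinAt (fun t => F t o) (F' t o) I t) :
    HasDerivWithinAt (fun t => ∫ o, F t o ∂μ) (∫ o, F' θ o ∂μ) I θ := by
  have hlip : ∀ o, ∀ t ∈ I, ‖F t o - F θ o‖ ≤ bound o * ‖t - θ‖ := fun o t ht =>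
    hI.norm_image_sub_le_of_norm_hasDerivWithin_le (fun s hs => hd o s hs) (fun s hs => hb o s hs) hθ ht
  have hFi : ∀ t ∈ I, Integrable (F t) μ := by
    intro t ht
    have h1 : Integrable (fun o => F t o - F θ o) μ :=
      (hbi.mul_const ‖t - θ‖).mono' ((hm t ht).sub (hm θ hθ)) (Eventually.of_forall fun o => hlip o t ht)
    have := h1.add hint
    refine this.congr (Eventually.of_forall fun o => ?_)
    simp
  rw [hasDerivWithinAt_iff_tendsto_slope]
  have hsl : ∀ᶠ t in 𝓝[I \ {θ}] θ, slope (fun t => ∫ o, F t o ∂μ) θ t = ∫ o, slope (fun t => F t o) θ t ∂μ := by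
    filter_upwards [self_mem_nhdsWithin] with t ht
    simp only [slope_def_field]
    rw [integral_div, integral_sub (hFi t ht.1) hint]
  refine Tendsto.congr' (EventuallyEq.symm hsl) ?_
  refine tendsto_integral_filter_of_dominated_convergence bound ?_ ?_ hbi ?_
  · filter_upwards [self_mem_nhdsWithin] with t ht
    simp only [slope_def_field]
    simp only [div_eq_mul_inv]
    exact ((hm t ht.1).sub (hm θ hθ)).mul_const _
  · filter_upwards [self_mem_nhdsWithin] with t ht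
    refine Eventually.of_forall fun o => ?_
    simp only [slope_def_field]
    have hne : t - θ ≠ 0 := sub_ne_zero.2 ht.2
    rw [norm_div, div_le_iff₀ (norm_pos_iff.2 hne)]
    exact hlip o t ht.1
  · refine Eventually.of_forall fun o => ?_
    exact (hasDerivWithinAt_iff_tendsto_slope.1 (hd o θ hθ))

variable {K : Type} [Fintype K] {V : Type} [NormedAddCommGroup V] [NormedSpace ℝ V]

/-- the uniform domination -/
theorem ghw_dom {A C : ℝ} (hA : 0 ≤ A) (hC : 0 ≤ C) {u : V → ℝ} (hu : ∀ y, |u y| ≤ A * Real.exp (C * ‖y‖)) (e : K → V) (x : V)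
    {a : K → ℝ} {r : ℝ} (ha : ‖a‖ ≤ r) (ξ : K → ℝ) :
    ‖u (x + ghhLin e a ξ)‖ ≤ A * Real.exp (C * ‖x‖) * Real.exp (C * (r * ∑ k, ‖e k‖) * ‖ξ‖) := by
  rw [Real.norm_eq_abs, mul_assoc, ← Real.exp_add]
  refine (hu _).trans (mul_le_mul_of_nonneg_left (Real.exp_le_exp.2 ?_) hA)
  have h1 : ‖x + ghhLin e a ξ‖ ≤ ‖x‖ + r * (∑ k, ‖e k‖) * ‖ξ‖ := by
    refine (norm_add_le _ _).trans (add_le_add le_rfl ((ghh_lin_norm_le e a ξ).trans ?_))
    have : 0 ≤ ∑ k, ‖e k‖ := Finset.sum_nonneg fun _ _ => norm_nonneg _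
    rw [mul_comm (∑ k, ‖e k‖)]
    gcongr
  calc C * ‖x + ghhLin e a ξ‖ ≤ C * (‖x‖ + r * (∑ k, ‖e k‖) * ‖ξ‖) := mul_le_mul_of_nonneg_left h1 hC
    _ = _ := by ring

/-- joint continuity in the parameter and the standard deviations -/
theorem ghw_cont {I : Set ℝ} {hh : ℝ → V → ℝ} (hc : ContinuousOn (fun p : ℝ × V => hh p.1 p.2) (I ×ˢ univ)) {A C : ℝ} (hC : 0 ≤ C)
    (hb : ∀ t ∈ I, ∀ y, |hh t y| ≤ A * Real.exp (C * ‖y‖)) (e : K → V) (x : V) {θ : ℝ} (hθ : θ ∈ I) (a0 : K → ℝ) :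
    ContinuousWithinAt (fun p : ℝ × (K → ℝ) => ∫ ξ, hh p.1 (x + ghhLin e p.2 ξ) ∂ghStd K) (I ×ˢ univ) (θ, a0) := by
  have hA : 0 ≤ A := by
    have := (abs_nonneg _).trans (hb θ hθ 0)
    simpa using this
  have hcy : ∀ t ∈ I, Continuous (hh t) := by
    intro t ht
    have : Continuous fun y : V => ((t, y) : ℝ × V) := by fun_prop
    exact (hc.comp_continuous this fun y => ⟨ht, mem_univ _⟩)
  refine tendsto_integral_filter_of_dominated_convergence
    (fun ξ => A * Real.exp (C * ‖x‖) * Real.exp (C * ((‖a0‖ + 1) * ∑ k, ‖e k‖) * ‖ξ‖)) ?_ ?_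
    ((ghh_integrable_exp_norm _).const_mul _) ?_
  · filter_upwards [self_mem_nhdsWithin] with p hp
    have h2 : Continuous fun ξ : K → ℝ => x + ghhLin e p.2 ξ :=
      continuous_const.add ((ghh_lin_continuous e).comp (by fun_prop : Continuous fun ξ : K → ℝ => (p.2, ξ)))
    exact ((hcy p.1 hp.1).comp h2).aestronglyMeasurable
  · have hball : ∀ᶠ p : ℝ × (K → ℝ) in 𝓝[I ×ˢ univ] (θ, a0), dist p (θ, a0) < 1 :=
      nhdsWithin_le_nhds (Metric.ball_mem_nhds _ one_pos)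
    filter_upwards [self_mem_nhdsWithin, hball] with p hp hp1
    refine Eventually.of_forall fun ξ => ghw_dom hA hC (hb p.1 hp.1) e x ?_ ξ
    have h3 : dist p.2 a0 < 1 := lt_of_le_of_lt (le_max_right _ _) (by rwa [Prod.dist_eq] at hp1)
    rw [dist_eq_norm] at h3
    have := norm_add_le a0 (p.2 - a0)
    simp only [add_sub_cancel] at this
    linarith
  · refine Eventually.of_forall fun ξ => ?_
    have hm : Tendsto (fun p : ℝ × (K → ℝ) => ((p.1, x + ghhLin e p.2 ξ) : ℝ × V)) (𝓝[I ×ˢ univ] (θ, a0))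
        (𝓝[I ×ˢ univ] (θ, x + ghhLin e a0 ξ)) := by
      refine tendsto_nhdsWithin_iff.2 ⟨?_, ?_⟩
      · have : Continuous fun p : ℝ × (K → ℝ) => ((p.1, x + ghhLin e p.2 ξ) : ℝ × V) :=
          continuous_fst.prodMk (continuous_const.add
            ((ghh_lin_continuous e).comp (by fun_prop : Continuous fun p : ℝ × (K → ℝ) => (p.2, ξ))))
        exact (this.tendsto (θ, a0)).mono_left nhdsWithin_le_nhds
      · filter_upwards [self_mem_nhdsWithin] with p hp
        exact ⟨hp.1, mem_univ _⟩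
    exact (hc (θ, x + ghhLin e a0 ξ) ⟨hθ, mem_univ _⟩).tendsto.comp hm


/-- **the heat step**: time dependent integrand, variances `w k t ≥ 0` (possibly zero), derivative within `I` -/
theorem ghw_heat {I : Set ℝ} (hI : Convex ℝ I) {θ : ℝ} (hθ : θ ∈ I) (e : K → V) (x : V)
    {w : K → ℝ → ℝ} {w' : K → ℝ} (hw : ∀ k, HasDerivWithinAt (w k) (w' k) I θ) (hw0 : ∀ k, ∀ t ∈ I, 0 ≤ w k t)
    {g gt : ℝ → V → ℝ} {A C : ℝ} (hC : 0 ≤ C)
    (hg : ∀ t ∈ I, GkEG 2 (g t))
    (hgt : ∀ t ∈ I, ∀ y, HasDerivWithinAt (fun t => g t y) (gt t y) I t)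
    (hbt : ∀ t ∈ I, ∀ y, |gt t y| ≤ A * Real.exp (C * ‖y‖))
    (hb2 : ∀ t ∈ I, ∀ k y, |ghhD (e k) (ghhD (e k) (g t)) y| ≤ A * Real.exp (C * ‖y‖))
    (hc2 : ∀ k, ContinuousOn (fun p : ℝ × V => ghhD (e k) (ghhD (e k) (g p.1)) p.2) (I ×ˢ univ)) :
    HasDerivWithinAt (fun t => gkP (ghStd K) (ghhLin e fun k => Real.sqrt (w k t)) (g t) x)
      (gkP (ghStd K) (ghhLin e fun k => Real.sqrt (w k θ)) (gt θ) x
        + 1 / 2 * ∑ k, w' k * gkP (ghStd K) (ghhLin e fun k => Real.sqrt (w k θ)) (ghhD (e k) (ghhD (e k) (g θ))) x) I θ := by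
  have hA : 0 ≤ A := by
    have := (abs_nonneg _).trans (hbt θ hθ 0)
    simpa using this
  refine ghw_sqrt_chain (Gf := fun t a => gkP (ghStd K) (ghhLin e a) (g t) x)
    (H := fun k t a => gkP (ghStd K) (ghhLin e a) (ghhD (e k) (ghhD (e k) (g t))) x) hθ ?_ ?_ hw hw0 ?_
  · intro t ht a b s
    have h1 : ∀ i, HasDerivAt (fun s : ℝ => (a + s • b) i) (b i) s := by
      intro i
      simpa using ((hasDerivAt_id s).mul_const (b i)).const_add (a i)
    exact ghh_path (hg t ht) e x (σ := fun s => a + s • b) h1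
  · intro k
    exact ghw_cont (hc2 k) hC (fun t ht y => hb2 t ht k y) e x hθ _
  · set a0 : K → ℝ := fun k => Real.sqrt (w k θ) with ha0
    unfold gkP
    refine ghw_within hI hθ (F := fun t ξ => g t (x + ghhLin e a0 ξ)) (F' := fun t ξ => gt t (x + ghhLin e a0 ξ))
      (bound := fun ξ => A * Real.exp (C * ‖x‖) * Real.exp (C * (‖a0‖ * ∑ k, ‖e k‖) * ‖ξ‖)) ?_ ?_ ?_
      ((ghh_integrable_exp_norm _).const_mul _) (fun ξ t ht => hgt t ht _)
    · intro t ht
      exact gk_aesm (ghh_noise e a0) (hg t ht).1.continuous x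
    · exact gk_int (ghh_noise e a0) (hg θ hθ).1.continuous (hg θ hθ).gr x
    · intro ξ t ht
      exact ghw_dom hA hC (hbt t ht) e x le_rfl ξ

/-- the heat step for a level of `Defs/Gh.lean` with features `Φ` and coordinate variances `w i t` -/
theorem ghw_heat_lv {S ι : Type} [Fintype S] [Fintype ι] {I : Set ℝ} (hI : Convex ℝ I) {θ : ℝ} (hθ : θ ∈ I) (Φ : S → ι → ℝ) (m : ℝ)
    (z : S → ℝ) {w : ι → ℝ → ℝ} {w' : ι → ℝ} (hw : ∀ i, HasDerivWithinAt (w i) (w' i) I θ) (hw0 : ∀ i, ∀ t ∈ I, 0 ≤ w i t)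
    {g gt : ℝ → (S → ℝ) → ℝ} {A C : ℝ} (hC : 0 ≤ C)
    (hg : ∀ t ∈ I, GkEG 2 (g t))
    (hgt : ∀ t ∈ I, ∀ y, HasDerivWithinAt (fun t => g t y) (gt t y) I t)
    (hbt : ∀ t ∈ I, ∀ y, |gt t y| ≤ A * Real.exp (C * ‖y‖))
    (hb2 : ∀ t ∈ I, ∀ i y, |ghhD (fun s => Φ s i) (ghhD (fun s => Φ s i) (g t)) y| ≤ A * Real.exp (C * ‖y‖))
    (hc2 : ∀ i, ContinuousOn (fun p : ℝ × (S → ℝ) => ghhD (fun s => Φ s i) (ghhD (fun s => Φ s i) (g p.1)) p.2) (I ×ˢ univ)) :
    HasDerivWithinAt (fun t => ∫ ξ, g t (z + (ghLvF Φ m fun i => w i t).inc ξ) ∂ghStd ι)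
      ((∫ ξ, gt θ (z + (ghLvF Φ m fun i => w i θ).inc ξ) ∂ghStd ι)
        + 1 / 2 * ∑ i, w' i * ∫ ξ, ghhD (fun s => Φ s i) (ghhD (fun s => Φ s i) (g θ)) (z + (ghLvF Φ m fun i => w i θ).inc ξ) ∂ghStd ι)
      I θ := by
  have := ghw_heat hI hθ (fun i s => Φ s i) z hw hw0 hC hg hgt hbt hb2 hc2
  simp only [ghh_incF_eq]
  exact this

end Claimed.Agent.R286
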