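import Claimed.Agent.R286.Gk.SplitNu
import Claimed.Agent.R286.Gk.Der

/-!
# Row 286 (S0533), Gaussian kit: CONSTANT SOURCES and SPIN INDEPENDENT FEATURES      (owner helper135; prefix `ghs_`, `Ghs`, `ghs*`; sorry free)      TEX[PE:found:D5-constant-feature]

= proofs of the block CONST of the contract `Fd/CSym` (helper16), hypotheses of `GhCst` unbundled; ANY class maps `rep`, ANY sign of the constants `κ j`.

* Part G: `ghs_shift_N`, `ghs_shift_nu` : constants added to the revealed fields drop out of the tree law of the spins (any masses).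
* Part H: `ghs_cst_int`, `ghs_cst_int_pi` (a level with covariance `+ k` = the level + an independent constant Gaussian), `ghs_cst_T`;
  `GhsCst κ ls ls'`, `ghsK`; `ghs_cst_F` (shift `½ ∑ m_j κ_j`), `ghs_cst_E`, `ghs_cst_H` (by differentiation, `Gk/Der` of 152), `ghs_cst_N`.
* index forms: `ghs_const_F/E/H/nu` (= `gh_sy_const_F/E/H/nu`), `ghs_shift_nu` (= `gh_sy_shift_nu`).
-/

set_option autoImplicit false
set_option linter.unusedSectionVars false

namespace Claimed.Agent.R286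

open MeasureTheory ProbabilityTheory Filter Topology
open scoped ENNReal NNReal

variable {S ι ι₁ ι₂ : Type} [Fintype S] [Fintype ι] [Fintype ι₁] [Fintype ι₂]

/-! ### Part G: constants added to the revealed fields -/

theorem ghs_shift_Gw (B : GhB S) (z : S → ℝ) (c : ℝ) (s : S) : ghGw B (fun s => z s + c) s = ghGw B z s := by
  unfold ghGw
  have e : ∀ t, B.w t * Real.exp (B.a * (z t + c)) = Real.exp (B.a * c) * (B.w t * Real.exp (B.a * z t)) := by
    intro t; rw [mul_add, Real.exp_add]; ring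
  simp_rw [e]
  rw [← Finset.mul_sum, mul_div_mul_left _ _ (Real.exp_pos _).ne']

/-- a constant added to the root field does not change the planted density -/
theorem ghs_shift_Dx {B : GhB S} (hB : B.Ok) (l : GhLv S ι) (ls : List (GhLv S ι)) (z x : S → ℝ) (c : ℝ) :
    ghsDx B l ls (fun s => z s + c) x = ghsDx B l ls z x := by
  unfold ghsDx
  have h1 : (fun s => z s + c) + x = fun s => (z + x) s + c := by
    funext s; simp only [Pi.add_apply]; ring
  rw [h1, (ghs_nice hB ls).shift, (ghs_nice hB (l :: ls)).shift]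
  congr 1; ring

/-- a constant added to the increment multiplies the planted density by `e^{m c}` -/
theorem ghs_shift_Dx' {B : GhB S} (hB : B.Ok) (l : GhLv S ι) (ls : List (GhLv S ι)) (z x : S → ℝ) (c : ℝ) :
    ghsDx B l ls z (fun s => x s + c) = Real.exp (l.m * c) * ghsDx B l ls z x := by
  unfold ghsDx
  have h1 : z + (fun s => x s + c) = fun s => (z + x) s + c := by
    funext s; simp only [Pi.add_apply]; ring
  rw [h1, (ghs_nice hB ls).shift, ← Real.exp_add]
  congr 1; ring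

/-- **constants added to the revealed fields do not change the tree law of the spins** (any class maps, any constants, any masses) -/
theorem ghs_shift_N {B : GhB S} (hB : B.Ok) {q : ℕ} (P : (Fin q → S) → ℝ) :
    ∀ (ls : List (GhLv S ι)) (rep : ℕ → Fin q → Fin q) (G : Fin q → S → ℝ) (c : Fin q → ℝ),
      ghsN B ls rep P (fun a s => G a s + c a) = ghsN B ls rep P G
  | [], rep, G, c => by
      rw [ghs_N_nil, ghs_N_nil]
      simp_rw [ghs_shift_Gw]
  | l :: ls, rep, G, c => by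
      rw [ghs_N_cons]
      unfold ghsAT
      refine integral_congr_ae (Eventually.of_forall fun W => ?_)
      simp only [ghs_DT_eq_DTx]
      congr 1
      · unfold ghsDTx
        refine Finset.prod_congr rfl fun a _ => ?_
        split_ifs
        · exact ghs_shift_Dx hB l ls (G a) _ (c a)
        · rfl
      · have := ghs_shift_N hB P ls (fun t => rep (t + 1)) (fun a => G a + l.inc (W (rep 0 a))) c
        rw [← this]
        congr 1
        funext a s
        simp only [Pi.add_apply]; ring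

/-! ### Part H: a spin independent feature -/

theorem ghs_unit_int (f : ℝ → ℝ) (hf : Measurable f) :
    ∫ η : Unit → ℝ, f (η ()) ∂ghStd Unit = ∫ x, f x ∂gaussianReal 0 1 := by
  have mp := measurePreserving_eval (fun _ : Unit => gaussianReal 0 1) ()
  rw [← mp.map_eq, integral_map mp.measurable.aemeasurable hf.aestronglyMeasurable]
  rfl

theorem ghs_unit_mgf (t : ℝ) : ∫ η : Unit → ℝ, Real.exp (t * η ()) ∂ghStd Unit = Real.exp (t ^ 2 / 2) := by
  rw [ghs_unit_int (fun x => Real.exp (t * x)) (by fun_prop)]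
  have := congrFun (mgf_id_gaussianReal (μ := 0) (v := 1)) t
  simp only [mgf, id] at this
  rw [this]
  congr 1
  simp

theorem ghs_unit_mean : ∫ η : Unit → ℝ, η () ∂ghStd Unit = 0 := by
  rw [ghs_unit_int (fun x => x) measurable_id]
  exact integral_id_gaussianReal

theorem ghs_unit_integrable : Integrable (fun η : Unit → ℝ => η ()) (ghStd Unit) := by
  have mp := measurePreserving_eval (fun _ : Unit => gaussianReal 0 1) ()
  have h : Integrable (fun x : ℝ => x) (gaussianReal 0 1) := by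
    have := (memLp_id_gaussianReal (μ := 0) (v := 1) 1).integrable le_rfl
    exact this
  exact mp.integrable_comp_of_integrable h

/-- the constant level of variance `k` -/
noncomputable def ghsC (S : Type) (k : ℝ) : GhLv S Unit := ⟨0, fun _ _ => Real.sqrt k⟩

theorem ghs_C_cov {k : ℝ} (hk : 0 ≤ k) (s t : S) : (ghsC S k).cov s t = k := by
  simp [GhLv.cov, ghsC, Real.mul_self_sqrt hk]

theorem ghs_C_inc (k : ℝ) (η : Unit → ℝ) : (ghsC S k).inc η = fun _ => Real.sqrt k * η () := by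
  funext s; simp [GhLv.inc, ghsC]

/-- multiplicative homogeneity: `k ≥ 0` -/
theorem ghs_cst_int_pos (l : GhLv S ι) (l' : GhLv S ι₁) {k : ℝ} (hk : 0 ≤ k) (hc : ∀ s t, l'.cov s t = l.cov s t + k)
    (μ : ℝ) (Ψ : (S → ℝ) → ℝ) (hΨ : Measurable Ψ) (hh : ∀ x c, Ψ (fun s => x s + c) = Real.exp (μ * c) * Ψ x)
    (hi : Integrable (fun ξ => Ψ (l'.inc ξ)) (ghStd ι₁)) :
    ∫ ξ, Ψ (l'.inc ξ) ∂ghStd ι₁ = Real.exp (μ ^ 2 * k / 2) * ∫ ξ, Ψ (l.inc ξ) ∂ghStd ι := by
  rw [← ghs_integral_merge l (ghsC S k) l' (fun s t => by rw [hc, ghs_C_cov hk]) Ψ hΨ hi, ← integral_const_mul]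
  refine integral_congr_ae (Eventually.of_forall fun ξ => ?_)
  simp only
  have e : ∀ η : Unit → ℝ, Ψ (l.inc ξ + (ghsC S k).inc η) = Real.exp (μ * Real.sqrt k * η ()) * Ψ (l.inc ξ) := by
    intro η
    rw [ghs_C_inc, mul_assoc μ, ← hh]
    rfl
  simp_rw [e]
  rw [integral_mul_const, ghs_unit_mgf]
  congr 2
  rw [mul_pow, Real.sq_sqrt hk]

/-- multiplicative homogeneity: any sign of `k` -/
theorem ghs_cst_int (l : GhLv S ι) (l' : GhLv S ι₁) {k : ℝ} (hc : ∀ s t, l'.cov s t = l.cov s t + k)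
    (μ : ℝ) (Ψ : (S → ℝ) → ℝ) (hΨ : Measurable Ψ) (hh : ∀ x c, Ψ (fun s => x s + c) = Real.exp (μ * c) * Ψ x)
    (hi : Integrable (fun ξ => Ψ (l.inc ξ)) (ghStd ι)) (hi' : Integrable (fun ξ => Ψ (l'.inc ξ)) (ghStd ι₁)) :
    ∫ ξ, Ψ (l'.inc ξ) ∂ghStd ι₁ = Real.exp (μ ^ 2 * k / 2) * ∫ ξ, Ψ (l.inc ξ) ∂ghStd ι := by
  rcases le_or_gt 0 k with hk | hk
  · exact ghs_cst_int_pos l l' hk hc μ Ψ hΨ hh hi'
  · have := ghs_cst_int_pos l' l (k := -k) (by linarith) (fun s t => by rw [hc]; ring) μ Ψ hΨ hh hi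
    rw [this, ← mul_assoc, ← Real.exp_add]
    have : μ ^ 2 * k / 2 + μ ^ 2 * -k / 2 = 0 := by ring
    rw [this, Real.exp_zero, one_mul]

/-- additive homogeneity -/
theorem ghs_cst_int_add_pos (l : GhLv S ι) (l' : GhLv S ι₁) {k : ℝ} (hk : 0 ≤ k) (hc : ∀ s t, l'.cov s t = l.cov s t + k)
    (Ψ : (S → ℝ) → ℝ) (hΨ : Measurable Ψ) (hh : ∀ x c, Ψ (fun s => x s + c) = Ψ x + c)
    (hi : Integrable (fun ξ => Ψ (l'.inc ξ)) (ghStd ι₁)) :
    ∫ ξ, Ψ (l'.inc ξ) ∂ghStd ι₁ = ∫ ξ, Ψ (l.inc ξ) ∂ghStd ι := by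
  rw [← ghs_integral_merge l (ghsC S k) l' (fun s t => by rw [hc, ghs_C_cov hk]) Ψ hΨ hi]
  refine integral_congr_ae (Eventually.of_forall fun ξ => ?_)
  simp only
  have e : ∀ η : Unit → ℝ, Ψ (l.inc ξ + (ghsC S k).inc η) = Ψ (l.inc ξ) + Real.sqrt k * η () := by
    intro η
    rw [ghs_C_inc, ← hh]
    rfl
  simp_rw [e]
  rw [integral_add (integrable_const _) (ghs_unit_integrable.const_mul _), integral_const_mul, ghs_unit_mean]
  simp

theorem ghs_cst_int_add (l : GhLv S ι) (l' : GhLv S ι₁) {k : ℝ} (hc : ∀ s t, l'.cov s t = l.cov s t + k)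
    (Ψ : (S → ℝ) → ℝ) (hΨ : Measurable Ψ) (hh : ∀ x c, Ψ (fun s => x s + c) = Ψ x + c)
    (hi : Integrable (fun ξ => Ψ (l.inc ξ)) (ghStd ι)) (hi' : Integrable (fun ξ => Ψ (l'.inc ξ)) (ghStd ι₁)) :
    ∫ ξ, Ψ (l'.inc ξ) ∂ghStd ι₁ = ∫ ξ, Ψ (l.inc ξ) ∂ghStd ι := by
  rcases le_or_gt 0 k with hk | hk
  · exact ghs_cst_int_add_pos l l' hk hc Ψ hΨ hh hi'
  · exact (ghs_cst_int_add_pos l' l (k := -k) (by linarith) (fun s t => by rw [hc]; ring) Ψ hΨ hh hi).symm

/-- one step `T_m` -/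
theorem ghs_cst_T {F : (S → ℝ) → ℝ} (hF : GhNice F) (l : GhLv S ι) (l' : GhLv S ι₁) (hm : l'.m = l.m) {k : ℝ}
    (hc : ∀ s t, l'.cov s t = l.cov s t + k) (z : S → ℝ) :
    ghT (ghStd ι₁) l'.m (fun ξ => F (z + l'.inc ξ)) = ghT (ghStd ι) l.m (fun ξ => F (z + l.inc ξ)) + l.m * k / 2 := by
  have hFm : Measurable fun x => F (z + x) := hF.continuous.measurable.comp (measurable_const.add measurable_id)
  have hsh : ∀ x c, F (z + fun s => x s + c) = F (z + x) + c := by
    intro x c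
    rw [← hF.shift]
    congr 1
    funext s; simp only [Pi.add_apply]; ring
  unfold ghT
  rw [hm]
  split_ifs with h0
  · rw [h0]
    simp only [zero_mul, zero_div, add_zero]
    exact ghs_cst_int_add l l' hc (fun x => F (z + x)) hFm hsh (hF.integrable l z) (hF.integrable l' z)
  · rw [ghs_cst_int l l' hc l.m (fun x => Real.exp (l.m * F (z + x))) (Real.measurable_exp.comp (measurable_const.mul hFm))
      (fun x c => by rw [hsh, mul_add, Real.exp_add, mul_comm]) (hF.integrable_exp l l.m z) (hF.integrable_exp l' l.m z),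
      Real.log_mul (Real.exp_pos _).ne' (hF.integral_exp_pos l l.m z).ne', Real.log_exp]
    field_simp
    ring


/-- recursion friendly form of `GhCst` (`Fd/CSym`): same masses, covariance increments `+ κ j` -/
def GhsCst : (ℕ → ℝ) → List (GhLv S ι) → List (GhLv S ι₁) → Prop
  | _, [], [] => True
  | κ, l :: ls, l' :: ls' => (l'.m = l.m ∧ ∀ s t, l'.cov s t = l.cov s t + κ 0) ∧ GhsCst (fun j => κ (j + 1)) ls ls'
  | _, _ :: _, [] => False
  | _, [], _ :: _ => False

/-- the shift of the continuation -/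
noncomputable def ghsK : List (GhLv S ι) → (ℕ → ℝ) → ℝ
  | [], _ => 0
  | l :: ls, κ => l.m * κ 0 / 2 + ghsK ls fun j => κ (j + 1)

/-- **a constant feature shifts the continuation by `½ ∑ m_j κ_j`** (any masses, any signs) -/
theorem ghs_cst_F {B : GhB S} (hB : B.Ok) : ∀ (ls : List (GhLv S ι)) (ls' : List (GhLv S ι₁)) (κ : ℕ → ℝ),
    GhsCst κ ls ls' → ∀ z, ghF B ls' z = ghF B ls z + ghsK ls κ
  | [], [], _, _, z => by simp [ghsK, ghF]
  | l :: ls, l' :: ls', κ, h, z => by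
      have ih := ghs_cst_F hB ls ls' _ h.2
      set K := ghsK ls fun j => κ (j + 1) with hK
      have e : ∀ ξ, ghF B ls' (z + l'.inc ξ) = ghF B ls ((fun s => z s + K) + l'.inc ξ) := by
        intro ξ
        rw [ih, ← (ghs_nice hB ls).shift]
        congr 1
        funext s; simp only [Pi.add_apply]; ring
      have h1 : ghF B (l' :: ls') z = ghT (ghStd ι₁) l'.m fun ξ => ghF B ls ((fun s => z s + K) + l'.inc ξ) := by
        simp only [ghF, e]
      rw [h1, ghs_cst_T (ghs_nice hB ls) l l' h.1.1 h.1.2]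
      have h2 : ghT (ghStd ι) l.m (fun ξ => ghF B ls ((fun s => z s + K) + l.inc ξ)) = ghF B (l :: ls) fun s => z s + K := rfl
      rw [h2, (ghs_nice hB (l :: ls)).shift]
      simp only [ghsK, ← hK]
      ring
  | _ :: _, [], _, h, _ => h.elim
  | [], _ :: _, _, h, _ => h.elim

theorem ghs_cst_E {B : GhB S} (hB : B.Ok) {ls : List (GhLv S ι)} {ls' : List (GhLv S ι₁)} {κ : ℕ → ℝ}
    (h : GhsCst κ ls ls') (Φ : S → ℝ) : ghE B ls' Φ = ghE B ls Φ := by
  funext z
  have e : ghF B ls' = fun z => ghF B ls z + ghsK ls κ := funext (ghs_cst_F hB ls ls' κ h)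
  rw [← ghd_fderiv_F hB ls' z Φ, ← ghd_fderiv_F hB ls z Φ, e, fderiv_add_const]

theorem ghs_cst_H {B : GhB S} (hB : B.Ok) {ls : List (GhLv S ι)} {ls' : List (GhLv S ι₁)} {κ : ℕ → ℝ}
    (h : GhsCst κ ls ls') (v w : S → ℝ) : ghH B ls' v w = ghH B ls v w := by
  funext z
  rw [← ghd_fderiv_E hB ls' v w z, ← ghd_fderiv_E hB ls v w z, ghs_cst_E hB h v]

theorem GhsCst.nn : ∀ {ls : List (GhLv S ι)} {ls' : List (GhLv S ι₁)} {κ : ℕ → ℝ}, GhsCst κ ls ls' → GhNn ls → GhNn ls'
  | [], [], _, _, _ => gh_b_nn_nil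
  | l :: ls, l' :: ls', κ, h, hnn => by
      intro x hx
      rcases List.mem_cons.1 hx with rfl | hx
      · rw [h.1.1]; exact hnn.head
      · exact GhsCst.nn h.2 hnn.tail x hx
  | _ :: _, [], _, h, _ => h.elim
  | [], _ :: _, _, h, _ => h.elim

/-! ### the tree law -/

theorem ghs_unit_mgf_pi (q : ℕ) (t : Fin q → ℝ) :
    ∫ V : Fin q → Unit → ℝ, Real.exp (∑ a, t a * V a ()) ∂(Measure.pi fun _ : Fin q => ghStd Unit)
      = Real.exp (∑ a, t a ^ 2 / 2) := by
  simp_rw [Real.exp_sum]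
  rw [integral_fintype_prod_eq_prod (μ := fun _ : Fin q => ghStd Unit) (fun a (η : Unit → ℝ) => Real.exp (t a * η ()))]
  exact Finset.prod_congr rfl fun a _ => ghs_unit_mgf (t a)

theorem ghs_cst_int_pi_pos (q : ℕ) (l : GhLv S ι) (l' : GhLv S ι₁) {k : ℝ} (hk : 0 ≤ k)
    (hc : ∀ s t, l'.cov s t = l.cov s t + k) (μ : Fin q → ℝ) (Ψ : (Fin q → S → ℝ) → ℝ) (hΨ : Measurable Ψ)
    (hh : ∀ x (c : Fin q → ℝ), Ψ (fun a s => x a s + c a) = Real.exp (∑ a, μ a * c a) * Ψ x)
    (hi : Integrable (fun W => Ψ (fun a => l'.inc (W a))) (Measure.pi fun _ : Fin q => ghStd ι₁)) :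
    ∫ W, Ψ (fun a => l'.inc (W a)) ∂(Measure.pi fun _ : Fin q => ghStd ι₁)
      = Real.exp (∑ a, μ a ^ 2 * k / 2) * ∫ W, Ψ (fun a => l.inc (W a)) ∂(Measure.pi fun _ : Fin q => ghStd ι) := by
  rw [← ghs_integral_pi_merge q l (ghsC S k) l' (fun s t => by rw [hc, ghs_C_cov hk]) Ψ hΨ hi, ← integral_const_mul]
  refine integral_congr_ae (Eventually.of_forall fun W => ?_)
  simp only
  have e : ∀ V : Fin q → Unit → ℝ, Ψ (fun a => l.inc (W a) + (ghsC S k).inc (V a))
      = Real.exp (∑ a, μ a * Real.sqrt k * V a ()) * Ψ fun a => l.inc (W a) := by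
    intro V
    simp_rw [ghs_C_inc, mul_assoc (μ _)]
    rw [← hh]
    rfl
  simp_rw [e]
  rw [integral_mul_const, ghs_unit_mgf_pi]
  congr 2
  refine Finset.sum_congr rfl fun a _ => ?_
  rw [mul_pow, Real.sq_sqrt hk]

theorem ghs_cst_int_pi (q : ℕ) (l : GhLv S ι) (l' : GhLv S ι₁) {k : ℝ}
    (hc : ∀ s t, l'.cov s t = l.cov s t + k) (μ : Fin q → ℝ) (Ψ : (Fin q → S → ℝ) → ℝ) (hΨ : Measurable Ψ)
    (hh : ∀ x (c : Fin q → ℝ), Ψ (fun a s => x a s + c a) = Real.exp (∑ a, μ a * c a) * Ψ x)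
    (hi : Integrable (fun W => Ψ (fun a => l.inc (W a))) (Measure.pi fun _ : Fin q => ghStd ι))
    (hi' : Integrable (fun W => Ψ (fun a => l'.inc (W a))) (Measure.pi fun _ : Fin q => ghStd ι₁)) :
    ∫ W, Ψ (fun a => l'.inc (W a)) ∂(Measure.pi fun _ : Fin q => ghStd ι₁)
      = Real.exp (∑ a, μ a ^ 2 * k / 2) * ∫ W, Ψ (fun a => l.inc (W a)) ∂(Measure.pi fun _ : Fin q => ghStd ι) := by
  rcases le_or_gt 0 k with hk | hk
  · exact ghs_cst_int_pi_pos q l l' hk hc μ Ψ hΨ hh hi'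
  · have := ghs_cst_int_pi_pos q l' l (k := -k) (by linarith) (fun s t => by rw [hc]; ring) μ Ψ hΨ hh hi
    rw [this, ← mul_assoc, ← Real.exp_add, ← Finset.sum_add_distrib]
    have : ∑ a, (μ a ^ 2 * k / 2 + μ a ^ 2 * -k / 2) = 0 := Finset.sum_eq_zero fun a _ => by ring
    rw [this, Real.exp_zero, one_mul]

/-- one revelation of the tree law -/
theorem ghs_cst_AT {B : GhB S} (hB : B.Ok) {q : ℕ} (l : GhLv S ι) (l' : GhLv S ι₁) (ls : List (GhLv S ι)) (ls' : List (GhLv S ι₁))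
    (hnn : GhNn (l :: ls)) (hnn' : GhNn (l' :: ls')) (hm : l'.m = l.m) {k K : ℝ} (hc : ∀ s t, l'.cov s t = l.cov s t + k)
    (hF : ∀ z, ghF B ls' z = ghF B ls z + K) (hF' : ∀ z, ghF B (l' :: ls') z = ghF B (l :: ls) z + (l.m * k / 2 + K))
    (r : Fin q → Fin q) {g : (Fin q → S → ℝ) → ℝ} {M : ℝ} (hgc : Continuous g) (hgM : ∀ G, |g G| ≤ M)
    (hgs : ∀ G (c : Fin q → ℝ), g (fun a s => G a s + c a) = g G) :
    ghsAT B l' ls' r g = ghsAT B l ls r g := by
  funext G
  set μ : Fin q → ℝ := fun a => if r a = a then l.m else 0 with hμ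
  set E : ℝ := Real.exp (∑ a, μ a ^ 2 * k / 2) with hE
  have hEpos : 0 < E := Real.exp_pos _
  -- densities
  have hDx : ∀ z x, ghsDx B l ls z x = Real.exp (l.m ^ 2 * k / 2) * ghsDx B l' ls' z x := by
    intro z x
    unfold ghsDx
    rw [hF, hF', hm, ← Real.exp_add]
    congr 1; ring
  have hDT : ∀ x, ghsDTx B l ls r G x = E * ghsDTx B l' ls' r G x := by
    intro x
    unfold ghsDTx
    rw [hE, Real.exp_sum, ← Finset.prod_mul_distrib]
    refine Finset.prod_congr rfl fun a _ => ?_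
    simp only [hμ]
    split_ifs
    · exact hDx _ _
    · simp
  set Ψ : (Fin q → S → ℝ) → ℝ := fun x => ghsDTx B l ls r G x * g (fun a => G a + x (r a)) with hΨ
  have hΨm : Measurable Ψ := (ghs_DTx_measurable hB l ls r G).mul (hgc.measurable.comp
    (measurable_pi_lambda _ fun a => measurable_const.add (measurable_pi_apply (r a))))
  have hh : ∀ x (c : Fin q → ℝ), Ψ (fun a s => x a s + c a) = Real.exp (∑ a, μ a * c a) * Ψ x := by
    intro x c
    simp only [hΨ]
    have h1 : ghsDTx B l ls r G (fun a s => x a s + c a) = Real.exp (∑ a, μ a * c a) * ghsDTx B l ls r G x := by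
      unfold ghsDTx
      rw [Real.exp_sum, ← Finset.prod_mul_distrib]
      refine Finset.prod_congr rfl fun a _ => ?_
      simp only [hμ]
      split_ifs
      · exact ghs_shift_Dx' hB l ls (G a) (x a) (c a)
      · simp
    have h2 : g (fun a => G a + fun s => x (r a) s + c (r a)) = g fun a => G a + x (r a) := by
      rw [← hgs (fun a => G a + x (r a)) fun a => c (r a)]
      congr 1
      funext a s
      simp only [Pi.add_apply]; ring
    rw [h1, h2, mul_assoc]
  have hi : Integrable (fun W : Fin q → ι → ℝ => Ψ fun a => l.inc (W a)) (Measure.pi fun _ : Fin q => ghStd ι) :=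
    ghs_AT_integrable hB hnn r hgc hgM G
  have hΨ' : ∀ W : Fin q → ι₁ → ℝ, Ψ (fun a => l'.inc (W a))
      = E * (ghDT B l' ls' r G W * g (fun a => G a + l'.inc (W (r a)))) := by
    intro W
    simp only [hΨ]
    rw [hDT, ghs_DT_eq_DTx, mul_assoc]
  have hi' : Integrable (fun W : Fin q → ι₁ → ℝ => Ψ fun a => l'.inc (W a)) (Measure.pi fun _ : Fin q => ghStd ι₁) := by
    simp_rw [hΨ']
    exact (ghs_AT_integrable hB hnn' r hgc hgM G).const_mul E
  have key := ghs_cst_int_pi q l l' hc μ Ψ hΨm hh hi hi'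
  simp_rw [hΨ'] at key
  rw [integral_const_mul] at key
  exact mul_left_cancel₀ hEpos.ne' key

/-- **a constant feature does not change the tree laws of the spins** (any class maps) -/
theorem ghs_cst_N {B : GhB S} (hB : B.Ok) {q : ℕ} (P : (Fin q → S) → ℝ) :
    ∀ (ls : List (GhLv S ι)) (ls' : List (GhLv S ι₁)) (κ : ℕ → ℝ), GhsCst κ ls ls' → GhNn ls →
      ∀ rep : ℕ → Fin q → Fin q, ghsN B ls' rep P = ghsN B ls rep P
  | [], [], _, _, _, rep => rfl
  | l :: ls, l' :: ls', κ, h, hnn, rep => by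
      rw [ghs_N_cons, ghs_N_cons, ghs_cst_N hB P ls ls' _ h.2 hnn.tail]
      refine ghs_cst_AT hB l l' ls ls' hnn (GhsCst.nn h hnn) h.1.1 h.1.2 (ghs_cst_F hB ls ls' _ h.2)
        (fun z => ghs_cst_F hB (l :: ls) (l' :: ls') κ h z) (rep 0) (ghs_N_continuous hB P hnn.tail _)
        (ghs_N_abs_le hB hnn.tail _ P) (fun G c => ghs_shift_N hB P ls _ G c)
  | _ :: _, [], _, h, _, _ => h.elim
  | [], _ :: _, _, h, _, _ => h.elim


/-! ### index forms (= the block CONST of the contract `Fd/CSym`, hypotheses of `GhCst` unbundled) -/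

theorem ghs_cst_of_idx : ∀ (ls : List (GhLv S ι)) (ls' : List (GhLv S ι₁)) (κ : ℕ → ℝ),
    ls'.map GhLv.m = ls.map GhLv.m →
    (∀ j (h : j < ls.length) (h' : j < ls'.length) (s t : S), (ls'[j]).cov s t = (ls[j]).cov s t + κ j) → GhsCst κ ls ls'
  | [], [], _, _, _ => trivial
  | l :: ls, l' :: ls', κ, hm, hc => by
      simp only [List.map_cons, List.cons.injEq] at hm
      refine ⟨⟨hm.1, fun s t => hc 0 (by simp) (by simp) s t⟩, ghs_cst_of_idx ls ls' _ hm.2 fun j h h' s t => ?_⟩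
      have := hc (j + 1) (by simpa using h) (by simpa using h') s t
      simpa using this
  | _ :: _, [], _, hm, _ => by simp at hm
  | [], _ :: _, _, hm, _ => by simp at hm

theorem ghs_K_eq : ∀ (ls : List (GhLv S ι)) (κ : ℕ → ℝ),
    ghsK ls κ = (1 / 2) * ∑ j ∈ Finset.range ls.length, (ls.map GhLv.m).getD j 0 * κ j
  | [], _ => by simp [ghsK]
  | l :: ls, κ => by
      rw [ghsK, ghs_K_eq ls, List.length_cons, Finset.sum_range_succ']
      simp only [List.map_cons, List.getD_cons_succ, List.getD_cons_zero]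
      ring

theorem ghs_const_F {B : GhB S} (hB : B.Ok) {κ : ℕ → ℝ} {ls : List (GhLv S ι)} {ls' : List (GhLv S ι₁)}
    (hm : ls'.map GhLv.m = ls.map GhLv.m)
    (hc : ∀ j (h : j < ls.length) (h' : j < ls'.length) (s t : S), (ls'[j]).cov s t = (ls[j]).cov s t + κ j) (z : S → ℝ) :
    ghF B ls' z = ghF B ls z + (1 / 2) * ∑ j ∈ Finset.range ls.length, (ls.map GhLv.m).getD j 0 * κ j := by
  rw [← ghs_K_eq]
  exact ghs_cst_F hB ls ls' κ (ghs_cst_of_idx ls ls' κ hm hc) z

theorem ghs_const_E {B : GhB S} (hB : B.Ok) {κ : ℕ → ℝ} {ls : List (GhLv S ι)} {ls' : List (GhLv S ι₁)}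
    (hm : ls'.map GhLv.m = ls.map GhLv.m)
    (hc : ∀ j (h : j < ls.length) (h' : j < ls'.length) (s t : S), (ls'[j]).cov s t = (ls[j]).cov s t + κ j) (Φ z : S → ℝ) :
    ghE B ls' Φ z = ghE B ls Φ z :=
  congrFun (ghs_cst_E hB (ghs_cst_of_idx ls ls' κ hm hc) Φ) z

theorem ghs_const_H {B : GhB S} (hB : B.Ok) {κ : ℕ → ℝ} {ls : List (GhLv S ι)} {ls' : List (GhLv S ι₁)}
    (hm : ls'.map GhLv.m = ls.map GhLv.m)
    (hc : ∀ j (h : j < ls.length) (h' : j < ls'.length) (s t : S), (ls'[j]).cov s t = (ls[j]).cov s t + κ j) (v w z : S → ℝ) :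
    ghH B ls' v w z = ghH B ls v w z :=
  congrFun (ghs_cst_H hB (ghs_cst_of_idx ls ls' κ hm hc) v w) z

theorem ghs_const_nu {B : GhB S} (hB : B.Ok) {κ : ℕ → ℝ} {ls : List (GhLv S ι)} {ls' : List (GhLv S ι₁)} (hnn : GhNn ls)
    (hm : ls'.map GhLv.m = ls.map GhLv.m)
    (hc : ∀ j (h : j < ls.length) (h' : j < ls'.length) (s t : S), (ls'[j]).cov s t = (ls[j]).cov s t + κ j)
    {q : ℕ} (rep : ℕ → Fin q → Fin q) (G : Fin q → S → ℝ) (P : (Fin q → S) → ℝ) :
    ghNu B ls' rep G (fun _ σ => P σ) = ghNu B ls rep G fun _ σ => P σ :=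
  congrFun (ghs_cst_N hB P ls ls' κ (ghs_cst_of_idx ls ls' κ hm hc) hnn rep) G

theorem ghs_shift_nu {B : GhB S} (hB : B.Ok) (ls : List (GhLv S ι)) {q : ℕ} (rep : ℕ → Fin q → Fin q)
    (G : Fin q → S → ℝ) (c : Fin q → ℝ) (P : (Fin q → S) → ℝ) :
    ghNu B ls rep (fun x s => G x s + c x) (fun _ σ => P σ) = ghNu B ls rep G fun _ σ => P σ :=
  ghs_shift_N hB P ls rep G c


theorem ghs_cst_eqns_cite : True := by
  have := @ghsC.eq_1
  have := @GhsCst.eq_1
  have := @GhsCst.eq_2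
  have := @GhsCst.eq_3
  have := @GhsCst.eq_4
  have := @GhsCst.eq_def
  have := @GhsCst.induct
  have := @ghsK.eq_1
  have := @ghsK.eq_2
  have := @ghsK.eq_def
  have := @ghsK.induct
  trivial

end Claimed.Agent.R286
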