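import Claimed.Agent.R286.Gk.SplitNu
import Claimed.Agent.R286.Defs.Tr

/-!
# Row 286 (S0533), Gaussian kit: GLOBAL SYMMETRY of `ghF` and of the raw tree law on spin tests, for ARBITRARY class maps `rep` (no `GhRepOk`)      (owner helper135; prefix `ghs_`; sorry free)
`ghs_sym_F`, `ghs_sym_N`; `ghs_tr_nu_sym` = `tr_nu_sym` of `Fd/TrB5` with the missing hypothesis `TrUses q P`.      (Labelwise transport: `Fd/SymA`, `Fd/CSym` of helper16.)
-/

set_option autoImplicit false
set_option linter.unusedSectionVars false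

namespace Claimed.Agent.R286

open MeasureTheory ProbabilityTheory Filter Topology
open scoped ENNReal NNReal

variable {S ι ι₁ ι₂ : Type} [Fintype S] [Fintype ι] [Fintype ι₁] [Fintype ι₂]

/-! ### Part F: global symmetry, ARBITRARY class maps -/

/-- the level read through `e` -/
def ghsPb (e : S → S) (l : GhLv S ι) : GhLv S ι := ⟨l.m, fun s i => l.A (e s) i⟩

theorem ghs_pb_inc (e : S → S) (l : GhLv S ι) (ξ : ι → ℝ) : (ghsPb e l).inc ξ = fun s => l.inc ξ (e s) := rfl

theorem ghs_pb_cov (e : S → S) (l : GhLv S ι) (s t : S) : (ghsPb e l).cov s t = l.cov (e s) (e t) := rfl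

theorem ghs_sym_Z (B : GhB S) (e : S ≃ S) (hw : ∀ s, B.w (e s) = B.w s) (z : S → ℝ) :
    ∑ s, B.w s * Real.exp (B.a * z (e s)) = ∑ s, B.w s * Real.exp (B.a * z s) := by
  rw [← Equiv.sum_comp e fun s => B.w s * Real.exp (B.a * z s)]
  exact Finset.sum_congr rfl fun s _ => by rw [hw]

theorem ghs_sym_F0 (B : GhB S) (e : S ≃ S) (hw : ∀ s, B.w (e s) = B.w s) (z : S → ℝ) :
    ghF0 B (fun s => z (e s)) = ghF0 B z := by
  unfold ghF0; rw [ghs_sym_Z B e hw]

theorem ghs_sym_Gw (B : GhB S) (e : S ≃ S) (hw : ∀ s, B.w (e s) = B.w s) (z : S → ℝ) (s : S) :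
    ghGw B (fun s => z (e s)) s = ghGw B z (e s) := by
  unfold ghGw; rw [ghs_sym_Z B e hw, hw]

/-- invariance of the continuation -/
theorem ghs_sym_F {B : GhB S} (hB : B.Ok) (e : S ≃ S) (hw : ∀ s, B.w (e s) = B.w s) :
    ∀ ls : List (GhLv S ι), (∀ l ∈ ls, ∀ s t, l.cov (e s) (e t) = l.cov s t) →
      ∀ z : S → ℝ, ghF B ls (fun s => z (e s)) = ghF B ls z
  | [], _, z => ghs_sym_F0 B e hw z
  | l :: ls, hc, z => by
      have ih := ghs_sym_F hB e hw ls fun l' hl' => hc l' (List.mem_cons_of_mem _ hl')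
      simp only [ghF]
      rw [ghs_T_congr l (ghsPb e l) rfl (fun s t => (hc l List.mem_cons_self s t).symm) _ (ghs_F_measurable hB ls)]
      have : ∀ ξ, ghF B ls ((fun s => z (e s)) + (ghsPb e l).inc ξ) = ghF B ls (z + l.inc ξ) := fun ξ =>
        ih (z + l.inc ξ)
      simp_rw [this]
      rfl

theorem ghs_sym_Dx {B : GhB S} (hB : B.Ok) (e : S ≃ S) (hw : ∀ s, B.w (e s) = B.w s) (l : GhLv S ι) (ls : List (GhLv S ι))
    (hc : ∀ l' ∈ l :: ls, ∀ s t, l'.cov (e s) (e t) = l'.cov s t) (z x : S → ℝ) :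
    ghsDx B l ls (fun s => z (e s)) (fun s => x (e s)) = ghsDx B l ls z x := by
  unfold ghsDx
  rw [ghs_sym_F hB e hw (l :: ls) hc z]
  have := ghs_sym_F hB e hw ls (fun l' hl' => hc l' (List.mem_cons_of_mem _ hl')) (z + x)
  rw [← this]
  rfl

/-- invariance of one revelation of the tree law -/
theorem ghs_sym_AT {B : GhB S} (hB : B.Ok) {q : ℕ} (e : S ≃ S) (hw : ∀ s, B.w (e s) = B.w s) (l : GhLv S ι)
    (ls : List (GhLv S ι)) (hc : ∀ l' ∈ l :: ls, ∀ s t, l'.cov (e s) (e t) = l'.cov s t) (r : Fin q → Fin q)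
    (g g' : (Fin q → S → ℝ) → ℝ) (hg' : Measurable g') (hgg : ∀ G, g' (fun a s => G a (e s)) = g G) (G : Fin q → S → ℝ) :
    ghsAT B l ls r g' (fun a s => G a (e s)) = ghsAT B l ls r g G := by
  unfold ghsAT
  simp only [ghs_DT_eq_DTx]
  rw [ghs_integral_pi_congr q l (ghsPb e l) (fun s t => (hc l List.mem_cons_self s t).symm)
    (fun x => ghsDTx B l ls r (fun a s => G a (e s)) x * g' (fun a => (fun s => G a (e s)) + x (r a)))
    ((ghs_DTx_measurable hB l ls r _).mul (hg'.comp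
      (measurable_pi_lambda _ fun a => measurable_const.add (measurable_pi_apply (r a)))))]
  refine integral_congr_ae (Eventually.of_forall fun W => ?_)
  simp only
  congr 1
  · unfold ghsDTx
    refine Finset.prod_congr rfl fun a _ => ?_
    split_ifs
    · exact ghs_sym_Dx hB e hw l ls hc (G a) (l.inc (W a))
    · rfl
  · exact hgg fun a => G a + l.inc (W (r a))

/-- **global symmetry of the tree law** (spin tests, arbitrary class maps) -/
theorem ghs_sym_N {B : GhB S} (hB : B.Ok) {q : ℕ} (e : S ≃ S) (hw : ∀ s, B.w (e s) = B.w s) (P : (Fin q → S) → ℝ) :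
    ∀ ls : List (GhLv S ι), GhNn ls → (∀ l ∈ ls, ∀ s t, l.cov (e s) (e t) = l.cov s t) →
      ∀ (rep : ℕ → Fin q → Fin q) (G : Fin q → S → ℝ),
        ghsN B ls rep (fun σ => P fun a => e (σ a)) (fun a s => G a (e s)) = ghsN B ls rep P G
  | [], _, _, rep, G => by
      rw [ghs_N_nil, ghs_N_nil]
      rw [← Equiv.sum_comp (Equiv.piCongrRight fun _ : Fin q => e)
        fun σ : Fin q → S => (∏ a, ghGw B (G a) (σ a)) * P fun a => σ (rep 0 a)]
      refine Finset.sum_congr rfl fun σ _ => ?_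
      congr 1
      exact Finset.prod_congr rfl fun a _ => ghs_sym_Gw B e hw (G a) (σ a)
  | l :: ls, hnn, hc, rep, G => by
      rw [ghs_N_cons, ghs_N_cons]
      exact ghs_sym_AT hB e hw l ls hc (rep 0) _ _ (ghs_N_continuous hB _ hnn.tail _).measurable
        (fun G' => ghs_sym_N hB e hw P ls hnn.tail (fun l' hl' => hc l' (List.mem_cons_of_mem _ hl')) _ G') G

/-- `tr_nu_sym` of `Fd/TrB5`; the hypothesis `TrUses q P` is NEEDED (`trExt` fills the labels `≥ q` with `default`, and `e default ≠ default` in general) -/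
theorem ghs_tr_nu_sym [Inhabited S] {B : GhB S} (hB : B.Ok) {ls : List (GhLv S ι)} (hls : GhAdm B 0 ls) (q : ℕ) (τ : ℕ → ℕ → ℕ) (z : S → ℝ)
    (e : S ≃ S) (hw : ∀ s, B.w (e s) = B.w s) (hz : ∀ s, z (e s) = z s) (hc : ∀ l ∈ ls, ∀ s t, l.cov (e s) (e t) = l.cov s t)
    (P : (ℕ → S) → ℝ) (hP : TrUses q P) : trNu B ls q τ z (fun σ => P fun x => e (σ x)) = trNu B ls q τ z P := by
  have key := ghs_sym_N hB e hw (fun σ : Fin q → S => P (trExt σ)) ls (hls.ghNn le_rfl) hc (fun t => trRep q τ t) (fun _ => z)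
  have hz' : (fun (_ : Fin q) (s : S) => z (e s)) = fun _ => z := by
    funext _ s; exact hz s
  rw [hz'] at key
  unfold trNu
  unfold ghsN at key
  rw [← key]
  congr 1
  funext _ σ
  refine hP _ _ fun i hi => ?_
  simp [trExt, hi]

theorem ghs_sym_eqns_cite : True := by
  have := @ghsPb.eq_1
  trivial

end Claimed.Agent.R286
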